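import Mathlib.GroupTheory.FreeGroup.Reduce
import Mathlib.GroupTheory.SemidirectProduct
import Mathlib.Data.List.Flatten
import Mathlib.Algebra.Group.Commute.Basic

/-!
# The long words `W_i = a^i e b^(M (i+1)) a^(-i)` (P193, piece B)

They form a free basis, and a reduced word in them of total index weight `s` has length `≥ M * s`.
-/

namespace Vale.Agent.P193.B

open FreeGroup

inductive Letter
  | a | b | e
  deriving DecidableEq

instance : Fintype Letter where
  elems := {.a, .b, .e}
  complete l := by cases l <;> simp

/-- The free group in which the long words live. -/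
abbrev F : Type := FreeGroup Letter

/-- The long words. -/
def W (M i : ℕ) : F :=
  of .a ^ i * (of .e * of .b ^ (M * (i + 1))) * (of .a ^ i)⁻¹

/-- The substitution `i ↦ W_i`. -/
def wHom (M : ℕ) : FreeGroup ℕ →* F := FreeGroup.lift (W M)

/-- The alphabet of the kernel of the exponent sum of `a`. -/
abbrev Row : Type := ℤ × Bool

def eR (i : ℤ) : FreeGroup Row := of (i, false)

def bR (i : ℤ) : FreeGroup Row := of (i, true)

/-- Translation of the row alphabet. -/
def shift : Multiplicative ℤ →* MulAut (FreeGroup Row) where
  toFun k := freeGroupCongr ((Equiv.addLeft k.toAdd).prodCongr (Equiv.refl Bool))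
  map_one' := by
    ext x
    simp [freeGroupCongr]
  map_mul' k l := by
    ext x : 1
    simp only [freeGroupCongr, MulAut.mul_apply]
    simp [map.comp, Function.comp_def]
    rfl

theorem shift_of (k : Multiplicative ℤ) (p : Row) :
    shift k (of p) = of (k.toAdd + p.1, p.2) := by
  simp [shift, freeGroupCongr, Prod.map]

/-- Coordinates of `F` as rows and a shift. -/
def coords : F →* FreeGroup Row ⋊[shift] Multiplicative ℤ :=
  FreeGroup.lift fun
    | .a => .inr (Multiplicative.ofAdd 1)
    | .b => .inl (bR 0)
    | .e => .inl (eR 0)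

/-- The row substitution. -/
def rowHom (M : ℕ) : FreeGroup ℕ →* FreeGroup Row :=
  FreeGroup.lift fun i => eR i * bR i ^ (M * (i + 1))

theorem coords_W (M i : ℕ) : coords (W M i) = .inl (eR i * bR i ^ (M * (i + 1))) := by
  have ha : coords (of Letter.a ^ i) = .inr (Multiplicative.ofAdd (i : ℤ)) := by
    rw [_root_.map_pow, show coords (of Letter.a) = .inr (Multiplicative.ofAdd 1) by simp [coords],
      ← _root_.map_pow, ← ofAdd_nsmul, nsmul_one]
  have hm : coords (of Letter.e * of .b ^ (M * (i + 1))) =
      .inl (eR 0 * bR 0 ^ (M * (i + 1))) := by simp [coords]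
  rw [W, _root_.map_mul, _root_.map_mul, _root_.map_inv, ha, hm, ← _root_.map_inv, ← SemidirectProduct.inl_aut]
  simp [eR, bR, shift_of]

theorem coords_wHom (M : ℕ) (w : FreeGroup ℕ) : coords (wHom M w) = .inl (rowHom M w) := by
  have : coords.comp (wHom M) = (SemidirectProduct.inl (φ := shift)).comp (rowHom M) :=
    FreeGroup.ext_hom _ _ fun i => by simp [wHom, rowHom, coords_W]
  exact DFunLike.congr_fun this w

/-- Forget the letters `b`. -/
def erase : FreeGroup Row →* FreeGroup ℤ :=
  FreeGroup.lift fun p => if p.2 then 1 else of p.1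

theorem erase_rowHom (M : ℕ) (w : FreeGroup ℕ) :
    erase (rowHom M w) = FreeGroup.map (fun i : ℕ => (i : ℤ)) w := by
  have : erase.comp (rowHom M) = FreeGroup.map (fun i : ℕ => (i : ℤ)) :=
    FreeGroup.ext_hom _ _ fun i => by simp [erase, rowHom, eR, bR]
  exact DFunLike.congr_fun this w

/-- The long words form a free basis. -/
theorem wHom_injective (M : ℕ) : Function.Injective (wHom M) := by
  intro v w h
  have := congrArg coords h
  rw [coords_wHom, coords_wHom] at this
  have := congrArg erase (SemidirectProduct.inl_injective this)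
  rw [erase_rowHom, erase_rowHom] at this
  exact FreeGroup.map_injective Nat.cast_injective this

/-- The rows of one signed letter. -/
def block (M : ℕ) : ℕ × Bool → List (Row × Bool)
  | (i, true) => (((i : ℤ), false), true) :: List.replicate (M * (i + 1)) (((i : ℤ), true), true)
  | (i, false) => List.replicate (M * (i + 1)) (((i : ℤ), true), false) ++ [(((i : ℤ), false), false)]

theorem block_mem {M : ℕ} {q : ℕ × Bool} {x : Row × Bool} (hx : x ∈ block M q) :
    x.1.1 = (q.1 : ℤ) ∧ x.2 = q.2 := by
  obtain ⟨i, s⟩ := q
  cases s <;> simp [block, List.mem_append, List.mem_cons, List.mem_replicate] at hx <;>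
    rcases hx with hx | hx <;> simp [hx]

theorem block_ne_nil (M : ℕ) (q : ℕ × Bool) : block M q ≠ [] := by
  obtain ⟨i, s⟩ := q
  cases s <;> simp [block]

theorem length_block (M : ℕ) (q : ℕ × Bool) : (block M q).length = M * (q.1 + 1) + 1 := by
  obtain ⟨i, s⟩ := q
  cases s <;> simp [block]

theorem isReduced_blocks (M : ℕ) {L : List (ℕ × Bool)} (hL : FreeGroup.IsReduced L) :
    FreeGroup.IsReduced (L.flatMap (block M)) := by
  rw [List.flatMap_def, FreeGroup.IsReduced, List.isChain_flatten (fun h => by
    obtain ⟨q, -, hq⟩ := List.mem_map.1 h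
    exact block_ne_nil M q hq)]
  constructor
  · intro l hl
    obtain ⟨q, -, rfl⟩ := List.mem_map.1 hl
    refine List.Pairwise.isChain (List.pairwise_of_forall_mem_list fun x hx y hy _ => ?_)
    rw [(block_mem hx).2, (block_mem hy).2]
  · rw [List.isChain_map]
    refine hL.imp fun p q hpq x hx y hy hxy => ?_
    have hx' := block_mem (List.mem_of_mem_getLast? hx)
    have hy' := block_mem (List.mem_of_mem_head? hy)
    rw [hx'.2, hy'.2]
    refine hpq (Int.ofNat_inj.1 ?_)
    rw [← hx'.1, ← hy'.1, hxy]

theorem mk_blocks (M : ℕ) (L : List (ℕ × Bool)) :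
    rowHom M (mk L) = mk (L.flatMap (block M)) := by
  induction L with
  | nil => rfl
  | cons q L ih =>
    have hq : rowHom M (mk [q]) = mk (block M q) := by
      obtain ⟨i, s⟩ := q
      have hb : ∀ n, (bR i) ^ n = mk (List.replicate n (((i : ℤ), true), true)) := fun n => by
        induction n with
        | zero => rfl
        | succ n ihn => rw [pow_succ', ihn, bR, of, mul_mk, List.replicate_succ]; rfl
      have hpos : rowHom M (mk [(i, true)]) = mk (block M (i, true)) := by
        show rowHom M (of i) = _
        rw [rowHom, lift_apply_of, hb, eR, of, mul_mk]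
        rfl
      cases s
      · have : mk [(i, false)] = (mk [(i, true)] : FreeGroup ℕ)⁻¹ := by
          rw [inv_mk]; rfl
        rw [this, _root_.map_inv, hpos, inv_mk]
        congr 1
        simp [block, invRev]
      · exact hpos
    rw [show q :: L = [q] ++ L from rfl, ← mul_mk, _root_.map_mul, hq, ih, mul_mk, List.flatMap_append]
    simp

/-- No cancellation between the rows of a reduced word. -/
theorem norm_rowHom (M : ℕ) (w : FreeGroup ℕ) :
    (rowHom M w).norm = (w.toWord.map fun q => M * (q.1 + 1) + 1).sum := by
  conv_lhs => rw [← mk_toWord (x := w), mk_blocks]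
  rw [norm, toWord_mk, (isReduced_blocks M (isReduced_toWord)).reduce_eq, List.length_flatMap]
  simp [length_block]

theorem norm_map_le {α β : Type*} [DecidableEq α] [DecidableEq β] (f : α → β) (x : FreeGroup α) :
    (FreeGroup.map f x).norm ≤ x.norm := by
  conv_lhs => rw [← mk_toWord (x := x), map.mk]
  exact le_trans norm_mk_le (by simp [norm])

theorem norm_shift_le (k : Multiplicative ℤ) (x : FreeGroup Row) : (shift k x).norm ≤ x.norm := by
  show (FreeGroup.map _ x).norm ≤ _
  exact norm_map_le _ _

theorem norm_coords_le (x : F) : (coords x).left.norm ≤ x.norm := by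
  suffices h : ∀ L : List (Letter × Bool), (coords (mk L)).left.norm ≤ L.length by
    simpa [norm, mk_toWord] using h x.toWord
  intro L
  induction L with
  | nil =>
    show (coords 1).left.norm ≤ _
    simp
  | cons q L ih =>
    have hq : (coords (mk [q])).left.norm ≤ 1 := by
      obtain ⟨l, s⟩ := q
      have hp : ∀ l, (coords (of l)).left.norm ≤ 1 := fun l => by
        cases l <;> simp [coords, bR, eR]
      cases s
      · have : mk [(l, false)] = (of l : F)⁻¹ := by rw [of, inv_mk]; rfl
        rw [this, _root_.map_inv, SemidirectProduct.inv_left]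
        refine le_trans (norm_shift_le _ _) ?_
        rw [norm_inv_eq]; exact hp l
      · exact hp l
    rw [show q :: L = [q] ++ L from rfl, ← mul_mk, _root_.map_mul, SemidirectProduct.mul_left]
    refine le_trans (norm_mul_le _ _) ?_
    have := norm_shift_le (coords (mk [q])).right (coords (mk L)).left
    simp only [List.length_append, List.length_singleton]
    omega

/-- **Linear bound.** `M` times the index weight of `w` is at most the length of its image. -/
theorem weight_le (M : ℕ) (w : FreeGroup ℕ) :
    M * (w.toWord.map fun q => q.1 + 1).sum ≤ (wHom M w).norm := by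
  refine le_trans ?_ (norm_coords_le _)
  rw [coords_wHom, SemidirectProduct.left_inl, norm_rowHom]
  induction w.toWord with
  | nil => simp
  | cons q L ih =>
    simp only [List.map_cons, List.sum_cons, Nat.mul_add] at ih ⊢
    omega

/-- Back from coordinates. -/
def uncoords : FreeGroup Row ⋊[shift] Multiplicative ℤ →* F :=
  SemidirectProduct.lift
    (FreeGroup.lift fun p : Row =>
      of .a ^ p.1 * (if p.2 then of .b else of .e) * (of .a ^ p.1)⁻¹)
    (zpowersHom F (of .a))
    (fun k => FreeGroup.ext_hom _ _ fun p => by
      obtain ⟨i, t⟩ := p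
      have hz : ∀ n : ℤ, MulAut.conj (of Letter.a : F) ^ n = MulAut.conj (of .a ^ n) := fun n =>
        (_root_.map_zpow MulAut.conj _ n).symm
      cases t <;>
      · simp [shift_of, zpowersHom_apply]
        rw [hz]
        simp only [MulAut.conj_apply]
        rw [((Commute.refl (of Letter.a : F)).zpow_left _).eq, mul_inv_cancel_right, add_comm (Multiplicative.toAdd k) i,
          zpow_add]
        simp [mul_assoc])

theorem uncoords_coords (x : F) : uncoords (coords x) = x := by
  have : uncoords.comp coords = MonoidHom.id F :=
    FreeGroup.ext_hom _ _ fun l => by cases l <;> simp [uncoords, coords, bR, eR]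
  exact DFunLike.congr_fun this x

/-- Membership in the span of the long words is a retraction check. -/
theorem mem_range_wHom_iff {M : ℕ} {x : F} :
    x ∈ (wHom M).range ↔ (coords x).right = 1 ∧
      ∃ w : FreeGroup ℕ, FreeGroup.map (fun i : ℕ => (i : ℤ)) w = erase (coords x).left ∧
        rowHom M w = (coords x).left := by
  constructor
  · rintro ⟨w, rfl⟩
    rw [coords_wHom]
    exact ⟨rfl, w, (erase_rowHom M w).symm, rfl⟩
  · rintro ⟨h1, w, -, h2⟩
    refine ⟨w, ?_⟩
    rw [← uncoords_coords (wHom M w), coords_wHom, h2, ← uncoords_coords x]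
    refine congrArg uncoords (SemidirectProduct.ext ?_ ?_)
    · rw [uncoords_coords, SemidirectProduct.left_inl]
    · rw [uncoords_coords, SemidirectProduct.right_inl, h1]

end Vale.Agent.P193.B
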