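import Mathlib.GroupTheory.PushoutI
import Mathlib.Algebra.Group.Prod
import Mathlib.Algebra.Group.Subgroup.Map
import Mathlib.GroupTheory.Finiteness
import Mathlib.Data.Fin.VecNotation
import Mathlib.GroupTheory.NoncommCoprod
import Vale.Agent.P193.B.Blocks

/-!
# The amalgam `L` (P193, piece B)

`Ext Γ d = (Γ × F) *_{(d_i, W_i) = W_i'} F'` contains `Γ`, and `⟨F, F'⟩` meets `Γ` in `⟨d_i⟩`.
`L` is `Ext` applied twice: `L = Ext (Ext D d²) d¹`, so `L` contains `D` and `E = ⟨F, F'⟩` meets
`D` in `X = ⟨d¹_i⟩`. Left syllables are pairs, which keeps the reduction short.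
-/

namespace Vale.Agent.P193.B

open Monoid Monoid.PushoutI

universe u

/-- The two factors. -/
abbrev Fam (A B : Type u) : Bool → Type u
  | false => A
  | true => B

variable {A B C Q : Type u} [Group A] [Group B] [Group C] [Group Q]

instance famGroup : ∀ b, Group (Fam A B b)
  | false => ‹Group A›
  | true => ‹Group B›

/-- The two edge maps. -/
def famMap (f : C →* A) (g : C →* B) : ∀ b, C →* Fam A B b
  | false => f
  | true => g

/-- The amalgam of two groups. -/
abbrev Amal (f : C →* A) (g : C →* B) : Type u := PushoutI (famMap f g)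

def inA (f : C →* A) (g : C →* B) : A →* Amal f g := PushoutI.of (φ := famMap f g) false

def inB (f : C →* A) (g : C →* B) : B →* Amal f g := PushoutI.of (φ := famMap f g) true

namespace Amal

variable {f : C →* A} {g : C →* B}

theorem comm (x : C) : inA f g (f x) = inB f g (g x) := by
  have h₁ := of_apply_eq_base (famMap f g) false x
  have h₂ := of_apply_eq_base (famMap f g) true x
  exact h₁.trans h₂.symm

def lift (p : A →* Q) (q : B →* Q) (h : p.comp f = q.comp g) : Amal f g →* Q :=
  PushoutI.lift (fun | false => p | true => q) (p.comp f) (fun | false => rfl | true => h.symm)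

@[simp] theorem lift_inA (p : A →* Q) (q : B →* Q) (h : p.comp f = q.comp g) (x : A) :
    lift p q h (inA f g x) = p x :=
  PushoutI.lift_of (G := Fam A B) (φ := famMap f g) (i := false) _ _ _ x

@[simp] theorem lift_inB (p : A →* Q) (q : B →* Q) (h : p.comp f = q.comp g) (x : B) :
    lift p q h (inB f g x) = q x :=
  PushoutI.lift_of (G := Fam A B) (φ := famMap f g) (i := true) _ _ _ x

theorem hom_ext {p q : Amal f g →* Q} (hA : p.comp (inA f g) = q.comp (inA f g))
    (hB : p.comp (inB f g) = q.comp (inB f g)) : p = q :=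
  PushoutI.hom_ext_nonempty fun b => by cases b; exacts [hA, hB]

theorem famMap_injective (hf : Function.Injective f) (hg : Function.Injective g) :
    ∀ b, Function.Injective (famMap f g b)
  | false => hf
  | true => hg

theorem inA_injective (hf : Function.Injective f) (hg : Function.Injective g) :
    Function.Injective (inA f g) :=
  PushoutI.of_injective (famMap_injective hf hg) false

theorem inB_injective (hf : Function.Injective f) (hg : Function.Injective g) :
    Function.Injective (inB f g) :=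
  PushoutI.of_injective (famMap_injective hf hg) true

theorem mem_range_of_eq (hf : Function.Injective f) (hg : Function.Injective g) {x : A} {y : B}
    (h : inA f g x = inB f g y) : x ∈ f.range := by
  have hmem : inA f g x ∈ (PushoutI.base (famMap f g)).range := by
    rw [← inf_of_range_eq_base_range (famMap_injective hf hg) Bool.false_ne_true]
    exact ⟨⟨x, rfl⟩, ⟨y, h.symm⟩⟩
  obtain ⟨c, hc⟩ := hmem
  exact ⟨c, inA_injective hf hg ((of_apply_eq_base (famMap f g) false c).trans hc)⟩

end Amal

section Ext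

variable {Γ : Type} [Group Γ] (M : ℕ) (d : ℕ → Γ)

/-- `i ↦ (d_i, W_i)`. -/
def pairHom : FreeGroup ℕ →* Γ × F := (FreeGroup.lift d).prod (wHom M)

theorem pairHom_injective : Function.Injective (pairHom M d) := fun _ _ h =>
  wHom_injective M (congrArg Prod.snd h)

/-- `(Γ × F) *_{(d, W) = W'} F'`. -/
abbrev Ext : Type := Amal (pairHom M d) (wHom M)

namespace Ext

/-- The left factor. -/
def left : Γ × F →* Ext M d := inA _ _

def base : Γ →* Ext M d := (left M d).comp (MonoidHom.inl Γ F)

def f : F →* Ext M d := (left M d).comp (MonoidHom.inr Γ F)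

def f' : F →* Ext M d := inB _ _

theorem left_injective : Function.Injective (left M d) :=
  Amal.inA_injective (pairHom_injective M d) (wHom_injective M)

theorem base_injective : Function.Injective (base M d) :=
  (left_injective M d).comp fun _ _ h => congrArg Prod.fst h

theorem f'_injective : Function.Injective (f' M d) :=
  Amal.inB_injective (pairHom_injective M d) (wHom_injective M)

theorem left_apply (g : Γ) (u : F) : left M d (g, u) = base M d g * f M d u := by
  show left M d (g, u) = left M d (g, 1) * left M d (1, u)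
  rw [← map_mul]
  exact congrArg _ (Prod.ext (mul_one g).symm (one_mul u).symm)

theorem base_comm_f (g : Γ) (u : F) : base M d g * f M d u = f M d u * base M d g := by
  show left M d (g, 1) * left M d (1, u) = left M d (1, u) * left M d (g, 1)
  rw [← map_mul, ← map_mul]
  exact congrArg _ (Prod.ext ((mul_one g).trans (one_mul g).symm)
    ((one_mul u).trans (mul_one u).symm))

/-- The conversion between the two sides. -/
theorem left_pairHom (q : FreeGroup ℕ) : left M d (pairHom M d q) = f' M d (wHom M q) :=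
  Amal.comm q

theorem rel (i : ℕ) : base M d (d i) * f M d (W M i) = f' M d (W M i) := by
  rw [← left_apply]
  have h := left_pairHom M d (FreeGroup.of i)
  simpa [pairHom, wHom] using h

section lift

variable {M d} {Q : Type} [Group Q] (ψ : Γ →* Q) (p p' : F →* Q)
  (hc : ∀ g u, ψ g * p u = p u * ψ g) (h : ∀ i, ψ (d i) * p (W M i) = p' (W M i))

include hc h in
/-- The universal property. -/
def lift : Ext M d →* Q :=
  Amal.lift (MonoidHom.noncommCoprod ψ p hc) p'
    (FreeGroup.ext_hom _ _ fun i => by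
      simp only [pairHom, wHom, MonoidHom.comp_apply, MonoidHom.prod_apply,
        FreeGroup.lift_apply_of]
      exact h i)

@[simp] theorem lift_base (g : Γ) : lift ψ p p' hc h (base M d g) = ψ g := by
  refine (Amal.lift_inA _ _ _ (g, 1)).trans ?_
  show ψ g * p 1 = ψ g
  rw [map_one, mul_one]

@[simp] theorem lift_f (u : F) : lift ψ p p' hc h (f M d u) = p u := by
  refine (Amal.lift_inA _ _ _ (1, u)).trans ?_
  show ψ 1 * p u = p u
  rw [map_one, one_mul]

@[simp] theorem lift_f' (u : F) : lift ψ p p' hc h (f' M d u) = p' u := by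
  simp [lift, f']

end lift

theorem hom_ext {Q : Type} [Group Q] {p q : Ext M d →* Q}
    (hb : p.comp (base M d) = q.comp (base M d)) (hf : p.comp (f M d) = q.comp (f M d))
    (hf' : p.comp (f' M d) = q.comp (f' M d)) : p = q := by
  refine Amal.hom_ext (MonoidHom.ext fun x => ?_) hf'
  have hx : inA (pairHom M d) (wHom M) x = base M d x.1 * f M d x.2 := left_apply M d x.1 x.2
  have h1 := DFunLike.congr_fun hb x.1
  have h2 := DFunLike.congr_fun hf x.2
  simp only [MonoidHom.comp_apply] at h1 h2 ⊢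
  rw [hx, map_mul, map_mul, h1, h2]

/-- The subgroup `⟨F, F'⟩`. -/
def E : Subgroup (Ext M d) := (f M d).range ⊔ (f' M d).range

theorem E_fg : (E M d).FG := by
  classical
  refine ⟨(Finset.univ.image fun l : Letter => f M d (.of l)) ∪
    Finset.univ.image fun l : Letter => f' M d (.of l), ?_⟩
  rw [Finset.coe_union, Finset.coe_image, Finset.coe_image, Finset.coe_univ, Set.image_univ,
    Set.image_univ, Subgroup.closure_union, E, ← FreeGroup.range_lift_eq_closure,
    ← FreeGroup.range_lift_eq_closure]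
  congr 2 <;> exact FreeGroup.ext_hom _ _ fun l => by simp

/-- The amalgam again, written as `(Γ × F) *_{X × F} ((X × F) * F')`. -/
theorem aux {X : Subgroup Γ} (d' : ℕ → X) (hd' : ∀ i, (d' i : Γ) = d i) {g : Γ}
    (h : base M d g ∈ E M d) : g ∈ X := by
  have key : ∀ (e : X × F →* Γ × F) (e₁ : X × F →* Ext M d'), (∀ x, e x = ((x.1 : Γ), x.2)) →
      (∀ x, e₁ x = left M d' x) → g ∈ X := by
    intro e e₁ he he₁
    have hie : Function.Injective e := fun x y hxy => by
      rw [he, he] at hxy
      exact Prod.ext (Subtype.ext (congrArg Prod.fst hxy)) (congrArg (Prod.snd : Γ × F → F) hxy)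
    have hie₁ : Function.Injective e₁ := fun x y hxy => by
      rw [he₁, he₁] at hxy
      exact left_injective M d' hxy
    have hd : e.comp (pairHom M d') = pairHom M d :=
      FreeGroup.ext_hom _ _ fun i => by simp [he, pairHom, wHom, hd']
    have hψ : (inA e e₁).comp (pairHom M d) = ((inB e e₁).comp (f' M d')).comp (wHom M) := by
      rw [← hd]
      refine MonoidHom.ext fun q => ?_
      simp only [MonoidHom.comp_apply]
      rw [Amal.comm, he₁, left_pairHom]
    obtain ⟨ψ, hψA, hψB⟩ : ∃ ψ : Ext M d →* Amal e e₁, (∀ x, ψ (left M d x) = inA e e₁ x) ∧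
        ∀ u, ψ (f' M d u) = inB e e₁ (f' M d' u) :=
      ⟨Amal.lift _ _ hψ, Amal.lift_inA _ _ _, Amal.lift_inB _ _ _⟩
    have hle : E M d ≤ (inB e e₁).range.comap ψ := by
      refine sup_le ?_ ?_
      · rintro _ ⟨u, rfl⟩
        refine ⟨e₁ (1, u), ?_⟩
        rw [← Amal.comm, he, show f M d u = left M d (1, u) from rfl, hψA]
        rfl
      · rintro _ ⟨u, rfl⟩
        exact ⟨f' M d' u, (hψB u).symm⟩
    obtain ⟨y, hy⟩ := hle h
    rw [show base M d g = left M d (g, 1) from rfl, hψA] at hy
    obtain ⟨x, hx⟩ := Amal.mem_range_of_eq hie hie₁ hy.symm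
    rw [he] at hx
    exact (show (x.1 : Γ) = g from congrArg Prod.fst hx) ▸ x.1.2
  exact key (X.subtype.prodMap (MonoidHom.id F)) (left M d') (fun _ => rfl) fun _ => rfl

/-- `⟨F, F'⟩` meets `Γ` in the span of the `d_i`. -/
theorem base_mem_E_iff {g : Γ} : base M d g ∈ E M d ↔ g ∈ Subgroup.closure (Set.range d) := by
  constructor
  · intro h
    let X := Subgroup.closure (Set.range d)
    let d' : ℕ → X := fun i => ⟨d i, Subgroup.subset_closure ⟨i, rfl⟩⟩
    exact aux M d d' (fun i => rfl) h
  · intro h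
    have hle : Subgroup.closure (Set.range d) ≤ (E M d).comap (base M d) := by
      rw [Subgroup.closure_le]
      rintro _ ⟨i, rfl⟩
      show base M d (d i) ∈ E M d
      rw [eq_mul_inv_of_mul_eq (rel M d i)]
      exact mul_mem (Subgroup.mem_sup_right ⟨_, rfl⟩) (inv_mem (Subgroup.mem_sup_left ⟨_, rfl⟩))
    exact hle h

theorem eq_top_of_mem {R : Subgroup (Ext M d)} (hb : ∀ g, base M d g ∈ R)
    (hf : ∀ u, f M d u ∈ R) (hf' : ∀ u, f' M d u ∈ R) : R = ⊤ := by
  have hA : ∀ x, left M d x ∈ R := fun x => by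
    rw [← Prod.mk.eta (p := x), left_apply]
    exact mul_mem (hb _) (hf _)
  refine eq_top_iff.2 fun x hx => ?_
  clear hx
  induction x using PushoutI.induction_on with
  | of b y => cases b; exacts [hA y, hf' y]
  | base y => rw [← of_apply_eq_base _ true]; exact hf' _
  | mul y z hy hz => exact mul_mem hy hz

end Ext

end Ext

section L

variable {D : Type} [Group D] (X : Subgroup D) (M : ℕ) (d₁ : ℕ → X) (d₂ : ℕ → D)

/-- `L = Ext (Ext D d²) d¹`. -/
abbrev L : Type := Ext M fun i => Ext.base M d₂ (d₁ i)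

namespace L

def inD : D →* L X M d₁ d₂ := (Ext.base _ _).comp (Ext.base M d₂)

theorem inD_injective : Function.Injective (inD X M d₁ d₂) :=
  (Ext.base_injective _ _).comp (Ext.base_injective M d₂)

def f₁ : F →* L X M d₁ d₂ := Ext.f _ _

def f₁' : F →* L X M d₁ d₂ := Ext.f' _ _

def f₂ : F →* L X M d₁ d₂ := (Ext.base _ _).comp (Ext.f M d₂)

def f₂' : F →* L X M d₁ d₂ := (Ext.base _ _).comp (Ext.f' M d₂)

theorem rel₁ (i : ℕ) :
    inD X M d₁ d₂ (d₁ i) * f₁ X M d₁ d₂ (W M i) = f₁' X M d₁ d₂ (W M i) :=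
  Ext.rel M (fun i => Ext.base M d₂ (d₁ i : D)) i

theorem rel₂ (i : ℕ) :
    inD X M d₁ d₂ (d₂ i) * f₂ X M d₁ d₂ (W M i) = f₂' X M d₁ d₂ (W M i) := by
  show Ext.base _ _ (Ext.base M d₂ (d₂ i)) * Ext.base _ _ (Ext.f M d₂ (W M i)) = _
  rw [← map_mul, Ext.rel]
  rfl

/-- `E = ⟨F₁, F₁'⟩`. -/
def E : Subgroup (L X M d₁ d₂) := Ext.E _ _

theorem E_fg : (E X M d₁ d₂).FG := Ext.E_fg _ _

/-- `E` meets `D` in `X`. -/
theorem inD_mem_E_iff (hX : Subgroup.closure (Set.range fun i => (d₁ i : D)) = X) {x : D} :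
    inD X M d₁ d₂ x ∈ E X M d₁ d₂ ↔ x ∈ X := by
  refine (Ext.base_mem_E_iff M (fun i => Ext.base M d₂ (d₁ i : D))
    (g := Ext.base M d₂ x)).trans ?_
  have : Subgroup.closure (Set.range fun i => Ext.base M d₂ (d₁ i : D)) = X.map (Ext.base M d₂) := by
    conv_rhs => rw [← hX, MonoidHom.map_closure, ← Set.range_comp]
    rfl
  rw [this, Subgroup.mem_map_iff_mem (Ext.base_injective M d₂)]

/-- The twelve generators generate. -/
theorem gens_generate
    (hD : Subgroup.closure (Set.range (fun i => (d₁ i : D)) ∪ Set.range d₂) = ⊤)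
    {R : Subgroup (L X M d₁ d₂)} (h1 : ∀ l, f₁ X M d₁ d₂ (.of l) ∈ R)
    (h1' : ∀ l, f₁' X M d₁ d₂ (.of l) ∈ R) (h2 : ∀ l, f₂ X M d₁ d₂ (.of l) ∈ R)
    (h2' : ∀ l, f₂' X M d₁ d₂ (.of l) ∈ R) : R = ⊤ := by
  have hF : ∀ q : F →* L X M d₁ d₂, (∀ l, q (.of l) ∈ R) → ∀ u, q u ∈ R := by
    intro q hq u
    induction u using FreeGroup.induction_on with
    | C1 => rw [map_one]; exact one_mem _
    | of l => exact hq l
    | inv_of l hl => rw [map_inv]; exact inv_mem hl
    | mul a b ha hb => rw [map_mul]; exact mul_mem ha hb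
  have hD' : ∀ x, inD X M d₁ d₂ x ∈ R := by
    intro x
    have hle : Subgroup.closure (Set.range (fun i => (d₁ i : D)) ∪ Set.range d₂) ≤
        R.comap (inD X M d₁ d₂) := by
      rw [Subgroup.closure_le]
      rintro _ (⟨i, rfl⟩ | ⟨i, rfl⟩)
      · show inD X M d₁ d₂ (d₁ i) ∈ R
        rw [eq_mul_inv_of_mul_eq (rel₁ X M d₁ d₂ i)]
        exact mul_mem (hF _ h1' _) (inv_mem (hF _ h1 _))
      · show inD X M d₁ d₂ (d₂ i) ∈ R
        rw [eq_mul_inv_of_mul_eq (rel₂ X M d₁ d₂ i)]
        exact mul_mem (hF _ h2' _) (inv_mem (hF _ h2 _))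
    rw [hD] at hle
    exact hle (Subgroup.mem_top x)
  refine Ext.eq_top_of_mem M _ (fun g => ?_) (hF _ h1) (hF _ h1')
  have : R.comap (Ext.base M fun i => Ext.base M d₂ (d₁ i : D)) = ⊤ :=
    Ext.eq_top_of_mem M d₂ hD' (hF _ h2) (hF _ h2')
  exact this.ge (Subgroup.mem_top g)

end L

end L

end Vale.Agent.P193.B
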