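import Mathlib.GroupTheory.HNNExtension
import Mathlib.GroupTheory.FinitelyPresentedGroup
import Mathlib.GroupTheory.SpecificGroups.Cyclic
import Mathlib.GroupTheory.GroupAction.Quotient
import Mathlib.GroupTheory.Finiteness

/-!
# The ascending HNN extension and its two double cosets (P193, piece B)

`P = ⟨K, t | t s t⁻¹ = θ s⟩`, `H = ⟨t, E⟩`.
-/

noncomputable section

namespace Vale.Agent.P193.B

variable {K : Type} [Group K] (θ : K →* K) (hθ : Function.Injective θ)

/-- The associated isomorphism. -/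
noncomputable def ascEquiv : (⊤ : Subgroup K) ≃* θ.range :=
  Subgroup.topEquiv.trans (MonoidHom.ofInjective hθ)

/-- The ascending HNN extension. -/
abbrev P : Type := HNNExtension K ⊤ θ.range (ascEquiv θ hθ)

namespace P

/-- The base. -/
def of : K →* P θ hθ := HNNExtension.of

/-- The stable letter. -/
def t : P θ hθ := HNNExtension.t

theorem of_injective : Function.Injective (of θ hθ) :=
  HNNExtension.of_injective (φ := ascEquiv θ hθ)

theorem t_mul_of (x : K) : t θ hθ * of θ hθ x = of θ hθ (θ x) * t θ hθ :=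
  HNNExtension.t_mul_of (φ := ascEquiv θ hθ) ⟨x, Subgroup.mem_top x⟩

theorem pow_mul_of (n : ℕ) (x : K) :
    t θ hθ ^ n * of θ hθ x = of θ hθ (θ^[n] x) * t θ hθ ^ n := by
  induction n with
  | zero => simp
  | succ n ih =>
    rw [pow_succ', mul_assoc, ih, ← mul_assoc, t_mul_of, mul_assoc, Function.iterate_succ_apply']

theorem of_mul_inv_pow (n : ℕ) (x : K) :
    of θ hθ x * (t θ hθ ^ n)⁻¹ = (t θ hθ ^ n)⁻¹ * of θ hθ (θ^[n] x) := by
  rw [mul_inv_eq_iff_eq_mul, mul_assoc, ← pow_mul_of, inv_mul_cancel_left]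

/-- Exponent of the stable letter. -/
noncomputable def expo : P θ hθ →* Multiplicative ℤ :=
  HNNExtension.lift 1 (Multiplicative.ofAdd 1) fun _ => by simp

theorem expo_of (x : K) : expo θ hθ (of θ hθ x) = 1 :=
  HNNExtension.lift_of (φ := ascEquiv θ hθ) _ _ _ x

theorem expo_t : expo θ hθ (t θ hθ) = Multiplicative.ofAdd 1 :=
  HNNExtension.lift_t (φ := ascEquiv θ hθ) _ _ _

/-- The elements `t^(-a) e t^b` with `e` in `E`. -/
def band (E : Subgroup K) (p : P θ hθ) : Prop :=
  ∃ (a : ℕ) (e : K) (b : ℕ), e ∈ E ∧ p = (t θ hθ ^ a)⁻¹ * of θ hθ e * t θ hθ ^ b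

variable {θ hθ} {E : Subgroup K}

theorem band.mul (hE : ∀ e ∈ E, θ e ∈ E) {p q : P θ hθ} (hp : band θ hθ E p)
    (hq : band θ hθ E q) : band θ hθ E (p * q) := by
  have hit : ∀ n, ∀ e ∈ E, θ^[n] e ∈ E := fun n => by
    induction n with
    | zero => exact fun e he => he
    | succ n ih => exact fun e he => Function.iterate_succ_apply' (θ : K → K) n e ▸ hE _ (ih e he)
  obtain ⟨a, e, b, he, rfl⟩ := hp
  obtain ⟨c, f, d, hf, rfl⟩ := hq
  rcases le_total c b with h | h
  · obtain ⟨r, rfl⟩ := Nat.exists_eq_add_of_le h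
    refine ⟨a, e * θ^[r] f, r + d, mul_mem he (hit r f hf), ?_⟩
    calc (t θ hθ ^ a)⁻¹ * of θ hθ e * t θ hθ ^ (c + r) *
          ((t θ hθ ^ c)⁻¹ * of θ hθ f * t θ hθ ^ d)
        = (t θ hθ ^ a)⁻¹ * of θ hθ e * (t θ hθ ^ r * of θ hθ f) * t θ hθ ^ d := by
          rw [add_comm c r, pow_add]; group
      _ = _ := by rw [pow_mul_of, map_mul, pow_add]; group
  · obtain ⟨r, rfl⟩ := Nat.exists_eq_add_of_le h
    refine ⟨r + a, θ^[r] e * f, d, mul_mem (hit r e he) hf, ?_⟩
    calc (t θ hθ ^ a)⁻¹ * of θ hθ e * t θ hθ ^ b *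
          ((t θ hθ ^ (b + r))⁻¹ * of θ hθ f * t θ hθ ^ d)
        = (t θ hθ ^ a)⁻¹ * (of θ hθ e * (t θ hθ ^ r)⁻¹) * of θ hθ f * t θ hθ ^ d := by
          rw [add_comm b r, pow_add]; group
      _ = _ := by rw [of_mul_inv_pow, map_mul, pow_add, mul_inv_rev]; group

theorem band.inv {p : P θ hθ} (hp : band θ hθ E p) : band θ hθ E p⁻¹ := by
  obtain ⟨a, e, b, he, rfl⟩ := hp
  exact ⟨b, e⁻¹, a, inv_mem he, by rw [map_inv]; group⟩

theorem band.of {e : K} (he : e ∈ E) : band θ hθ E (P.of θ hθ e) := ⟨0, e, 0, he, by simp⟩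

theorem band.t : band θ hθ E (P.t θ hθ) := ⟨0, 1, 1, one_mem E, by simp⟩

/-- Every element is `t^(-a) k t^b`. -/
theorem band_top (p : P θ hθ) : band θ hθ ⊤ p := by
  induction p using HNNExtension.induction_on with
  | of x => exact band.of (Subgroup.mem_top x)
  | t => exact band.t
  | mul p q hp hq => exact band.mul (fun _ _ => Subgroup.mem_top _) hp hq
  | inv p hp => exact band.inv hp

variable (θ hθ E) in
/-- `H = ⟨t, E⟩`. -/
def H : Subgroup (P θ hθ) := Subgroup.closure (insert (t θ hθ) (of θ hθ '' (E : Set K)))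

theorem t_mem_H : t θ hθ ∈ H θ hθ E := Subgroup.subset_closure (Set.mem_insert _ _)

theorem of_mem_H {e : K} (he : e ∈ E) : of θ hθ e ∈ H θ hθ E :=
  Subgroup.subset_closure (Set.mem_insert_of_mem _ ⟨e, he, rfl⟩)

theorem band_of_mem_H (hE : ∀ e ∈ E, θ e ∈ E) {p : P θ hθ} (hp : p ∈ H θ hθ E) :
    band θ hθ E p := by
  induction hp using Subgroup.closure_induction with
  | mem p hp =>
    rcases hp with rfl | ⟨e, he, rfl⟩
    · exact band.t
    · exact band.of he
  | one => exact ⟨0, 1, 0, one_mem E, by simp⟩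
  | mul p q _ _ hp hq => exact band.mul hE hp hq
  | inv p _ hp => exact hp.inv

theorem H_fg (hfg : E.FG) : (H θ hθ E).FG := by
  classical
  obtain ⟨S, hS⟩ := hfg
  refine ⟨insert (t θ hθ) (S.image (of θ hθ)), le_antisymm ?_ ?_⟩
  · rw [Subgroup.closure_le]
    intro p hp
    rcases Finset.mem_insert.1 hp with rfl | hp
    · exact t_mem_H
    · obtain ⟨e, he, rfl⟩ := Finset.mem_image.1 hp
      exact of_mem_H (hS ▸ Subgroup.subset_closure he)
  · rw [H, Subgroup.closure_le, Set.insert_subset_iff]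
    refine ⟨Subgroup.subset_closure (Finset.mem_insert_self _ _), ?_⟩
    rintro _ ⟨e, he, rfl⟩
    have hle : Subgroup.closure (S : Set K) ≤ (Subgroup.closure
        ((insert (t θ hθ) (S.image (of θ hθ)) : Finset _) : Set (P θ hθ))).comap (of θ hθ) := by
      rw [Subgroup.closure_le]
      intro s hs
      exact Subgroup.subset_closure (Finset.mem_insert_of_mem (Finset.mem_image_of_mem _ hs))
    exact hle (hS.symm ▸ he)

/-- `H` meets the base in `E`. -/
theorem of_mem_H_iff (hE : ∀ e ∈ E, θ e ∈ E) (hsat : ∀ x, θ x ∈ E → x ∈ E) {x : K} :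
    of θ hθ x ∈ H θ hθ E ↔ x ∈ E := by
  refine ⟨fun h => ?_, of_mem_H⟩
  obtain ⟨a, e, b, he, h⟩ := band_of_mem_H hE h
  have hab : a = b := by
    have := congrArg (expo θ hθ) h
    simp only [map_mul, map_inv, map_pow, expo_of, expo_t, mul_one] at this
    have := congrArg Multiplicative.toAdd this
    simp at this
    omega
  subst hab
  have h' : of θ hθ (θ^[a] x) * t θ hθ ^ a = of θ hθ e * t θ hθ ^ a := by
    rw [← pow_mul_of, h]; group
  have he' : θ^[a] x ∈ E := of_injective θ hθ (mul_right_cancel h') ▸ he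
  clear h h'
  induction a with
  | zero => exact he'
  | succ a ih => exact ih (hsat _ (Function.iterate_succ_apply' (θ : K → K) a x ▸ he'))

/-- `P = H ∪ H c H`. -/
theorem exists_double_coset {c : K}
    (hdc : ∀ x, x ∉ E → ∃ u ∈ E, ∃ v ∈ E, θ x = u * c * v) (p : P θ hθ) :
    p ∈ H θ hθ E ∨ ∃ u ∈ H θ hθ E, ∃ v ∈ H θ hθ E, p = u * of θ hθ c * v := by
  obtain ⟨a, x, b, -, rfl⟩ := band_top p
  by_cases hx : x ∈ E
  · exact .inl (mul_mem (mul_mem (inv_mem (pow_mem t_mem_H a)) (of_mem_H hx)) (pow_mem t_mem_H b))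
  · obtain ⟨u, hu, v, hv, huv⟩ := hdc x hx
    refine .inr ⟨(t θ hθ ^ a)⁻¹ * (t θ hθ)⁻¹ * of θ hθ u,
      mul_mem (mul_mem (inv_mem (pow_mem t_mem_H a)) (inv_mem t_mem_H)) (of_mem_H hu),
      of θ hθ v * t θ hθ * t θ hθ ^ b,
      mul_mem (mul_mem (of_mem_H hv) t_mem_H) (pow_mem t_mem_H b), ?_⟩
    have h1 : of θ hθ x = (t θ hθ)⁻¹ * (of θ hθ (θ x) * t θ hθ) := by
      rw [← t_mul_of, inv_mul_cancel_left]
    rw [h1, huv, map_mul, map_mul]
    group

variable (θ hθ E) in
/-- The core of `H`. -/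
abbrev core : Subgroup (P θ hθ) := (H θ hθ E).normalCore

/-- The core meets the base trivially. -/
theorem eq_one_of_of_mem_core (hE : ∀ e ∈ E, θ e ∈ E) (hsat : ∀ x, θ x ∈ E → x ∈ E) {z : K}
    (hz : ∀ x ∈ E, z * θ x * z⁻¹ ∈ E → x = 1) {x : K} (hx : of θ hθ x ∈ core θ hθ E) :
    x = 1 := by
  refine hz x ((of_mem_H_iff hE hsat).1 ((H θ hθ E).normalCore_le hx)) ?_
  rw [← of_mem_H_iff (θ := θ) (hθ := hθ) hE hsat]
  refine (H θ hθ E).normalCore_le ?_
  have h2 : of θ hθ (z * θ x * z⁻¹) =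
      (of θ hθ z * t θ hθ) * of θ hθ x * (of θ hθ z * t θ hθ)⁻¹ := by
    rw [mul_assoc _ (t θ hθ), t_mul_of, map_mul, map_mul, map_inv]; group
  rw [h2]
  exact (H θ hθ E).normalCore_normal.conj_mem _ hx _

theorem core_inj (hE : ∀ e ∈ E, θ e ∈ E) (hsat : ∀ x, θ x ∈ E → x ∈ E) {z : K}
    (hz : ∀ x ∈ E, z * θ x * z⁻¹ ∈ E → x = 1) :
    Function.Injective ((expo θ hθ).comp (core θ hθ E).subtype) := by
  rw [← MonoidHom.ker_eq_bot_iff, eq_bot_iff]
  rintro ⟨p, hp⟩ hker
  obtain ⟨a, x, b, -, rfl⟩ := band_top p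
  have hab : a = b := by
    have h : expo θ hθ ((t θ hθ ^ a)⁻¹ * of θ hθ x * t θ hθ ^ b) = 1 := hker
    simp only [map_mul, map_inv, map_pow, expo_of, expo_t, mul_one] at h
    have := congrArg Multiplicative.toAdd h
    simp at this
    omega
  subst hab
  have hx : of θ hθ x ∈ core θ hθ E := by
    have := (H θ hθ E).normalCore_normal.conj_mem _ hp (t θ hθ ^ a)
    convert this using 1
    group
  have := eq_one_of_of_mem_core hE hsat hz hx
  simp [this]

theorem core_normallyFG (hE : ∀ e ∈ E, θ e ∈ E) (hsat : ∀ x, θ x ∈ E → x ∈ E) {z : K}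
    (hz : ∀ x ∈ E, z * θ x * z⁻¹ ∈ E → x = 1) :
    (core θ hθ E).IsFinitelyNormallyGenerated := by
  have : IsCyclic (core θ hθ E) := isCyclic_of_injective _ (core_inj hE hsat hz)
  obtain ⟨g, hg⟩ := IsCyclic.exists_generator (α := core θ hθ E)
  have : Group.FG (core θ hθ E) := Group.fg_iff.2
    ⟨{g}, eq_top_iff.2 fun x _ => Subgroup.zpowers_eq_closure g ▸ hg x, Set.finite_singleton g⟩
  exact Subgroup.IsFinitelyNormallyGenerated.of_FG _

/-- `P` is finitely presented. -/
theorem finitelyPresented [Group.IsFinitelyPresented K] :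
    Group.IsFinitelyPresented (P θ hθ) := by
  classical
  obtain ⟨n, φ, hφ, S, hS, hker⟩ := Group.IsFinitelyPresented.out (G := K)
  let ψ : FreeGroup (Option (Fin n)) →* P θ hθ :=
    FreeGroup.lift fun o => o.elim (t θ hθ) fun i => of θ hθ (φ (.of i))
  have hψι : ψ.comp (FreeGroup.map some) = (of θ hθ).comp φ :=
    FreeGroup.ext_hom _ _ fun i => by simp [ψ]
  choose r hr using fun i => hφ (θ (φ (FreeGroup.of i)))
  let R : Set (FreeGroup (Option (Fin n))) := FreeGroup.map some '' S ∪ Set.range fun i =>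
    FreeGroup.of none * FreeGroup.of (some i) * (FreeGroup.of none)⁻¹ * (FreeGroup.map some (r i))⁻¹
  have hψr : ∀ x, ψ (FreeGroup.map some x) = of θ hθ (φ x) := DFunLike.congr_fun hψι
  have hsurj : Function.Surjective ψ := by
    intro p
    induction p using HNNExtension.induction_on with
    | of x => obtain ⟨w, rfl⟩ := hφ x; exact ⟨_, hψr w⟩
    | t => exact ⟨FreeGroup.of none, FreeGroup.lift_apply_of⟩
    | mul p q hp hq =>
      obtain ⟨v, rfl⟩ := hp; obtain ⟨w, rfl⟩ := hq; exact ⟨v * w, map_mul _ _ _⟩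
    | inv p hp => obtain ⟨v, rfl⟩ := hp; exact ⟨v⁻¹, map_inv _ _⟩
  suffices h : Group.IsFinitelyPresented (P θ hθ) from h
  have hR : ψ.ker.IsFinitelyNormallyGenerated := by
    refine ⟨R, (hS.image _).union (Set.finite_range _), le_antisymm ?_ ?_⟩
    · refine Subgroup.normalClosure_le_normal ?_
      rintro _ (⟨s, hs, rfl⟩ | ⟨i, rfl⟩)
      · show ψ _ = 1
        rw [hψr, MonoidHom.mem_ker.1 (le_of_eq hker (Subgroup.subset_normalClosure hs)), map_one]
      · show ψ _ = 1
        simp only [map_mul, map_inv, hψr, hr]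
        have h1 : ψ (FreeGroup.of none) = t θ hθ := FreeGroup.lift_apply_of
        have h2 : ψ (FreeGroup.of (some i)) = of θ hθ (φ (FreeGroup.of i)) :=
          FreeGroup.lift_apply_of
        rw [h1, h2, t_mul_of, mul_inv_cancel_right, mul_inv_cancel]
    · let N := Subgroup.normalClosure R
      let π := QuotientGroup.mk' N
      have hk : φ.ker ≤ (π.comp (FreeGroup.map some)).ker := by
        rw [← hker]
        refine Subgroup.normalClosure_le_normal fun s hs => ?_
        exact (QuotientGroup.eq_one_iff _).2 (Subgroup.subset_normalClosure (.inl ⟨s, hs, rfl⟩))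
      let f : K →* FreeGroup (Option (Fin n)) ⧸ N :=
        φ.liftOfSurjective hφ ⟨π.comp (FreeGroup.map some), hk⟩
      have hf : f.comp φ = π.comp (FreeGroup.map some) := MonoidHom.liftOfRightInverse_comp φ _ _ _
      have hf' : ∀ x, f (φ x) = π (FreeGroup.map some x) := DFunLike.congr_fun hf
      have hrel : ((MulAut.conj (π (FreeGroup.of none))).toMonoidHom.comp f).comp φ =
          (f.comp θ).comp φ := by
        refine FreeGroup.ext_hom _ _ fun i => ?_
        simp only [MonoidHom.comp_apply, MulEquiv.coe_toMonoidHom, MulAut.conj_apply]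
        rw [← hr i, hf', hf', ← mul_inv_eq_one, ← map_inv, ← map_mul, ← map_mul, ← map_inv,
          ← map_mul]
        refine (QuotientGroup.eq_one_iff _).2 ?_
        rw [FreeGroup.map.of]
        exact Subgroup.subset_normalClosure (.inr ⟨i, rfl⟩)
      have hrel' : ∀ x, π (FreeGroup.of none) * f x * (π (FreeGroup.of none))⁻¹ = f (θ x) := by
        intro x
        obtain ⟨w, rfl⟩ := hφ x
        exact DFunLike.congr_fun hrel w
      let g : P θ hθ →* FreeGroup (Option (Fin n)) ⧸ N :=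
        HNNExtension.lift f (π (FreeGroup.of none)) fun a => by
          rw [show ((ascEquiv θ hθ a : θ.range) : K) = θ a from rfl, ← hrel']
          group
      have hg : g.comp ψ = π := by
        refine FreeGroup.ext_hom _ _ fun o => ?_
        cases o with
        | none =>
          rw [MonoidHom.comp_apply, show ψ (FreeGroup.of none) = t θ hθ from FreeGroup.lift_apply_of]
          exact HNNExtension.lift_t (φ := ascEquiv θ hθ) _ _ _
        | some i =>
          rw [MonoidHom.comp_apply, show ψ (FreeGroup.of (some i)) = of θ hθ (φ (FreeGroup.of i)) from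
            FreeGroup.lift_apply_of]
          refine (HNNExtension.lift_of (φ := ascEquiv θ hθ) _ _ _ _).trans ?_
          rw [hf', FreeGroup.map.of]
      intro w hw
      refine (QuotientGroup.eq_one_iff w).1 ?_
      show π w = 1
      rw [← hg, MonoidHom.comp_apply, MonoidHom.mem_ker.1 hw, map_one]
  exact @Group.IsFinitelyPresented.of_surjective _ _ _ _ inferInstance ψ hsurj hR

end P

/-- **Double coset criterion.** A finitely presented group containing an embedded copy of `G`, with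
a finitely generated core-free subgroup of two double cosets. -/
theorem exists_twoDoubleCosets {G : Type} [Group G] [Group.IsFinitelyPresented K]
    (hθ : Function.Injective θ) {E : Subgroup K} (hfg : E.FG) (hE : ∀ e ∈ E, θ e ∈ E)
    (hsat : ∀ x, θ x ∈ E → x ∈ E) {c : K} (hc : c ∉ E)
    (hdc : ∀ x, x ∉ E → ∃ u ∈ E, ∃ v ∈ E, θ x = u * c * v) {z : K}
    (hz : ∀ x ∈ E, z * θ x * z⁻¹ ∈ E → x = 1) (ι : G →* K) (hι : Function.Injective ι) :
    ∃ (Q : Type) (_ : Group Q) (_ : Group.IsFinitelyPresented Q) (S : Subgroup Q) (d : Q)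
      (j : G →* Q), Function.Injective j ∧ S.FG ∧ d ∉ S ∧ S.normalCore = ⊥ ∧
        ∀ q, q ∈ S ∨ ∃ u ∈ S, ∃ v ∈ S, q = u * d * v := by
  let N := P.core θ hθ E
  let π := QuotientGroup.mk' N
  have hfp : Group.IsFinitelyPresented (P θ hθ) := P.finitelyPresented
  have hπ : Function.Surjective π := QuotientGroup.mk'_surjective N
  have hcomap : ((P.H θ hθ E).map π).comap π = P.H θ hθ E := by
    rw [Subgroup.comap_map_eq, QuotientGroup.ker_mk']
    exact sup_eq_left.2 (Subgroup.normalCore_le _)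
  refine ⟨P θ hθ ⧸ N, inferInstance,
    Group.IsFinitelyPresented.quotient N (P.core_normallyFG hE hsat hz),
    (P.H θ hθ E).map π, π (P.of θ hθ c), π.comp ((P.of θ hθ).comp ι), ?_, ?_, ?_, ?_, ?_⟩
  · rw [← MonoidHom.ker_eq_bot_iff, eq_bot_iff]
    intro g hg
    have h : P.of θ hθ (ι g) ∈ N := (QuotientGroup.eq_one_iff _).1 hg
    exact hι ((P.eq_one_of_of_mem_core hE hsat hz h).trans (map_one ι).symm)
  · obtain ⟨T, hT⟩ := P.H_fg (θ := θ) (hθ := hθ) hfg
    classical
    exact ⟨T.image π, by rw [Finset.coe_image, ← MonoidHom.map_closure, hT]⟩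
  · intro h
    have : P.of θ hθ c ∈ ((P.H θ hθ E).map π).comap π := h
    rw [hcomap, P.of_mem_H_iff hE hsat] at this
    exact hc this
  · rw [eq_bot_iff]
    intro q hq
    obtain ⟨p, rfl⟩ := hπ q
    refine (QuotientGroup.eq_one_iff p).2 fun b => ?_
    have := Subgroup.normalCore_le _ (((P.H θ hθ E).map π).normalCore_normal.conj_mem _ hq (π b))
    rw [← map_inv, ← map_mul, ← map_mul] at this
    have : b * p * b⁻¹ ∈ ((P.H θ hθ E).map π).comap π := this
    rwa [hcomap] at this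
  · intro q
    obtain ⟨p, rfl⟩ := hπ q
    rcases P.exists_double_coset hdc p with h | ⟨u, hu, v, hv, rfl⟩
    · exact .inl ⟨p, h, rfl⟩
    · exact .inr ⟨π u, ⟨u, hu, rfl⟩, π v, ⟨v, hv, rfl⟩, by rw [map_mul, map_mul]⟩

end Vale.Agent.P193.B
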