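import Vale.Agent.P193.B.Free
import Vale.Agent.P193.B.Amalgam
import Vale.Agent.P193.B.Ascending

/-!
# Piece B assembled (P193): what the recursion has to provide

If a finitely presented `K` contains `L(K)` with `⟨F₁, F₁'⟩` going onto the subgroup `X₀` used to build
`L(K)`, then `G` embeds in a finitely presented group with a finitely generated core-free subgroup
of two double cosets.
-/

namespace Vale.Agent.P193.B

open Monoid

variable {K G : Type} [Group K] [Group G]

theorem closure_gens_D {S : Set (D K G)} (hK : ∀ x, inK x ∈ Subgroup.closure S)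
    (hG : ∀ x, inG x ∈ Subgroup.closure S) (hc : cD ∈ Subgroup.closure S)
    (hz : zD ∈ Subgroup.closure S) (hh : ∀ j, hD j ∈ Subgroup.closure S) :
    Subgroup.closure S = ⊤ := by
  refine eq_top_iff.2 fun x hx => ?_
  clear hx
  induction x using Coprod.induction_on with
  | inl y =>
    induction y using Coprod.induction_on with
    | inl a => exact hK a
    | inr b => exact hG b
    | mul a b ha hb => rw [map_mul]; exact mul_mem ha hb
  | inr y =>
    induction y using FreeGroup.induction_on with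
    | C1 => rw [map_one]; exact one_mem _
    | of i => rcases i with ((_ | _) | j); exacts [hc, hz, hh j]
    | inv_of i hi => rw [map_inv]; exact inv_mem hi
    | mul a b ha hb => rw [map_mul]; exact mul_mem ha hb
  | mul a b ha hb => exact mul_mem ha hb

/-- Infinitely many cosets, as piece A wants. -/
theorem infinite_quotient_of_normalCore {Q : Type} [Group Q] [Infinite G] {e : G →* Q}
    (he : Function.Injective e) {S : Subgroup Q} (hS : S.normalCore = ⊥) : Infinite (Q ⧸ S) := by
  refine not_finite_iff_infinite.1 fun hfin => ?_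
  have hker : (MulAction.toPermHom Q (Q ⧸ S)).ker = ⊥ := by
    rw [← Subgroup.normalCore_eq_ker, hS]
  exact not_finite_iff_infinite.2 ‹Infinite G› (Finite.of_injective
    ((MulAction.toPermHom Q (Q ⧸ S)).comp e) (((MonoidHom.ker_eq_bot_iff _).1 hker).comp he))

/-- **Piece B.** -/
theorem exists_twoDoubleCosets_of_selfHost [Group.IsFinitelyPresented K] (X₀ : Subgroup K)
    (k : ℕ → K) (hk : Function.Surjective k) (M : ℕ) (d₁ : ℕ → X (G := G) X₀ k) (d₂ : ℕ → D K G)
    (hX : Subgroup.closure (Set.range fun i => (d₁ i : D K G)) = X X₀ k)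
    (j : L (X X₀ k) M d₁ d₂ →* K) (hj : Function.Injective j)
    (hE : (L.E (X X₀ k) M d₁ d₂).map j = X₀) :
    ∃ (Q : Type) (_ : Group Q) (_ : Group.IsFinitelyPresented Q) (S : Subgroup Q) (d : Q)
      (e : G →* Q), Function.Injective e ∧ S.FG ∧ d ∉ S ∧ S.normalCore = ⊥ ∧
        ∀ q, q ∈ S ∨ ∃ u ∈ S, ∃ v ∈ S, q = u * d * v := by
  classical
  let ρ : D K G →* K := j.comp (L.inD (X X₀ k) M d₁ d₂)
  have hρ : Function.Injective ρ := hj.comp (L.inD_injective _ M d₁ d₂)
  have hmem : ∀ x, ρ x ∈ X₀ ↔ x ∈ X X₀ k := by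
    intro x
    conv_lhs => rw [← hE]
    rw [show ρ x = j (L.inD (X X₀ k) M d₁ d₂ x) from rfl, Subgroup.mem_map_iff_mem hj,
      L.inD_mem_E_iff _ M d₁ d₂ hX]
  have hfg : X₀.FG := by
    obtain ⟨T, hT⟩ := L.E_fg (X X₀ k) M d₁ d₂
    exact ⟨T.image j, by rw [Finset.coe_image, ← MonoidHom.map_closure, hT, hE]⟩
  refine exists_twoDoubleCosets (θ := ρ.comp inK) (hρ.comp inK_injective) hfg
    (fun e he => (hmem _).2 (inK_mem_X_iff.2 he))
    (fun x hx => inK_mem_X_iff.1 ((hmem _).1 hx))
    (c := ρ cD) (fun h => cD_not_mem_X ((hmem _).1 h))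
    (fun x hx => ?_) (z := ρ zD) (fun x _ hx => ?_) (ρ.comp inG) (hρ.comp inG_injective)
  · obtain ⟨u, hu, v, hv, huv⟩ := exists_eq_mul_cD_mul (G := G) (k := k) (hk x) hx
    exact ⟨ρ u, (hmem u).2 hu, ρ v, (hmem v).2 hv, by
      rw [MonoidHom.comp_apply, huv, map_mul, map_mul]⟩
  · refine eq_one_of_zD_conj_mem (X₀ := X₀) (k := k) ((hmem _).1 ?_)
    rw [map_mul, map_mul, map_inv]
    exact hx

end Vale.Agent.P193.B
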