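import Vale.Agent.P193.B.WordL

/-!
# Left parts of a stack equal to a short word of `E` (P193, piece B)

If a reduced stack has the value of a word `w` in the letters of `F` and `F'`, then each of its left
`Γ`-parts is `φ(q)` for a word `q` with `M * weight q ≤ 3 (flen + |w|)`.
-/

namespace Vale.Agent.P193.B.Reduce

open Monoid

variable {T : Type} {Γ : Type} [Group Γ] {M : ℕ} {d : ℕ → Γ} {g : T → Γ}

/-- The retraction to `F`. -/
def retF : Ext M d →* F :=
  Ext.lift 1 (MonoidHom.id F) (MonoidHom.id F) (fun _ _ => by simp) (fun _ => by simp)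

theorem norm_retF_sval (s : Syl T) : (retF (sval M d g s)).norm ≤ s.2.2.length := by
  obtain ⟨b, v, u⟩ := s
  cases b
  · simp only [sval, Bool.false_eq_true, if_false, Ext.left_apply, _root_.map_mul, retF,
      Ext.lift_base, Ext.lift_f, MonoidHom.one_apply, one_mul, MonoidHom.id_apply]
    exact FreeGroup.norm_mk_le
  · simp only [sval, if_true, retF, Ext.lift_f', MonoidHom.id_apply]
    exact FreeGroup.norm_mk_le

theorem norm_retF_value (st : List (Syl T)) : (retF (value M d g st)).norm ≤ flen st := by
  induction st with
  | nil => simp [value]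
  | cons s st ih =>
    rw [value, _root_.map_mul]
    refine le_trans (FreeGroup.norm_mul_le _ _) ?_
    have := norm_retF_sval (M := M) (d := d) (g := g) s
    have e : flen (s :: st) = s.2.2.length + flen st := by simp [flen]
    omega

/-- Index weight of a reduced word. -/
def qwt (q : FreeGroup ℕ) : ℕ := (q.toWord.map fun p => p.1 + 1).sum

theorem qwt_le (q : FreeGroup ℕ) : M * qwt q ≤ (wHom M q).norm := weight_le M q

theorem value_map_id (st : List (Syl T)) :
    value M d id (st.map (tr g (MonoidHom.id Γ))) = value M d g st := by
  rw [value_tr (d := d) (e := d) (MonoidHom.id Γ) (fun _ => rfl)]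
  have : push₂ M (MonoidHom.id Γ) (fun _ => rfl) = MonoidHom.id (Ext M d) :=
    Ext.hom_ext M d (MonoidHom.ext fun x => by simp [push₂])
      (MonoidHom.ext fun x => by simp [push₂]) (MonoidHom.ext fun x => by simp [push₂])
  rw [this]; rfl

/-- An element of the amalgamated subgroup absorbed on the right of a syllable. -/
theorem exists_absorb (s : Syl Γ) (hs : Out M d id s) (q : FreeGroup ℕ) :
    ∃ s' : Syl Γ, s'.1 = s.1 ∧ sval M d id s' = sval M d id s * Ext.f' M d (wHom M q) ∧
      Out M d id s' := by
  obtain ⟨b, v, u⟩ := s
  cases b
  · refine ⟨(false, v ++ [(FreeGroup.lift d q, true)], u ++ (wHom M q).toWord), rfl, ?_, ?_⟩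
    · simp only [sval, Bool.false_eq_true, if_false]
      rw [← Ext.left_pairHom, ← _root_.map_mul, gval_append, gval_single, ← FreeGroup.mul_mk,
        FreeGroup.mk_toWord]
      rfl
    · simp only [Out, Bool.false_eq_true, if_false] at hs ⊢
      rintro ⟨p, hp⟩
      refine hs ⟨p * q⁻¹, ?_⟩
      rw [_root_.map_mul, _root_.map_inv, hp, gval_append, gval_single, ← FreeGroup.mul_mk,
        FreeGroup.mk_toWord, mul_inv_eq_iff_eq_mul]
      rfl
  · refine ⟨(true, [], u ++ (wHom M q).toWord), rfl, ?_, ?_⟩
    · simp only [sval, if_true]
      rw [← _root_.map_mul, ← FreeGroup.mul_mk, FreeGroup.mk_toWord]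
    · simp only [Out, if_true] at hs ⊢
      rintro ⟨p, hp⟩
      refine hs ⟨p * q⁻¹, ?_⟩
      rw [_root_.map_mul, _root_.map_inv, hp, ← FreeGroup.mul_mk, FreeGroup.mk_toWord,
        mul_inv_eq_iff_eq_mul]

/-- Two reduced stacks with one value up to the amalgamated subgroup: every left part is the
other one between two bounded carries. -/
theorem left_parts : ∀ (st sw : List (Syl Γ)), Alt st → Alt sw → (∀ s ∈ st, Out M d id s) →
    (∀ s ∈ sw, Out M d id s) → ∀ q : FreeGroup ℕ,
    value M d id st = value M d id sw * Ext.f' M d (wHom M q) →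
    st.length = sw.length ∧ ∀ s ∈ st, s.1 = false → ∃ t ∈ sw, t.1 = false ∧ ∃ a b : FreeGroup ℕ,
      gval id s.2.1 = (FreeGroup.lift d a)⁻¹ * gval id t.2.1 * FreeGroup.lift d b ∧
      M * qwt a ≤ flen st + flen sw ∧
      M * qwt b ≤ max (M * qwt q) (flen st + flen sw)
  | [], [], _, _, _, _, _, _ => ⟨rfl, by simp⟩
  | [], t :: sw, _, hA, _, hO, q, h => by
    exfalso
    obtain ⟨t', ht1, ht2, ht3⟩ := exists_absorb t (hO t List.mem_cons_self) q
    have hv : value M d id (t' :: sw) = 1 := by
      rw [value, ht2, ← mul_assoc]
      exact h.symm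
    have hA' : Alt (t' :: sw) := by
      cases sw with
      | nil => exact List.isChain_singleton _
      | cons r sw =>
        exact List.isChain_cons_cons.2 ⟨ht1 ▸ (List.isChain_cons_cons.1 hA).1, hA.tail⟩
    cases sw with
    | nil =>
      obtain ⟨b, v, u⟩ := t'
      cases b
      · simp only [value, sval, Bool.false_eq_true, if_false, one_mul] at hv
        rw [← (Ext.left M d).map_one, (Ext.left_injective M d).eq_iff] at hv
        exact ht3 ⟨1, (_root_.map_one _).trans hv.symm⟩
      · simp only [value, sval, if_true, one_mul] at hv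
        rw [← (Ext.f' M d).map_one, (Ext.f'_injective M d).eq_iff] at hv
        exact ht3 ⟨1, (_root_.map_one _).trans hv.symm⟩
    | cons r sw =>
      refine value_ne_one ⟨hA', fun _ x hx => ?_⟩ (by simp) hv
      rcases List.mem_cons.1 hx with rfl | hx
      exacts [ht3, hO x (List.mem_cons_of_mem _ hx)]
  | s :: st, [], hA, _, hO, _, q, h => by
    exfalso
    obtain ⟨s', hs1, hs2, hs3⟩ := exists_absorb s (hO s List.mem_cons_self) q⁻¹
    have hv : value M d id (s' :: st) = 1 := by
      rw [value, hs2, ← mul_assoc]
      refine (congrArg (· * Ext.f' M d (wHom M q⁻¹)) h).trans ?_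
      simp [value]
    have hA' : Alt (s' :: st) := by
      cases st with
      | nil => exact List.isChain_singleton _
      | cons r st =>
        exact List.isChain_cons_cons.2 ⟨hs1 ▸ (List.isChain_cons_cons.1 hA).1, hA.tail⟩
    cases st with
    | nil =>
      obtain ⟨b, v, u⟩ := s'
      cases b
      · simp only [value, sval, Bool.false_eq_true, if_false, one_mul] at hv
        rw [← (Ext.left M d).map_one, (Ext.left_injective M d).eq_iff] at hv
        exact hs3 ⟨1, (_root_.map_one _).trans hv.symm⟩
      · simp only [value, sval, if_true, one_mul] at hv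
        rw [← (Ext.f' M d).map_one, (Ext.f'_injective M d).eq_iff] at hv
        exact hs3 ⟨1, (_root_.map_one _).trans hv.symm⟩
    | cons r st =>
      refine value_ne_one ⟨hA', fun _ x hx => ?_⟩ (by simp) hv
      rcases List.mem_cons.1 hx with rfl | hx
      exacts [hs3, hO x (List.mem_cons_of_mem _ hx)]
  | s :: st, t :: sw, hA, hA₂, hO, hO₂, q, h => by
    obtain ⟨t', ht1, ht2, ht3⟩ := exists_absorb t (hO₂ t List.mem_cons_self) q
    have hA₂' : Alt (t' :: sw) := by
      cases sw with
      | nil => exact List.isChain_singleton _
      | cons r sw =>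
        exact List.isChain_cons_cons.2 ⟨ht1 ▸ (List.isChain_cons_cons.1 hA₂).1, hA₂.tail⟩
    have hO₂' : ∀ x ∈ t' :: sw, Out M d id x := fun x hx => by
      rcases List.mem_cons.1 hx with rfl | hx
      exacts [ht3, hO₂ x (List.mem_cons_of_mem _ hx)]
    have hv : value M d id (s :: st) = value M d id (t' :: sw) := by
      rw [h]
      show _ = value M d id sw * sval M d id t'
      rw [ht2, ← mul_assoc]
      rfl
    -- the quotient of the two top syllables
    by_cases hC : t'.1 = s.1 ∧ ∃ p, sval M d id t' * (sval M d id s)⁻¹ = Ext.f' M d (wHom M p)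
    · obtain ⟨hts, p, hp⟩ := hC
      have hrec : value M d id st = value M d id sw * Ext.f' M d (wHom M p) := by
        rw [← hp, ← mul_assoc, ← value, ← hv, value, mul_inv_cancel_right]
      obtain ⟨hlen, hparts⟩ := left_parts st sw hA.tail hA₂.tail
        (fun x hx => hO x (List.mem_cons_of_mem _ hx))
        (fun x hx => hO₂ x (List.mem_cons_of_mem _ hx)) p hrec
      have hpn : M * qwt p ≤ flen st + flen sw := by
        refine le_trans (qwt_le p) ?_
        have hr := congrArg retF hrec
        rw [_root_.map_mul, show retF (Ext.f' M d (wHom M p)) = wHom M p by simp [retF]] at hr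
        rw [← inv_mul_cancel_left (retF (value M d id sw)) (wHom M p), ← hr]
        refine le_trans (FreeGroup.norm_mul_le _ _) ?_
        rw [FreeGroup.norm_inv_eq]
        have h1 := norm_retF_value (M := M) (d := d) (g := (id : Γ → Γ)) sw
        have h2 := norm_retF_value (M := M) (d := d) (g := (id : Γ → Γ)) st
        omega
      have e1 : flen (s :: st) = s.2.2.length + flen st := by simp [flen]
      have e2 : flen (t :: sw) = t.2.2.length + flen sw := by simp [flen]
      refine ⟨by simp [hlen], fun x hx hxs => ?_⟩
      rcases List.mem_cons.1 hx with rfl | hx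
      · refine ⟨t, List.mem_cons_self, ?_, p, q, ?_, by omega, le_max_left _ _⟩
        · rw [← ht1, hts, hxs]
        · have htf : t.1 = false := by rw [← ht1, hts, hxs]
          rw [ht2] at hp
          obtain ⟨b, v, u⟩ := x
          obtain ⟨b', v', u'⟩ := t
          simp only at hxs htf ⊢
          subst hxs htf
          simp only [sval, Bool.false_eq_true, if_false] at hp
          rw [← Ext.left_pairHom, ← Ext.left_pairHom, ← _root_.map_inv, ← _root_.map_mul,
            ← _root_.map_mul, (Ext.left_injective M d).eq_iff] at hp
          have h1 := congrArg Prod.fst hp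
          simp only [Prod.fst_mul, Prod.fst_inv] at h1
          have e : ∀ r, (pairHom M d r).1 = FreeGroup.lift d r := fun r => rfl
          rw [e, e, mul_inv_eq_iff_eq_mul] at h1
          rw [mul_assoc, h1, inv_mul_cancel_left]
      · obtain ⟨y, hy, hy1, a, b, hab, ha, hb⟩ := hparts x hx hxs
        exact ⟨y, List.mem_cons_of_mem _ hy, hy1, a, b, hab, by omega, by omega⟩
    · exfalso
      rw [value, value] at hv
      let isw := sw.reverse.map inv'
      have hv' : value M d id (isw ++ [inv' t'] ++ s :: st) = 1 := by
        rw [List.append_assoc, value_append, value_reverse_inv', List.singleton_append, value,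
          value, sval_inv', hv]
        simp [mul_assoc]
      by_cases hts : t'.1 = s.1
      · -- merge the two tops
        let δ : Syl Γ := merge s (inv' t')
        have hδv : sval M d id δ = sval M d id s * (sval M d id t')⁻¹ := by
          rw [sval_merge id (by simp [inv', hts] : s.1 = (inv' t').1), sval_inv']
        have hδout : Out M d id δ := by
          have hmem : ∀ p, sval M d id δ ≠ Ext.f' M d (wHom M p) := fun p he =>
            hC ⟨hts, p⁻¹, by
              rw [_root_.map_inv, _root_.map_inv, ← he, hδv, mul_inv_rev, inv_inv]⟩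
          have hd1 : δ.1 = s.1 := rfl
          revert hmem hd1
          generalize δ = δ'
          intro hmem hd1
          obtain ⟨b, v, u⟩ := δ'
          cases b
          · rintro ⟨p, hp⟩
            exact hmem p (by
              simp only [sval, Bool.false_eq_true, if_false]; rw [← hp, Ext.left_pairHom])
          · rintro ⟨p, hp⟩
            exact hmem p (by simp only [sval, if_true]; rw [← hp])
        have hbig : value M d id (isw ++ δ :: st) = 1 := by
          rw [value_append, value_reverse_inv', value, hδv, ← mul_assoc, hv]
          simp [mul_assoc]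
        have hAbig : Alt (isw ++ δ :: st) := by
          refine List.IsChain.append ?_ ?_ ?_
          · rw [List.isChain_map, List.isChain_reverse]
            exact hA₂.tail.imp fun a b hab => fun hc => hab hc.symm
          · cases st with
            | nil => exact List.isChain_singleton _
            | cons r st => exact List.isChain_cons_cons.2 (List.isChain_cons_cons.1 hA)
          · intro a ha b hb
            cases sw with
            | nil => simp [isw] at ha
            | cons r sw =>
              simp [isw] at ha hb
              subst ha hb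
              have := (List.isChain_cons_cons.1 hA₂').1
              simpa [δ, merge, inv', hts] using this.symm
        have hObig : ∀ x ∈ isw ++ δ :: st, Out M d id x := fun x hx => by
          rcases List.mem_append.1 hx with hx | hx
          · obtain ⟨y, hy, rfl⟩ := List.mem_map.1 hx
            exact out_inv' (hO₂ y (List.mem_cons_of_mem _ (List.mem_reverse.1 hy)))
          · rcases List.mem_cons.1 hx with rfl | hx
            exacts [hδout, hO x (List.mem_cons_of_mem _ hx)]
        by_cases hlen : 2 ≤ (isw ++ δ :: st).length
        · exact value_ne_one ⟨hAbig, fun _ => hObig⟩ hlen hbig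
        · have h1 : isw = [] ∧ st = [] := by
            rw [List.length_append, List.length_cons] at hlen
            exact ⟨List.eq_nil_of_length_eq_zero (by omega),
              List.eq_nil_of_length_eq_zero (by omega)⟩
          rw [h1.1, h1.2, List.nil_append, value, value, one_mul] at hbig
          exact hC ⟨hts, 1, by
            rw [_root_.map_one, _root_.map_one, ← inv_inj, mul_inv_rev, inv_inv, ← hδv, hbig,
              inv_one]⟩
      · refine value_ne_one ⟨?_, fun _ x hx => ?_⟩ (by simp; omega) hv'
        · rw [List.append_assoc]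
          refine List.IsChain.append ?_ ?_ ?_
          · rw [List.isChain_map, List.isChain_reverse]
            exact hA₂.tail.imp fun a b hab => fun hc => hab hc.symm
          · exact List.isChain_cons_cons.2 ⟨by simpa [inv'] using hts, hA⟩
          · intro a ha b hb
            cases sw with
            | nil => simp [isw] at ha
            | cons r sw =>
              simp [isw] at ha hb
              subst ha hb
              simpa [inv'] using (List.isChain_cons_cons.1 hA₂').1.symm
        · rcases List.mem_append.1 hx with hx | hx
          · rcases List.mem_append.1 hx with hx | hx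
            · obtain ⟨y, hy, rfl⟩ := List.mem_map.1 hx
              exact out_inv' (hO₂ y (List.mem_cons_of_mem _ (List.mem_reverse.1 hy)))
            · rw [List.mem_singleton.1 hx]; exact out_inv' ht3
          · exact hO x hx

/-- The letters of `F` and `F'`. -/
def gE (x : Bool × Letter) : Ext M d :=
  if x.1 then Ext.f' M d (FreeGroup.of x.2) else Ext.f M d (FreeGroup.of x.2)

/-- The syllable of one letter of `E`. -/
def itemE (p : (Bool × Letter) × Bool) : Syl ℕ := (p.1.1, [], [(p.1.2, p.2)])

open Classical in
/-- **The left parts of a stack with the value of a word of `E`.** -/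
theorem exists_short_left_parts {st : List (Syl T)} (hst : Shape M d g st)
    (w : Raw (Bool × Letter)) (hw : value M d g st = gval (gE (M := M) (d := d)) w)
    {s : Syl T} (hs : s ∈ st) (hsf : s.1 = false) :
    ∃ q : Raw ℕ, gval g s.2.1 = FreeGroup.lift d (FreeGroup.mk q) ∧
      M * (q.map fun p => p.1 + 1).sum ≤ 3 * (flen st + w.length) := by
  -- a word for `E` reduced by the same algorithm
  let de : ℕ → Raw ℕ := fun i => [(i, true)]
  let one : Raw ℕ → Bool := fun v => decide (gval d v = 1)
  let wt : Unit → ℕ → ℕ := fun _ i => i + 1
  let items := w.map itemE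
  have hp : Hyp (M := M) (d := d) (decode M) one (expand de) d wt (fun _ => 1)
      (fun k => load M wt (fun _ => 1) k items) (flen items) :=
    hyp_decode (fun i _ => by simp [de, gval])
      (fun _ i => by simp [de, weight, wt]) fun v _ => by simp [one]
  obtain ⟨hval, hsh, hfl, hld⟩ := foldl_spec hp items [] ⟨List.isChain_nil, fun h => by simp at h⟩
    ⟨by rw [List.append_nil], fun k => by rw [List.append_nil]⟩
  have hitems : ((items.map (sval M d d)).prod) = gval (gE (M := M) (d := d)) w := by
    simp only [items]
    clear hw hp hval hsh hfl hld items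
    induction w with
    | nil => rfl
    | cons p w ih =>
      rw [List.map_cons, List.map_cons, List.prod_cons, ih,
        WordL.gval_cons (gE (M := M) (d := d)) p w]
      congr 1
      obtain ⟨⟨b, l⟩, t⟩ := p
      rw [WordL.gval_letter]
      exact WordL.sval_fletter d d b l t
  have hflen : flen items ≤ w.length ∧ load M wt (fun _ => 1) () items = 0 := by
    simp only [items]
    clear hw hp hval hsh hfl hld hitems items
    induction w with
    | nil => simp [flen, load]
    | cons p w ih => simp [flen, load, itemE, excess, weight] at ih ⊢; omega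
  set sw := items.foldl (push (decode M) one (expand de)) [] with hsw
  have hswv : value M d d sw = value M d g st := by
    rw [hval, hitems, hw]; simp [value]
  have hswlen : flen sw ≤ w.length := hfl.trans hflen.1
  have hbound : ∀ x ∈ sw, M * weight wt () x.2.1 ≤ x.2.2.length := fun x hx => by
    have h1 : excess M wt (fun _ => 1) () x ≤ load M wt (fun _ => 1) () sw :=
      List.single_le_sum (fun y _ => Nat.zero_le y) _ (List.mem_map.2 ⟨x, hx, rfl⟩)
    have h2 := (hld ()).trans hflen.2.le
    simp only [excess] at h1
    omega
  have hmem_le : ∀ {T' : Type} (l : List (Syl T')) (x : Syl T'), x ∈ l → x.2.2.length ≤ flen l :=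
    fun l x hx => List.single_le_sum (fun y _ => Nat.zero_le y) _ (List.mem_map.2 ⟨x, hx, rfl⟩)
  have hxs := hmem_le st s hs
  have hwsum : ∀ v : Raw ℕ, weight wt () v = (v.map fun p => p.1 + 1).sum := fun v => rfl
  have hdv : ∀ v : Raw ℕ, gval d v = FreeGroup.lift d (FreeGroup.mk v) := fun v => rfl
  -- normal forms: either all syllables are out, or one syllable in the amalgamated subgroup
  have norm : ∀ {T' : Type} (g' : T' → Γ) (l : List (Syl T')), Shape M d g' l →
      (∀ x ∈ l, Out M d g' x) ∨ ∃ x p, l = [x] ∧ sval M d g' x = Ext.f' M d (wHom M p) ∧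
        (x.1 = false → gval g' x.2.1 = FreeGroup.lift d p) ∧ M * qwt p ≤ x.2.2.length := by
    intro T' g' l hl
    match l, hl with
    | [], _ => exact Or.inl (by simp)
    | [x], _ =>
      by_cases hx : Out M d g' x
      · exact Or.inl fun y hy => by rwa [List.mem_singleton.1 hy]
      · refine Or.inr ⟨x, ?_⟩
        obtain ⟨b, v, u⟩ := x
        cases b
        · simp only [Out, Bool.false_eq_true, if_false, not_not] at hx
          obtain ⟨p, hp⟩ := hx
          refine ⟨p, rfl, ?_, fun _ => (congrArg Prod.fst hp).symm, ?_⟩
          · simp only [sval, Bool.false_eq_true, if_false]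
            rw [← hp, Ext.left_pairHom]
          · refine le_trans (qwt_le p) ?_
            rw [show wHom M p = FreeGroup.mk u from congrArg Prod.snd hp]
            exact FreeGroup.norm_mk_le
        · simp only [Out, if_true, not_not] at hx
          obtain ⟨p, hp⟩ := hx
          refine ⟨p, rfl, ?_, fun h => by simp at h, ?_⟩
          · simp only [sval, if_true]
            rw [hp]
          · refine le_trans (qwt_le p) ?_
            rw [hp]
            exact FreeGroup.norm_mk_le
    | x :: y :: l, hl => exact Or.inl (hl.2 (by simp))
  rcases norm g st hst with hout | ⟨x, p, rfl, -, hxp, hpb⟩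
  swap
  · cases List.mem_singleton.1 hs
    refine ⟨p.toWord, by rw [FreeGroup.mk_toWord]; exact hxp hsf, ?_⟩
    show M * qwt p ≤ _
    omega
  have hA1 : Alt (st.map (tr g (MonoidHom.id Γ))) := by
    rw [Alt, List.isChain_map]; exact hst.1
  have hO1 : ∀ x ∈ st.map (tr g (MonoidHom.id Γ)), Out M d id x := fun x hx => by
    obtain ⟨y, hy, rfl⟩ := List.mem_map.1 hx
    exact out_tr (MonoidHom.id Γ) (fun _ => rfl) (fun _ _ h => h) (hout y hy)
  have hs' : tr g (MonoidHom.id Γ) s ∈ st.map (tr g (MonoidHom.id Γ)) := List.mem_map_of_mem hs
  have hsv : gval id (tr g (MonoidHom.id Γ) s).2.1 = gval g s.2.1 := by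
    simp [tr, hsf, gval_single]
  have hfmap : ∀ {T' : Type} (g' : T' → Γ) (l : List (Syl T')),
      flen (l.map (tr g' (MonoidHom.id Γ))) = flen l := fun g' l => by
    simp [flen, tr, Function.comp_def]
  rcases norm d sw hsh with hout' | ⟨x, p, hxe, hxv, -, hpb⟩
  · have hA2 : Alt (sw.map (tr d (MonoidHom.id Γ))) := by
      rw [Alt, List.isChain_map]; exact hsh.1
    have hO2 : ∀ x ∈ sw.map (tr d (MonoidHom.id Γ)), Out M d id x := fun x hx => by
      obtain ⟨y, hy, rfl⟩ := List.mem_map.1 hx
      exact out_tr (MonoidHom.id Γ) (fun _ => rfl) (fun _ _ h => h) (hout' y hy)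
    obtain ⟨-, hparts⟩ := left_parts _ _ hA1 hA2 hO1 hO2 1 (by
      rw [value_map_id, value_map_id, hswv, _root_.map_one, _root_.map_one, mul_one])
    obtain ⟨t, ht, ht1, a, b, hab, ha, hb⟩ := hparts _ hs' hsf
    obtain ⟨y, hy, rfl⟩ := List.mem_map.1 ht
    rw [hfmap, hfmap] at ha hb
    rw [hsv, show gval id (tr d (MonoidHom.id Γ) y).2.1 = gval d y.2.1 by
      simp [tr, show y.1 = false from ht1, gval_single]] at hab
    refine ⟨FreeGroup.invRev a.toWord ++ y.2.1 ++ b.toWord, ?_, ?_⟩
    · rw [hab, ← FreeGroup.mul_mk, ← FreeGroup.mul_mk, ← FreeGroup.inv_mk, _root_.map_mul,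
        _root_.map_mul, _root_.map_inv, FreeGroup.mk_toWord, FreeGroup.mk_toWord, hdv]
    · have hy' := hbound y hy
      have hyl := hmem_le sw y hy
      have hinv : ((FreeGroup.invRev a.toWord).map fun p => p.1 + 1).sum = qwt a := by
        simp [qwt, FreeGroup.invRev, List.sum_reverse, Function.comp_def]
      rw [List.map_append, List.map_append, List.sum_append, List.sum_append, Nat.mul_add,
        Nat.mul_add, hinv, ← hwsum y.2.1, show (b.toWord.map fun p => p.1 + 1).sum = qwt b from rfl]
      have h1 : qwt (1 : FreeGroup ℕ) = 0 := by simp [qwt]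
      rw [h1, Nat.mul_zero, Nat.zero_max] at hb
      omega
  · have hv : value M d id (st.map (tr g (MonoidHom.id Γ))) =
        value M d id [] * Ext.f' M d (wHom M p) := by
      rw [value_map_id, ← hswv, hxe, value, value, hxv, value, one_mul]
    obtain ⟨hlen, -⟩ := left_parts _ [] hA1 List.isChain_nil hO1 (by simp) p hv
    rw [List.length_map, List.length_nil, List.length_eq_zero_iff] at hlen
    subst hlen
    simp at hs

end Vale.Agent.P193.B.Reduce
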