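import Vale.Agent.P193.B.Reduce

/-!
# The decoder of the long words on lists (P193, piece B)

`decode M u` recognises the span of the `W_i` by one retraction check, with no search.
-/

namespace Vale.Agent.P193.B.Reduce

open FreeGroup

/-- One step of reading the row form: the running exponent of `a` and the row letters so far. -/
def rowStep (p : ℤ × Raw Row) (x : Letter × Bool) : ℤ × Raw Row :=
  match x.1 with
  | .a => (if x.2 then p.1 + 1 else p.1 - 1, p.2)
  | .b => (p.1, p.2 ++ [((p.1, true), x.2)])
  | .e => (p.1, p.2 ++ [((p.1, false), x.2)])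

/-- The row form of a raw word. -/
def rows (u : Raw Letter) : ℤ × Raw Row := u.foldl rowStep (0, [])

/-- The candidate preimage: the `e`-letters of nonnegative rows. -/
def candidate (r : Raw Row) : Raw ℕ :=
  r.filterMap fun p => if p.1.2 then none else if 0 ≤ p.1.1 then some (p.1.1.toNat, p.2) else none

/-- The decoder. -/
def decode (M : ℕ) (u : Raw Letter) : Option (Raw ℕ) :=
  let p := rows u
  let r := FreeGroup.reduce p.2
  if p.1 = 0 ∧ (candidate r).flatMap (block M) = r then some (candidate r) else none

theorem rows_append (u : Raw Letter) (x : Letter × Bool) :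
    rows (u ++ [x]) = rowStep (rows u) x := by
  simp [rows]

theorem coords_mk (u : Raw Letter) :
    coords (mk u) = ⟨mk (rows u).2, Multiplicative.ofAdd (rows u).1⟩ := by
  induction u using List.reverseRecOn with
  | nil => exact _root_.map_one coords
  | append_singleton u x ih =>
    rw [← mul_mk, _root_.map_mul, ih, rows_append]
    obtain ⟨l, s⟩ := x
    have hinv : (mk [(l, false)] : F) = (of l)⁻¹ := by rw [of, inv_mk]; rfl
    have hp : (mk [(l, true)] : F) = of l := rfl
    have hr : ∀ p : Row, (mk [(p, false)] : FreeGroup Row) = (of p)⁻¹ := fun p => by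
      rw [of, inv_mk]; rfl
    have hr' : ∀ p : Row, (mk [(p, true)] : FreeGroup Row) = of p := fun p => rfl
    cases l <;> cases s <;>
      (apply SemidirectProduct.ext <;>
        simp [rowStep, hinv, hp, coords, bR, eR, ← mul_mk, hr, hr', shift_of, ofAdd_add, ofAdd_neg,
          sub_eq_add_neg])

theorem candidate_blocks (M : ℕ) (L : List (ℕ × Bool)) :
    candidate (L.flatMap (block M)) = L := by
  induction L with
  | nil => rfl
  | cons q L ih =>
    rw [List.flatMap_cons, candidate, List.filterMap_append, ← candidate, ← candidate, ih]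
    obtain ⟨i, s⟩ := q
    cases s <;> simp [block, candidate, List.filterMap_cons, List.filterMap_replicate]

theorem decode_some {M : ℕ} {u : Raw Letter} {q : Raw ℕ} (h : decode M u = some q) :
    wHom M (mk q) = mk u ∧ M * (q.map fun p => p.1 + 1).sum ≤ u.length := by
  simp only [decode, Option.ite_none_right_eq_some, Option.some.injEq] at h
  obtain ⟨⟨hk, hr⟩, rfl⟩ := h
  refine ⟨?_, ?_⟩
  · rw [← uncoords_coords (wHom M _), coords_wHom, mk_blocks, hr, ← uncoords_coords (mk u : F),
      coords_mk, hk]
    refine congrArg uncoords (SemidirectProduct.ext ?_ ?_)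
    · exact FreeGroup.reduce.self
    · rfl
  · have hlen : ∀ (v : Raw Letter) (p : ℤ × Raw Row),
        (v.foldl rowStep p).2.length ≤ p.2.length + v.length := by
      intro v
      induction v with
      | nil => intro p; simp
      | cons x v ih =>
        intro p
        refine le_trans (ih _) ?_
        obtain ⟨l, s⟩ := x
        cases l <;> simp [rowStep] <;> omega
    have h1 : ((candidate (FreeGroup.reduce (rows u).2)).flatMap (block M)).length ≤ u.length := by
      rw [hr]
      exact le_trans FreeGroup.reduce.red.length_le (by simpa [rows] using hlen u (0, []))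
    refine le_trans ?_ h1
    generalize candidate (FreeGroup.reduce (rows u).2) = L
    induction L with
    | nil => simp
    | cons q L ih =>
      simp only [List.map_cons, List.sum_cons, List.flatMap_cons, List.length_append, length_block,
        Nat.mul_add] at ih ⊢
      omega

theorem decode_none {M : ℕ} {u : Raw Letter} (h : decode M u = none) :
    (mk u : F) ∉ (wHom M).range := by
  rintro ⟨w, hw⟩
  have hc := congrArg coords hw
  rw [coords_wHom, coords_mk] at hc
  have hk : (rows u).1 = 0 := by
    have := congrArg SemidirectProduct.right hc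
    simpa using (congrArg Multiplicative.toAdd this).symm
  have hl : rowHom M w = mk (rows u).2 := congrArg SemidirectProduct.left hc
  rw [← mk_toWord (x := w), mk_blocks] at hl
  have hr : w.toWord.flatMap (block M) = FreeGroup.reduce (rows u).2 := by
    have := congrArg toWord hl
    rwa [toWord_mk, toWord_mk, (isReduced_blocks M isReduced_toWord).reduce_eq] at this
  simp only [decode] at h
  rw [← hr, candidate_blocks, if_pos ⟨hk, rfl⟩] at h
  simp at h

variable {T : Type} {Γ : Type} [Group Γ]

/-- Substitute `de i` for the letter `i`. -/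
def expand (de : ℕ → Raw T) (q : Raw ℕ) : Raw T :=
  q.flatMap fun p => if p.2 then de p.1 else FreeGroup.invRev (de p.1)

theorem gval_expand {g : T → Γ} {d : ℕ → Γ} {de : ℕ → Raw T}
    (q : Raw ℕ) (h : ∀ p ∈ q, gval g (de p.1) = d p.1) : gval g (expand de q) = FreeGroup.lift d (mk q) := by
  induction q with
  | nil => rfl
  | cons p q ih =>
    rw [expand, List.flatMap_cons, gval_append, ← expand, ih fun p hp => h p (List.mem_cons_of_mem _ hp),
      show p :: q = [p] ++ q from rfl, ← mul_mk, _root_.map_mul]
    obtain ⟨i, s⟩ := p
    have hi : gval g (de i) = d i := h (i, s) List.mem_cons_self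
    congr 1
    cases s
    · rw [show (mk [(i, false)] : FreeGroup ℕ) = (of i)⁻¹ by rw [of, inv_mk]; rfl,
        _root_.map_inv, lift_apply_of]
      simp [gval_invRev, hi]
    · show gval g (de i) = FreeGroup.lift d (of i)
      rw [lift_apply_of, hi]

/-- The hypotheses of the reduction for the concrete decoder. -/
theorem hyp_decode {M : ℕ} {d : ℕ → Γ} {g : T → Γ} {de : ℕ → Raw T} {one : Raw T → Bool}
    {κ : Type} {wt : κ → T → ℕ} {C₀ G : κ → ℕ} {Fl : ℕ} (hde : ∀ i, M * (i + 1) ≤ Fl → gval g (de i) = d i)
    (hw : ∀ k i, weight wt k (de i) ≤ C₀ k * (i + 1))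
    (hone : ∀ w, (∀ k, M * weight wt k w ≤ G k + 2 * (C₀ k * Fl)) →
      (one w = true ↔ gval g w = 1)) :
    Hyp (M := M) (d := d) (decode M) one (expand de) g wt C₀ G Fl where
  dec_some u q h := (decode_some h).1
  dec_none u h := decode_none h
  exp_val u q h hu := gval_expand q fun p hp => hde _ (le_trans
    (le_trans (Nat.mul_le_mul_left M (List.single_le_sum (fun x _ => Nat.zero_le x) _
      (List.mem_map.2 ⟨p, hp, rfl⟩))) (decode_some h).2) hu)
  exp_weight u q h k := by
    refine le_trans ?_ (Nat.mul_le_mul_left (C₀ k) (decode_some h).2)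
    rw [Nat.mul_left_comm]
    refine Nat.mul_le_mul_left M ?_
    clear h
    induction q with
    | nil => simp [expand, weight]
    | cons p q ih =>
      rw [expand, List.flatMap_cons, weight_append, ← expand, List.map_cons, List.sum_cons,
        Nat.mul_add]
      refine Nat.add_le_add ?_ ih
      obtain ⟨i, s⟩ := p
      cases s <;> simp [weight_invRev, hw]
  one_iff := hone

end Vale.Agent.P193.B.Reduce
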