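import Vale.Agent.P193.B.Free
import Vale.Agent.P193.B.Decode
import Mathlib.GroupTheory.CoprodI

/-!
# The word problem of `D = K * G * F(c, z, h_j)` from oracles for the factors (P193, piece B)

A stack of homogeneous syllables; a syllable is dropped when its factor says it is trivial.
-/

namespace Vale.Agent.P193.B.DWord

open Monoid Reduce

/-- The free letters. -/
abbrev FL : Type := Bool ⊕ ℕ

/-- Letters of `D`. -/
abbrev TD (κ γ : Type) : Type := κ ⊕ (γ ⊕ FL)

variable {κ γ : Type}

/-- The three factors. -/
inductive Tag
  | k | g | f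
  deriving DecidableEq

/-- The factor of a letter. -/
def tag : TD κ γ → Tag
  | .inl _ => .k
  | .inr (.inl _) => .g
  | .inr (.inr _) => .f

/-- The `K`-part of a word. -/
def projK (w : Raw (TD κ γ)) : Raw κ :=
  w.filterMap fun p => match p.1 with | .inl a => some (a, p.2) | .inr _ => none

/-- The `G`-part of a word. -/
def projG (w : Raw (TD κ γ)) : Raw γ :=
  w.filterMap fun p => match p.1 with | .inr (.inl a) => some (a, p.2) | _ => none

/-- The free part of a word. -/
def projF (w : Raw (TD κ γ)) : Raw FL :=
  w.filterMap fun p => match p.1 with | .inr (.inr a) => some (a, p.2) | _ => none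

variable (oneK : Raw κ → Bool) (oneG : Raw γ → Bool)

/-- Triviality of a homogeneous word. -/
def triv (w : Raw (TD κ γ)) : Bool :=
  oneK (projK w) && oneG (projG w) && (FreeGroup.reduce (projF w)).isEmpty

/-- Is the head syllable of the same factor? -/
def sameTag (w : Raw (TD κ γ)) (p : TD κ γ × Bool) : Bool :=
  match w with
  | [] => false
  | q :: _ => decide (tag q.1 = tag p.1)

/-- Add one letter. -/
def step : List (Raw (TD κ γ)) → TD κ γ × Bool → List (Raw (TD κ γ))
  | [], p => if triv oneK oneG [p] then [] else [[p]]
  | w :: st, p =>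
    if sameTag w p then (if triv oneK oneG (w ++ [p]) then st else (w ++ [p]) :: st)
    else if triv oneK oneG [p] then w :: st else [p] :: w :: st

/-- The reduced syllables, top first. -/
def red (v : Raw (TD κ γ)) : List (Raw (TD κ γ)) := v.foldl (step oneK oneG) []

/-- The word problem of `D`. -/
def oneD (v : Raw (TD κ γ)) : Bool := (red oneK oneG v).isEmpty

section Spec

variable {K G : Type} [Group K] [Group G] {kg : κ → K} {gg : γ → G}

variable (kg gg) in
/-- Values of the letters. -/
def gD : TD κ γ → D K G
  | .inl a => inK (kg a)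
  | .inr (.inl a) => inG (gg a)
  | .inr (.inr x) => Coprod.inr (FreeGroup.of x)

/-- The factors as a family. -/
abbrev Fac (K G : Type) : Tag → Type
  | .k => K
  | .g => G
  | .f => FreeGroup FL

instance facGroup : ∀ i, Group (Fac K G i)
  | .k => ‹Group K›
  | .g => ‹Group G›
  | .f => inferInstanceAs (Group (FreeGroup FL))

variable (K G) in
/-- `D` as a free product of three factors. -/
def toI : D K G →* CoprodI (Fac K G) :=
  Coprod.lift (Coprod.lift (CoprodI.of (M := Fac K G) (i := .k)) (CoprodI.of (M := Fac K G) (i := .g)))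
    (CoprodI.of (M := Fac K G) (i := .f))

variable (kg gg) in
/-- The element of a homogeneous word. -/
def elem : (i : Tag) → Raw (TD κ γ) → Fac K G i
  | .k, w => gval kg (projK w)
  | .g, w => gval gg (projG w)
  | .f, w => gval FreeGroup.of (projF w)

variable (kg gg) in
/-- A syllable as a member of the family. -/
def sig : Raw (TD κ γ) → Σ i, Fac K G i
  | [] => ⟨.f, (1 : FreeGroup FL)⟩
  | p :: w => ⟨tag p.1, elem kg gg (tag p.1) (p :: w)⟩

/-- Homogeneous and nonempty. -/
def Homog (i : Tag) (w : Raw (TD κ γ)) : Prop := w ≠ [] ∧ ∀ p ∈ w, tag p.1 = i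

theorem toI_elem {i : Tag} {w : Raw (TD κ γ)} (h : ∀ p ∈ w, tag p.1 = i) :
    toI K G (gval (gD kg gg) w) = CoprodI.of (elem kg gg i w) := by
  induction w with
  | nil => cases i <;> simp [gval, elem, projK, projG, projF, ← FreeGroup.one_eq_mk]
  | cons p w ih =>
    have h1 : gval (gD kg gg) (p :: w) = gval (gD kg gg) [p] * gval (gD kg gg) w :=
      gval_append _ [p] w
    have h2 : elem kg gg i (p :: w) = elem kg gg i [p] * elem kg gg i w := by
      cases i <;> simp only [elem, projK, projG, projF] <;>
        rw [← gval_append, ← List.filterMap_append] <;> rfl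
    rw [h1, h2, map_mul, map_mul, ih fun q hq => h q (List.mem_cons_of_mem _ hq)]
    congr 1
    have hp := h p List.mem_cons_self
    obtain ⟨a | a | a, s⟩ := p <;> subst hp <;> cases s <;>
      simp [gval, elem, projK, projG, projF, gD, tag, toI, inK, inG] <;>
      first
        | rfl
        | exact (map_inv (CoprodI.of (M := Fac K G) (i := .k)) _).symm
        | exact (map_inv (CoprodI.of (M := Fac K G) (i := .g)) _).symm
        | exact (map_inv (CoprodI.of (M := Fac K G) (i := .f)) _).symm

theorem eq_one_of_elem {i : Tag} {w : Raw (TD κ γ)} (h : ∀ p ∈ w, tag p.1 = i)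
    (he : elem kg gg i w = 1) : gval (gD kg gg) w = 1 := by
  have hinj : Function.LeftInverse
      (CoprodI.lift fun j => (match j with
        | .k => inK | .g => inG | .f => Coprod.inr : Fac K G j →* D K G))
      (toI K G) := by
    intro x
    induction x using Coprod.induction_on with
    | inl y =>
      induction y using Coprod.induction_on with
      | inl z => simp [toI, inK]
      | inr z => simp [toI, inG]
      | mul y z hy hz => simp only [map_mul, hy, hz]
    | inr y => simp [toI]
    | mul y z hy hz => simp only [map_mul, hy, hz]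
  refine hinj.injective ?_
  rw [toI_elem h, he, map_one, map_one]

/-- A stack of reduced syllables. -/
structure IsRed (kg : κ → K) (gg : γ → G) (st : List (Raw (TD κ γ))) : Prop where
  homog : ∀ w ∈ st, ∃ i, Homog i w ∧ elem kg gg i w ≠ 1
  alt : st.IsChain fun a b => ∀ i j, Homog i a → Homog j b → i ≠ j

theorem homog_unique {i j : Tag} {w : Raw (TD κ γ)} (hi : Homog i w) (hj : Homog j w) : i = j := by
  obtain ⟨hne, hi⟩ := hi
  cases w with
  | nil => exact absurd rfl hne
  | cons p w => exact (hi p List.mem_cons_self).symm.trans (hj.2 p List.mem_cons_self)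

variable {oneK oneG}

/-- The oracle hypotheses below weight `B`. -/
structure Right (kg : κ → K) (gg : γ → G) (oneK : Raw κ → Bool) (oneG : Raw γ → Bool) (B : ℕ) :
    Prop where
  k_iff : ∀ u : Raw κ, u.length ≤ B → (oneK u = true ↔ gval kg u = 1)
  g_iff : ∀ u : Raw γ, u.length ≤ B → (oneG u = true ↔ gval gg u = 1)

variable {B : ℕ} (hB : Right kg gg oneK oneG B)

include hB in
theorem triv_iff {i : Tag} {w : Raw (TD κ γ)} (h : ∀ p ∈ w, tag p.1 = i) (hw : w.length ≤ B) :
    triv oneK oneG w = true ↔ elem kg gg i w = 1 := by
  have hk := hB.k_iff (projK w) ((List.length_filterMap_le _ _).trans hw)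
  have hg := hB.g_iff (projG w) ((List.length_filterMap_le _ _).trans hw)
  have hf : (FreeGroup.reduce (projF w)).isEmpty = true ↔ gval FreeGroup.of (projF w) = 1 := by
    rw [List.isEmpty_iff, ← FreeGroup.toWord_mk, FreeGroup.toWord_eq_nil_iff, gval,
      FreeGroup.lift_of_eq_id]
    rfl
  simp only [triv, Bool.and_eq_true, hk, hg, hf]
  have h0 : ∀ j, j ≠ i → elem kg gg j w = 1 := by
    intro j hj
    have hkill : (j = .k → projK w = []) ∧ (j = .g → projG w = []) ∧ (j = .f → projF w = []) := by
      refine ⟨fun e => ?_, fun e => ?_, fun e => ?_⟩ <;>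
      · refine List.filterMap_eq_nil_iff.2 fun p hp => ?_
        have := h p hp
        obtain ⟨a | a | a, s⟩ := p <;> first | rfl | (exact absurd (e.trans this) hj)
    cases j <;> simp [elem, hkill.1, hkill.2.1, hkill.2.2, gval, ← FreeGroup.one_eq_mk]
  constructor
  · rintro ⟨⟨a, b⟩, c⟩
    cases i
    exacts [a, b, c]
  · intro he
    refine ⟨⟨?_, ?_⟩, ?_⟩
    · by_cases e : Tag.k = i
      · subst e; exact he
      · exact h0 .k e
    · by_cases e : Tag.g = i
      · subst e; exact he
      · exact h0 .g e
    · by_cases e : Tag.f = i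
      · subst e; exact he
      · exact h0 .f e

/-- The value of a stack. -/
def value (kg : κ → K) (gg : γ → G) (st : List (Raw (TD κ γ))) : D K G :=
  gval (gD kg gg) st.reverse.flatten

theorem value_cons (w : Raw (TD κ γ)) (st : List (Raw (TD κ γ))) :
    value kg gg (w :: st) = value kg gg st * gval (gD kg gg) w := by
  simp [value, gval_append]

include hB in
theorem step_spec {st : List (Raw (TD κ γ))} (hst : IsRed kg gg st) (p : TD κ γ × Bool)
    (hlen : (st.map List.length).sum + 1 ≤ B) :
    IsRed kg gg (step oneK oneG st p) ∧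
      value kg gg (step oneK oneG st p) = value kg gg st * gval (gD kg gg) [p] ∧
      ((step oneK oneG st p).map List.length).sum ≤ (st.map List.length).sum + 1 := by
  have hp : ∀ q ∈ [p], tag q.1 = tag p.1 := fun q hq => by rw [List.mem_singleton.1 hq]
  cases st with
  | nil =>
    simp only [step]
    by_cases ht : triv oneK oneG [p] = true
    · rw [if_pos ht]
      have := eq_one_of_elem hp ((triv_iff hB hp (by simpa using hlen)).1 ht)
      exact ⟨hst, by simp [this], by simp⟩
    · rw [if_neg ht]
      refine ⟨⟨fun w hw => ⟨tag p.1, ?_⟩, List.isChain_singleton _⟩, by simp [value, gval, ← FreeGroup.one_eq_mk],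
        by simp⟩
      rw [List.mem_singleton.1 hw]
      exact ⟨⟨by simp, hp⟩, fun he => ht ((triv_iff hB hp (by simpa using hlen)).2 he)⟩
  | cons w st =>
    obtain ⟨i, hwi, hwe⟩ := hst.homog w List.mem_cons_self
    have hrest : IsRed kg gg st :=
      ⟨fun x hx => hst.homog x (List.mem_cons_of_mem _ hx), hst.alt.tail⟩
    have hsame : sameTag w p = true ↔ i = tag p.1 := by
      obtain ⟨hne, hi⟩ := hwi
      cases w with
      | nil => exact absurd rfl hne
      | cons q w => simp [sameTag, hi q List.mem_cons_self]
    simp only [List.map_cons, List.sum_cons] at hlen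
    simp only [step]
    by_cases hs : sameTag w p = true
    · rw [if_pos hs]
      have hi := hsame.1 hs
      have hwp : ∀ q ∈ w ++ [p], tag q.1 = i := fun q hq => by
        rcases List.mem_append.1 hq with hq | hq
        exacts [hwi.2 q hq, (hp q hq).trans hi.symm]
      have hl : (w ++ [p]).length ≤ B := by simp; omega
      by_cases ht : triv oneK oneG (w ++ [p]) = true
      · rw [if_pos ht]
        have := eq_one_of_elem hwp ((triv_iff hB hwp hl).1 ht)
        refine ⟨hrest, ?_, by simp; omega⟩
        rw [value_cons, mul_assoc, ← gval_append, this, mul_one]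
      · rw [if_neg ht]
        refine ⟨⟨fun x hx => ?_, ?_⟩, ?_, by simp; omega⟩
        · rcases List.mem_cons.1 hx with rfl | hx
          exacts [⟨i, ⟨by simp, hwp⟩, fun he => ht ((triv_iff hB hwp hl).2 he)⟩,
            hrest.homog x hx]
        · cases st with
          | nil => exact List.isChain_singleton _
          | cons r st =>
            refine List.isChain_cons_cons.2 ⟨fun a b ha hb => ?_, hrest.alt⟩
            rw [homog_unique ha ⟨by simp, hwp⟩]
            exact (List.isChain_cons_cons.1 hst.alt).1 i b hwi hb
        · rw [value_cons, value_cons, gval_append, mul_assoc]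
    · rw [if_neg hs]
      have hl : [p].length ≤ B := by simp; omega
      by_cases ht : triv oneK oneG [p] = true
      · rw [if_pos ht]
        have := eq_one_of_elem hp ((triv_iff hB hp hl).1 ht)
        exact ⟨hst, by rw [this, mul_one], by simp⟩
      · rw [if_neg ht]
        refine ⟨⟨fun x hx => ?_, ?_⟩, value_cons [p] (w :: st), by simp; omega⟩
        · rcases List.mem_cons.1 hx with rfl | hx
          exacts [⟨tag p.1, ⟨by simp, hp⟩, fun he => ht ((triv_iff hB hp hl).2 he)⟩,
            hst.homog x hx]
        · refine List.isChain_cons_cons.2 ⟨fun a b ha hb => ?_, hst.alt⟩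
          rw [homog_unique ha ⟨by simp, hp⟩, homog_unique hb hwi]
          exact fun e => hs (hsame.2 e.symm)

include hB in
theorem red_spec {v : Raw (TD κ γ)} (hv : v.length ≤ B) :
    IsRed kg gg (red oneK oneG v) ∧ value kg gg (red oneK oneG v) = gval (gD kg gg) v ∧
      ((red oneK oneG v).map List.length).sum ≤ v.length := by
  induction v using List.reverseRecOn with
  | nil => exact ⟨⟨by simp [red], List.isChain_nil⟩, by simp [red, value], by simp [red]⟩
  | append_singleton v p ih =>
    rw [List.length_append, List.length_singleton] at hv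
    obtain ⟨h1, h2, h3⟩ := ih (by omega)
    rw [red, List.foldl_append, List.foldl_cons, List.foldl_nil, ← red]
    obtain ⟨e1, e2, e3⟩ := step_spec hB h1 p (by omega)
    refine ⟨e1, by rw [e2, h2, gval_append], ?_⟩
    rw [List.length_append, List.length_singleton]
    omega

theorem sig_spec {st : List (Raw (TD κ γ))} (h : IsRed kg gg st) {w : Raw (TD κ γ)} (hw : w ∈ st) :
    (sig kg gg w).2 ≠ 1 ∧ Homog (sig kg gg w).1 w ∧
      CoprodI.of (sig kg gg w).2 = toI K G (gval (gD kg gg) w) := by
  obtain ⟨i, hi, he⟩ := h.homog w hw
  cases w with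
  | nil => exact absurd rfl hi.1
  | cons p w =>
    obtain rfl : tag p.1 = i := hi.2 p List.mem_cons_self
    exact ⟨he, hi, (toI_elem hi.2).symm⟩

/-- The reduced word of a stack, bottom first. -/
theorem exists_word {st : List (Raw (TD κ γ))} (h : IsRed kg gg st) :
    ∃ W : CoprodI.Word (Fac K G),
      W.toList = st.reverse.map (sig kg gg) ∧ W.prod = toI K G (value kg gg st) := by
  refine ⟨⟨st.reverse.map (sig kg gg), fun l hl => ?_, ?_⟩, rfl, ?_⟩
  · obtain ⟨w, hw, rfl⟩ := List.mem_map.1 hl
    exact (sig_spec h (List.mem_reverse.1 hw)).1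
  · rw [List.isChain_map, List.isChain_reverse]
    exact h.alt.imp_of_mem_imp fun a b ha hb hab e =>
      hab _ _ (sig_spec h ha).2.1 (sig_spec h hb).2.1 e.symm
  · rw [CoprodI.Word.prod]
    dsimp only
    have hk := fun w (hw : w ∈ st) => (sig_spec h hw).2.2
    clear h
    induction st with
    | nil => simp [value, gval, ← FreeGroup.one_eq_mk]
    | cons w st ih =>
      rw [List.reverse_cons, List.map_append, List.map_append, List.prod_append,
        ih fun x hx => hk x (List.mem_cons_of_mem _ hx), value_cons, map_mul]
      congr 1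
      simp only [List.map_cons, List.map_nil, List.prod_singleton]
      exact hk _ List.mem_cons_self

/-- Stacks with one value have the same syllables. -/
theorem sig_eq_of_value_eq {st st' : List (Raw (TD κ γ))} (h : IsRed kg gg st)
    (h' : IsRed kg gg st') (he : value kg gg st = value kg gg st') :
    st.map (sig kg gg) = st'.map (sig kg gg) := by
  classical
  obtain ⟨W, hW, hp⟩ := exists_word h
  obtain ⟨W', hW', hp'⟩ := exists_word h'
  have : W = W' := CoprodI.Word.equiv.symm.injective (by
    show W.prod = W'.prod
    rw [hp, hp', he])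
  subst this
  rw [List.map_reverse] at hW hW'
  exact List.reverse_inj.1 (hW.symm.trans hW')

include hB in
/-- **The word problem of `D`.** -/
theorem oneD_iff {v : Raw (TD κ γ)} (hv : v.length ≤ B) :
    oneD oneK oneG v = true ↔ gval (gD kg gg) v = 1 := by
  obtain ⟨h1, h2, -⟩ := red_spec hB hv
  rw [oneD, List.isEmpty_iff, ← h2]
  refine ⟨fun e => by simp [e, value, gval, ← FreeGroup.one_eq_mk], fun e => ?_⟩
  have := sig_eq_of_value_eq (st' := []) h1 ⟨by simp, List.isChain_nil⟩
    (by rw [e]; simp [value, gval, ← FreeGroup.one_eq_mk])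
  simpa using this

end Spec

end Vale.Agent.P193.B.DWord
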