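import Mathlib.GroupTheory.Coprod.Basic
import Mathlib.GroupTheory.FreeGroup.Basic
import Mathlib.GroupTheory.Coset.Basic
import Mathlib.GroupTheory.GroupAction.Quotient
import Mathlib.Algebra.Group.Action.End
import Mathlib.Algebra.Group.Subgroup.Lattice

/-!
# The free product lemma (P193, piece B)

`D = K * G * F(c, z, h_j)` and `X = ⟨X₀, h_j, c⁻¹ h_j⁻¹ k_j (k_j ∉ X₀)⟩` meets `K` in `X₀`.
The proof is one action of `D` on `K/X₀ ⊕ K ⊕ pt`.
-/

namespace Vale.Agent.P193.B

attribute [local instance] Classical.propDecidable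

open Monoid

universe u

variable {K G : Type u} [Group K] [Group G]

/-- The free product `K * G * F(c, z, h_j)`. -/
abbrev D (K G : Type u) [Group K] [Group G] : Type u :=
  Coprod (Coprod K G) (FreeGroup (Bool ⊕ ℕ))

def inK : K →* D K G := Coprod.inl.comp Coprod.inl

def inG : G →* D K G := Coprod.inl.comp Coprod.inr

def cD : D K G := Coprod.inr (FreeGroup.of (.inl false))

def zD : D K G := Coprod.inr (FreeGroup.of (.inl true))

def hD (j : ℕ) : D K G := Coprod.inr (FreeGroup.of (.inr j))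

def gD (k : ℕ → K) (j : ℕ) : D K G := (cD)⁻¹ * (hD j)⁻¹ * inK (k j)

theorem hD_mul_cD_mul_gD (k : ℕ → K) (j : ℕ) : hD j * cD * gD k j = (inK (k j) : D K G) := by
  simp [gD, mul_assoc]

theorem inK_injective : Function.Injective (inK : K →* D K G) := by
  refine Function.LeftInverse.injective (g := Coprod.lift (Coprod.lift (MonoidHom.id K) 1) 1)
    fun x => ?_
  simp [inK]

theorem inG_injective : Function.Injective (inG : G →* D K G) := by
  refine Function.LeftInverse.injective (g := Coprod.lift (Coprod.lift 1 (MonoidHom.id G)) 1)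
    fun x => ?_
  simp [inG]

/-- The subgroup `X`. -/
def X (X₀ : Subgroup K) (k : ℕ → K) : Subgroup (D K G) :=
  Subgroup.closure (inK '' (X₀ : Set K) ∪ Set.range hD ∪ gD k '' {j | k j ∉ X₀})

section Act

variable (X₀ : Subgroup K) (k : ℕ → K)

/-- The set on which `D` acts. -/
abbrev Pt : Type u := (K ⧸ X₀) ⊕ (K ⊕ PUnit.{u + 1})

def base : Pt X₀ := .inl (QuotientGroup.mk 1)

def extra : Pt X₀ := .inr (.inr PUnit.unit)

/-- The action of `K`. -/
def actK : K →* Equiv.Perm (Pt X₀) where
  toFun x := Equiv.sumCongr (MulAction.toPerm x) (Equiv.sumCongr (Equiv.mulLeft x) (Equiv.refl _))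
  map_one' := by ext (_ | _ | _) <;> simp
  map_mul' x y := by ext (_ | _ | _) <;> simp [mul_smul, mul_assoc]

/-- The action of `D`. -/
noncomputable def act : D K G →* Equiv.Perm (Pt X₀) :=
  Coprod.lift (Coprod.lift (actK X₀) 1) (FreeGroup.lift fun
    | .inl false => Equiv.swap (base X₀) (extra X₀)
    | .inl true => Equiv.swap (base X₀) (.inr (.inl 1))
    | .inr j => if k j ∈ X₀ then 1 else Equiv.swap (extra X₀) (.inl (QuotientGroup.mk (k j))))

theorem act_inK (x : K) : act (G := G) X₀ k (inK x) = actK X₀ x := by simp [act, inK]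

theorem act_cD : act (G := G) X₀ k cD = Equiv.swap (base X₀) (extra X₀) := by simp [act, cD]

theorem act_zD : act (G := G) X₀ k zD = Equiv.swap (base X₀) (.inr (.inl 1)) := by simp [act, zD]

theorem actK_base (x : K) : actK X₀ x (base X₀) = .inl (QuotientGroup.mk x) := by
  simp [actK, base]

theorem mk_ne_base {x : K} (hx : x ∉ X₀) :
    (.inl (QuotientGroup.mk x) : Pt X₀) ≠ base X₀ := by
  intro h
  have := (QuotientGroup.eq (s := X₀)).1 (Sum.inl_injective h)
  exact hx (by simpa using X₀.inv_mem this)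

theorem act_fix {x : D K G} (hx : x ∈ X X₀ k) : act X₀ k x (base X₀) = base X₀ := by
  classical
  induction hx using Subgroup.closure_induction with
  | mem x hx =>
    rcases hx with (⟨y, hy, rfl⟩ | ⟨j, rfl⟩) | ⟨j, hj, rfl⟩
    · rw [act_inK, actK_base]
      exact congrArg Sum.inl (QuotientGroup.eq.2 (by simpa using hy))
    · simp only [act, hD, Coprod.lift_apply_inr, FreeGroup.lift_apply_of]
      split_ifs with h
      · simp
      · exact Equiv.swap_apply_of_ne_of_ne (by simp [base, extra]) (mk_ne_base X₀ h).symm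
    · have hj : k j ∉ X₀ := hj
      have hh : act (G := G) X₀ k (hD j) =
          Equiv.swap (extra X₀) (.inl (QuotientGroup.mk (k j))) := by simp [act, hD, hj]
      simp [gD, act_inK, act_cD, hh, actK_base, Equiv.Perm.mul_apply, Equiv.Perm.inv_def,
        Equiv.symm_swap]
  | one => simp
  | mul x y _ _ hx hy => rw [map_mul, Equiv.Perm.mul_apply, hy, hx]
  | inv x _ hx =>
    rw [map_inv]
    exact Equiv.Perm.inv_eq_iff_eq.2 hx.symm

end Act

variable {X₀ : Subgroup K} {k : ℕ → K}

/-- **Free product lemma.** -/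
theorem inK_mem_X_iff {y : K} : (inK y : D K G) ∈ X X₀ k ↔ y ∈ X₀ := by
  refine ⟨fun h => ?_, fun h => Subgroup.subset_closure (.inl (.inl ⟨y, h, rfl⟩))⟩
  have := act_fix X₀ k h
  rw [act_inK, actK_base] at this
  by_contra hy
  exact mk_ne_base X₀ hy this

theorem hD_mem_X (j : ℕ) : (hD j : D K G) ∈ X X₀ k :=
  Subgroup.subset_closure (.inl (.inr ⟨j, rfl⟩))

theorem gD_mem_X {j : ℕ} (hj : k j ∉ X₀) : (gD k j : D K G) ∈ X X₀ k :=
  Subgroup.subset_closure (.inr ⟨j, hj, rfl⟩)

theorem cD_not_mem_X : (cD : D K G) ∉ X X₀ k := by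
  classical
  intro h
  have := act_fix X₀ k h
  simp [act_cD, base, extra] at this

/-- The letter `z` separates the nontrivial elements of `K` from `X`. -/
theorem eq_one_of_zD_conj_mem {y : K} (h : (zD * inK y * (zD)⁻¹ : D K G) ∈ X X₀ k) : y = 1 := by
  classical
  by_contra hy
  have := act_fix X₀ k h
  simp only [map_mul, map_inv, act_zD, act_inK, Equiv.Perm.mul_apply, Equiv.Perm.inv_def,
    Equiv.symm_swap, Equiv.swap_apply_left] at this
  rw [show actK X₀ y (.inr (.inl 1)) = .inr (.inl y) by simp [actK],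
    Equiv.swap_apply_of_ne_of_ne (by simp [base]) (by simpa using hy)] at this
  simp [base] at this

/-- Outside `X₀` every element of `K` is `h * c * g` with `h, g ∈ X`. -/
theorem exists_eq_mul_cD_mul {y : K} (hk : y ∈ Set.range k) (hy : y ∉ X₀) :
    ∃ u ∈ (X X₀ k : Subgroup (D K G)), ∃ v ∈ (X X₀ k : Subgroup (D K G)),
      inK y = u * cD * v := by
  obtain ⟨j, rfl⟩ := hk
  exact ⟨_, hD_mem_X j, _, gD_mem_X hy, (hD_mul_cD_mul_gD k j).symm⟩

end Vale.Agent.P193.B
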