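import Vale.Agent.P193.B.Decode

/-!
# Membership in `Γ` and in `E = ⟨F, F'⟩` read off a reduced stack (P193, piece B)

An element of `E` is detected by doubling `Γ` along `X = ⟨d_i⟩`: the two copies of a reduced stack
cancel down to the first left syllable outside `X`.
-/

namespace Vale.Agent.P193.B.Reduce

open Monoid

variable {T : Type} {Γ : Type} [Group Γ] {M : ℕ} {d : ℕ → Γ} {g : T → Γ}

/-- A reduced stack of length at least two does not lie in `Γ`. -/
theorem value_ne_base {st : List (Syl T)} (hst : Shape M d g st) (hlen : 2 ≤ st.length) (y : Γ) :
    value M d g st ≠ Ext.base M d y := by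
  intro h
  by_cases hy : y = 1
  · exact value_ne_one hst hlen (by rw [h, hy, map_one])
  have hinj := Amal.famMap_injective (pairHom_injective M d) (wHom_injective M)
  obtain ⟨W, hr, hW, hl⟩ := exists_word hst.1 (hst.2 hlen)
  have hout : Out M d (id : Γ → Γ) (false, [(y, true)], []) := by
    rintro ⟨q, hq⟩
    have hq1 : q = 1 := wHom_injective M ((congrArg Prod.snd hq).trans (map_one _).symm)
    have hg : gval (id : Γ → Γ) [(y, true)] = y := FreeGroup.lift_apply_of
    have h1 : (pairHom M d q).1 = y := (congrArg Prod.fst hq).trans hg
    rw [hq1, map_one] at h1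
    exact hy h1.symm
  obtain ⟨W', hr', hW', hl'⟩ := exists_word (M := M) (d := d) (g := (id : Γ → Γ))
    (st := [(false, [(y, true)], [])]) (List.isChain_singleton _)
    (fun s hs => by rw [List.mem_singleton.1 hs]; exact hout)
  obtain ⟨δ⟩ := PushoutI.NormalWord.transversal_nonempty (famMap (pairHom M d) (wHom M)) hinj
  obtain ⟨A, hA, hAl⟩ := hr.exists_normalWord_prod_eq δ
  obtain ⟨B, hB, hBl⟩ := hr'.exists_normalWord_prod_eq δ
  have hAB : A = B := PushoutI.NormalWord.prod_injective (by
    rw [hA, hB, hW, hW', h]
    show Ext.base M d y = value M d id [(false, [(y, true)], [])]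
    simp [value, sval, Ext.base, gval]
    rfl)
  have := congrArg List.length hAl
  have := congrArg List.length hBl
  subst hAB
  simp at *
  omega

/-! ### The doubling -/

section Double

variable {Δ : Type} [Group Δ] (ι : Γ →* Δ) {e : ℕ → Δ}

variable (M) in
/-- The induced map. -/
def push₂ (he : ∀ i, ι (d i) = e i) : Ext M d →* Ext M e :=
  Ext.lift ((Ext.base M e).comp ι) (Ext.f M e) (Ext.f' M e)
    (fun _ _ => Ext.base_comm_f M e _ _)
    (fun i => by rw [MonoidHom.comp_apply, he]; exact Ext.rel M e i)

variable (g) in
/-- A syllable pushed to `Δ`. -/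
def tr (s : Syl T) : Syl Δ := (s.1, if s.1 then [] else [(ι (gval g s.2.1), true)], s.2.2)

theorem gval_single (x : Δ) : gval (id : Δ → Δ) [(x, true)] = x := FreeGroup.lift_apply_of

theorem sval_tr (he : ∀ i, ι (d i) = e i) (s : Syl T) :
    sval M e id (tr g ι s) = push₂ M ι he (sval M d g s) := by
  obtain ⟨b, v, u⟩ := s
  cases b
  · simp only [sval, tr, Bool.false_eq_true, if_false, gval_single]
    rw [Ext.left_apply, Ext.left_apply, map_mul, push₂, Ext.lift_base, Ext.lift_f]
    rfl
  · simp only [sval, tr, if_true]
    rw [push₂, Ext.lift_f']

theorem value_tr (he : ∀ i, ι (d i) = e i) (st : List (Syl T)) :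
    value M e id (st.map (tr g ι)) = push₂ M ι he (value M d g st) := by
  induction st with
  | nil => simp [value]
  | cons s st ih => simp [value, ih, sval_tr ι he]

theorem out_tr (he : ∀ i, ι (d i) = e i) (hι : Function.Injective ι) {s : Syl T}
    (h : Out M d g s) : Out M e id (tr g ι s) := by
  obtain ⟨b, v, u⟩ := s
  cases b
  · simp only [Out, tr, Bool.false_eq_true, if_false, gval_single] at h ⊢
    rintro ⟨q, hq⟩
    refine h ⟨q, Prod.ext (hι ?_) (congrArg Prod.snd hq :)⟩
    have hlift : ι.comp (FreeGroup.lift d) = FreeGroup.lift e :=
      FreeGroup.ext_hom _ _ fun i => by simp [he]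
    show ι (FreeGroup.lift d q) = ι (gval g v)
    rw [← MonoidHom.comp_apply, hlift]
    exact congrArg Prod.fst hq
  · exact h

/-- Two maps agreeing on the `d_i` give maps agreeing on `E`. -/
theorem push₂_eqOn (ι' : Γ →* Δ) (he : ∀ i, ι (d i) = e i) (he' : ∀ i, ι' (d i) = e i)
    {z : Ext M d} (hz : z ∈ Ext.E M d) : push₂ M ι he z = push₂ M ι' he' z := by
  have hle : Ext.E M d ≤ MonoidHom.eqLocus (push₂ M ι he) (push₂ M ι' he') := by
    refine sup_le ?_ ?_ <;> rintro _ ⟨u, rfl⟩ <;>
      (show push₂ M ι he _ = push₂ M ι' he' _; simp [push₂])
  exact hle hz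

/-- The inverse of a syllable. -/
def inv' (s : Syl Δ) : Syl Δ := (s.1, FreeGroup.invRev s.2.1, FreeGroup.invRev s.2.2)

theorem sval_inv' (s : Syl Δ) : sval M e id (inv' s) = (sval M e id s)⁻¹ := by
  obtain ⟨b, v, u⟩ := s
  cases b
  · simp only [sval, inv', Bool.false_eq_true, if_false]
    rw [← map_inv, gval_invRev, ← FreeGroup.inv_mk]
    rfl
  · simp only [sval, inv', if_true]
    rw [← map_inv, ← FreeGroup.inv_mk]

theorem out_inv' {s : Syl Δ} (h : Out M e id s) : Out M e id (inv' s) := by
  obtain ⟨b, v, u⟩ := s
  cases b
  · simp only [Out, inv', Bool.false_eq_true, if_false] at h ⊢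
    rw [gval_invRev, ← FreeGroup.inv_mk]
    exact fun hm => h (inv_mem_iff.1 (show ((gval id v, FreeGroup.mk u) : Δ × F)⁻¹ ∈ _ from hm))
  · simp only [Out, inv', if_true] at h ⊢
    rw [← FreeGroup.inv_mk]
    exact fun hm => h (inv_mem_iff.1 hm)

theorem value_append (a b : List (Syl Δ)) :
    value M e id (a ++ b) = value M e id b * value M e id a := by
  induction a with
  | nil => simp [value]
  | cons s a ih => simp [value, ih, mul_assoc]

theorem value_reverse_inv' (a : List (Syl Δ)) :
    value M e id (a.reverse.map inv') = (value M e id a)⁻¹ := by
  induction a with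
  | nil => simp [value]
  | cons s a ih =>
    rw [List.reverse_cons, List.map_append, value_append, ih]
    simp [value, sval_inv', mul_inv_rev]

end Double

open Classical in
/-- **Membership in `E`** is read off a reduced stack: all left `Γ`-parts lie in `⟨d_i⟩`. -/
theorem value_mem_E_iff {st : List (Syl T)} (hst : Shape M d g st) :
    value M d g st ∈ Ext.E M d ↔
      ∀ s ∈ st, s.1 = false → gval g s.2.1 ∈ Subgroup.closure (Set.range d) := by
  have hmem : ∀ s : Syl T, (s.1 = false → gval g s.2.1 ∈ Subgroup.closure (Set.range d)) →
      sval M d g s ∈ Ext.E M d := by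
    rintro ⟨b, v, u⟩ h
    cases b
    · simp only [sval, Bool.false_eq_true, if_false, Ext.left_apply]
      exact mul_mem ((Ext.base_mem_E_iff M d).2 (h rfl)) (Subgroup.mem_sup_left ⟨_, rfl⟩)
    · exact Subgroup.mem_sup_right ⟨_, rfl⟩
  constructor
  · intro h
    induction st with
    | nil => simp
    | cons s st ih =>
      by_cases hs : s.1 = false → gval g s.2.1 ∈ Subgroup.closure (Set.range d)
      · intro x hx
        rcases List.mem_cons.1 hx with rfl | hx
        · exact hs
        · refine ih ⟨hst.1.tail, fun hl y hy => hst.2 (by simp; omega) y (List.mem_cons_of_mem _ hy)⟩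
            ?_ x hx
          have := mul_mem h (inv_mem (hmem s hs))
          rwa [value, mul_inv_cancel_right] at this
      · exfalso
        obtain ⟨hsf, hsX⟩ := Classical.not_imp.1 hs
        let X := Subgroup.closure (Set.range d)
        let ιA : Γ →* Amal X.subtype X.subtype := inA X.subtype X.subtype
        let ιB : Γ →* Amal X.subtype X.subtype := inB X.subtype X.subtype
        have hA : Function.Injective ιA := Amal.inA_injective X.subtype_injective X.subtype_injective
        have hB : Function.Injective ιB := Amal.inB_injective X.subtype_injective X.subtype_injective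
        have hd : ιB ∘ d = ιA ∘ d := funext fun i =>
          (Amal.comm (f := X.subtype) (g := X.subtype)
            ⟨d i, Subgroup.subset_closure ⟨i, rfl⟩⟩).symm
        have hne : ιA (gval g s.2.1) ≠ ιB (gval g s.2.1) := fun he => by
          obtain ⟨x, hx⟩ := Amal.mem_range_of_eq X.subtype_injective X.subtype_injective he
          exact hsX (hx ▸ x.2)
        -- both copies agree on `E`
        have heA : ∀ i, ιA (d i) = (ιA ∘ d) i := fun _ => rfl
        have heB : ∀ i, ιB (d i) = (ιA ∘ d) i := congrFun hd
        have heq : value M (ιA ∘ d) id ((s :: st).map (tr g ιA)) =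
            value M (ιA ∘ d) id ((s :: st).map (tr g ιB)) := by
          rw [value_tr ιA heA, value_tr ιB heB]
          exact push₂_eqOn ιA ιB heA heB h
        let δ : Syl (Amal X.subtype X.subtype) :=
          (false, [(ιA (gval g s.2.1), true), (ιB (gval g s.2.1), false)], [])
        let big := (st.map (tr g ιB)).reverse.map inv' ++ δ :: st.map (tr g ιA)
        have hsid : ∀ (ι : Γ →* Amal X.subtype X.subtype), tr g ι s =
            (false, [(ι (gval g s.2.1), true)], s.2.2) := fun ι => by simp [tr, hsf]
        have hv : value M (ιA ∘ d) id big = 1 := by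
          rw [List.map_cons, List.map_cons, value, value, hsid, hsid] at heq
          have hδ : sval M (ιA ∘ d) id δ =
              sval M (ιA ∘ d) id (false, [(ιA (gval g s.2.1), true)], s.2.2) *
              (sval M (ιA ∘ d) id (false, [(ιB (gval g s.2.1), true)], s.2.2))⁻¹ := by
            simp only [δ, sval, Bool.false_eq_true, if_false]
            rw [← map_inv, ← map_mul]
            refine congrArg _ (Prod.ext ?_ ?_)
            · show gval id _ = gval id _ * (gval id _)⁻¹
              rw [show [(ιA (gval g s.2.1), true), (ιB (gval g s.2.1), false)] =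
                  [(ιA (gval g s.2.1), true)] ++ FreeGroup.invRev [(ιB (gval g s.2.1), true)] from rfl,
                gval_append, gval_invRev]
            · show FreeGroup.mk [] = FreeGroup.mk _ * (FreeGroup.mk _)⁻¹
              rw [mul_inv_cancel]; rfl
          rw [show big = (st.map (tr g ιB)).reverse.map inv' ++ δ :: st.map (tr g ιA) from rfl,
            value_append, value_reverse_inv', value, hδ, ← mul_assoc, heq]
          simp [mul_assoc]
        have hsout : 2 ≤ (s :: st).length → ∀ x ∈ s :: st, Out M d g x := hst.2
        have hshape : Shape M (ιA ∘ d) id big := by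
          constructor
          · have h1 : Alt (δ :: st.map (tr g ιA)) := by
              cases st with
              | nil => exact List.isChain_singleton _
              | cons r st =>
                refine List.isChain_cons_cons.2 ⟨?_, ?_⟩
                · have := (List.isChain_cons_cons.1 hst.1).1
                  simpa [δ, tr, hsf] using this
                · rw [show tr g ιA r :: st.map (tr g ιA) = (r :: st).map (tr g ιA) from rfl,
                    List.isChain_map]
                  exact hst.1.tail
            have h2 : Alt ((st.map (tr g ιB)).reverse.map inv') := by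
              rw [Alt, List.isChain_map, List.isChain_reverse, List.isChain_map]
              exact hst.1.tail.imp fun a b hab => fun hc => hab hc.symm
            refine List.IsChain.append h2 h1 fun x hx y hy => ?_
            cases st with
            | nil => simp at hx
            | cons r st =>
              simp at hx hy
              subst hx hy
              have := (List.isChain_cons_cons.1 hst.1).1
              simpa [δ, tr, inv', hsf] using this.symm
          · intro hl x hx
            have hδout : Out M (ιA ∘ d) id δ := by
              rintro ⟨q, hq⟩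
              have hq1 : q = 1 := wHom_injective M ((congrArg Prod.snd hq).trans (map_one _).symm)
              have h1 := congrArg Prod.fst hq
              simp only [hq1, map_one, Prod.fst_one, δ] at h1
              rw [show [(ιA (gval g s.2.1), true), (ιB (gval g s.2.1), false)] =
                  [(ιA (gval g s.2.1), true)] ++ FreeGroup.invRev [(ιB (gval g s.2.1), true)] from rfl,
                gval_append, gval_invRev, gval_single, gval_single] at h1
              exact hne (mul_inv_eq_one.1 h1.symm)
            simp only [big, List.mem_append, List.mem_map, List.mem_reverse, List.mem_cons] at hx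
            rcases hx with ⟨y, ⟨r, hr, rfl⟩, rfl⟩ | rfl | ⟨r, hr, rfl⟩
            · have := out_tr ιB heB hB (hsout (by simp; exact List.length_pos_of_mem hr) r
                (List.mem_cons_of_mem _ hr))
              exact out_inv' this
            · exact hδout
            · exact out_tr ιA heA hA (hsout (by simp; exact List.length_pos_of_mem hr) r
                (List.mem_cons_of_mem _ hr))
        by_cases hlen : 2 ≤ big.length
        · exact value_ne_one hshape hlen hv
        · have hnil : st = [] := by
            cases st with
            | nil => rfl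
            | cons r st => simp [big] at hlen; omega
          subst hnil
          simp [big, value, δ, sval] at hv
          rw [← (Ext.left M (ιA ∘ d)).map_one, (Ext.left_injective M _).eq_iff] at hv
          have h1 := congrArg Prod.fst hv
          rw [Prod.fst_one, show [(ιA (gval g s.2.1), true), (ιB (gval g s.2.1), false)] =
              [(ιA (gval g s.2.1), true)] ++ FreeGroup.invRev [(ιB (gval g s.2.1), true)] from rfl,
            gval_append, gval_invRev, gval_single, gval_single] at h1
          exact hne (mul_inv_eq_one.1 h1)
  · intro h
    clear hst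
    induction st with
    | nil => exact one_mem _
    | cons s st ih =>
      exact mul_mem (ih fun x hx => h x (List.mem_cons_of_mem _ hx))
        (hmem s (h s List.mem_cons_self))

end Vale.Agent.P193.B.Reduce
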