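import Vale.Agent.P193.B.DWord

/-!
# Reading membership in `X = ⟨X₀, h_j, c⁻¹ h_j⁻¹ k_j (j ∈ J)⟩` (P193, piece B)

`memD` reads the reduced word of an element through the graph with vertices `b`, `u`, `v_j`,
keeping every candidate and never merging cosets. No validity of `J` is assumed: if the element is
a product `π` of generators and the test says yes on every short `K`-word with a short witness, and
no on `k_j` for the indices of `π` in `J`, then the reading accepts.
-/

namespace Vale.Agent.P193.B.DWord

open Monoid Reduce

variable {κ γ : Type}

/-! ### The algorithm -/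

/-- A symbol: `none` is a `G`-syllable, otherwise a `K`-syllable or a free letter. -/
abbrev Sym (κ : Type) : Type := Option (Raw κ ⊕ (FL × Bool))

/-- The symbols of a reduced syllable. -/
def symsOf (w : Raw (TD κ γ)) : List (Sym κ) :=
  match w with
  | [] => []
  | p :: _ =>
    match p.1 with
    | .inl _ => [some (.inl (projK w))]
    | .inr (.inl _) => [none]
    | .inr (.inr _) => (FreeGroup.reduce (projF w)).map fun l => some (.inr l)

/-- Positions: `some acc` is the coset of `acc`, `none` is the vertex `u`. -/
abbrev Pos (κ : Type) : Type := Option (Raw κ)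

variable (test : Raw κ → Bool) (inJ : ℕ → Bool) (kw : ℕ → Raw κ)

/-- Successors of one position. -/
def next (p : Pos κ) (s : Sym κ) : List (Pos κ) :=
  match s, p with
  | some (.inl x), some acc => [some (acc ++ x)]
  | some (.inr (.inl false, true)), none => [some []]
  | some (.inr (.inl false, false)), some acc => if test acc then [none] else []
  | some (.inr (.inr j, true)), some acc =>
      (if test acc then [some []] else []) ++ (if inJ j && test (acc ++ kw j) then [none] else [])
  | some (.inr (.inr _, false)), some acc => if test acc then [some []] else []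
  | some (.inr (.inr j, false)), none => if inJ j then [some (FreeGroup.invRev (kw j))] else []
  | _, _ => []

/-- Read a sequence of symbols. -/
def readSyms (l : List (Sym κ)) : List (Pos κ) :=
  l.foldl (fun S s => S.flatMap fun p => next test inJ kw p s) [some []]

/-- Accepting positions. -/
def accepts (p : Pos κ) : Bool :=
  match p with
  | some acc => test acc
  | none => false

/-- Reading a `D`-word. -/
def memD (oneK : Raw κ → Bool) (oneG : Raw γ → Bool) (v : Raw (TD κ γ)) : Bool :=
  (readSyms test inJ kw ((red oneK oneG v).reverse.flatMap symsOf)).any (accepts test)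

/-! ### Canonical words without `G` -/

section Canon

variable {K G : Type} [Group K] [Group G]

/-- A `K`-element or a free letter. -/
abbrev Elt (K : Type) : Type := K ⊕ (FL × Bool)

variable (G) in
/-- The value of an element in `D`. -/
def eltVal : Elt K → D K G
  | .inl x => inK x
  | .inr (a, s) => if s then Coprod.inr (FreeGroup.of a) else (Coprod.inr (FreeGroup.of a))⁻¹

variable (G) in
/-- The value of a stack. -/
def stVal : List (Elt K) → D K G
  | [] => 1
  | s :: st => stVal st * eltVal G s

/-- `b` may follow `a`. -/
def CanFollow : Elt K → Elt K → Prop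
  | .inl _, .inl _ => False
  | .inr (a, s), .inr (a', s') => a = a' → s = s'
  | _, _ => True

/-- Reduced stacks. -/
def Canon (st : List (Elt K)) : Prop :=
  st.IsChain CanFollow ∧ ∀ x, Sum.inl x ∈ st → x ≠ 1

/-- Grouping into homogeneous syllables over the letters `K`. -/
def grp : List (Elt K) → List (Raw (TD K G))
  | [] => []
  | .inl x :: st => [(.inl x, true)] :: grp st
  | .inr (a, s) :: st =>
    match grp st with
    | [] => [[(.inr (.inr a), s)]]
    | (p :: w) :: ws =>
      if tag p.1 = .f then ((p :: w) ++ [(.inr (.inr a), s)]) :: ws
      else [(.inr (.inr a), s)] :: (p :: w) :: ws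
    | [] :: ws => [(.inr (.inr a), s)] :: ws

/-- The elements of a syllable's signature. -/
def explode : (Σ i, Fac K G i) → List (Option (Elt K))
  | ⟨.k, x⟩ => [some (.inl x)]
  | ⟨.g, _⟩ => [none]
  | ⟨.f, x⟩ => (FreeGroup.toWord (α := FL) x).map fun l => some (.inr l)

/-- The invariant of `grp`. -/
structure GrpOK (st : List (Elt K)) : Prop where
  red : IsRed (γ := G) (id : K → K) (id : G → G) (grp (G := G) st)
  val : value (id : K → K) (id : G → G) (grp (G := G) st) = stVal G st
  expl : (grp (G := G) st).reverse.flatMap (fun w => explode (sig (id : K → K) (id : G → G) w)) =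
    st.reverse.map some
  top : ∀ x st', st = .inl x :: st' → ∀ w ws, grp (G := G) st = w :: ws → Homog .k w
  topf : ∀ a s st', st = .inr (a, s) :: st' → ∀ w ws, grp (G := G) st = w :: ws →
    Homog .f w ∧ FreeGroup.IsReduced (projF w) ∧ (projF w).getLast? = some (a, s)

theorem grp_spec : ∀ {st : List (Elt K)}, Canon st → GrpOK (G := G) st
  | [], _ => ⟨⟨by simp [grp], List.isChain_nil⟩,
      by simp [grp, value, stVal, gval, ← FreeGroup.one_eq_mk], by simp [grp],
      fun _ _ h => by simp at h, fun _ _ _ h => by simp at h⟩
  | e :: st, hc => by
    have hc' : Canon st := ⟨hc.1.tail, fun x hx => hc.2 x (List.mem_cons_of_mem _ hx)⟩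
    obtain ⟨hred, hval, hex, htop, htopf⟩ := grp_spec hc'
    have hhead : ∀ w ws, grp (G := G) st = w :: ws → ∀ e', st.head? = some e' →
        (∃ x, e' = .inl x ∧ Homog .k w) ∨ (∃ a s, e' = .inr (a, s) ∧ Homog .f w) := by
      intro w ws hw e' he'
      cases st with
      | nil => simp at he'
      | cons e'' st' =>
        simp at he'
        subst he'
        rcases e'' with x | ⟨a, s⟩
        exacts [Or.inl ⟨x, rfl, htop x st' rfl w ws hw⟩,
          Or.inr ⟨a, s, rfl, (htopf a s st' rfl w ws hw).1⟩]
    rcases e with x | ⟨a, s⟩
    · have hx : x ≠ 1 := hc.2 x List.mem_cons_self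
      have hk : Homog (γ := G) .k [((Sum.inl x : TD K G), true)] :=
        ⟨by simp, by simp [tag]⟩
      refine ⟨⟨fun w hw => ?_, ?_⟩, ?_, ?_, fun _ _ _ w ws hw => ?_, fun _ _ _ h => by simp at h⟩
      · rcases List.mem_cons.1 (show w ∈ _ :: grp st from hw) with rfl | hw
        · exact ⟨.k, hk, by simpa [elem, projK, gval] using hx⟩
        · exact hred.homog w hw
      · show List.IsChain _ ([(Sum.inl x, true)] :: grp st)
        cases hg : grp (G := G) st with
        | nil => exact List.isChain_singleton _
        | cons w ws =>
          refine List.isChain_cons_cons.2 ⟨fun i j hi hj => ?_, hg ▸ hred.alt⟩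
          rw [homog_unique hi hk]
          cases st with
          | nil => simp [grp] at hg
          | cons e' st' =>
            rcases hhead w ws hg e' rfl with ⟨y, rfl, hy⟩ | ⟨b, t, rfl, hb⟩
            · exact absurd (List.isChain_cons_cons.1 hc.1).1 (by simp [CanFollow])
            · rw [homog_unique hj hb]; decide
      · rw [grp, value_cons, hval, stVal]
        congr 1 <;> simp [gval, gD, eltVal]
      · have hs : explode (sig (id : K → K) (id : G → G) [((Sum.inl x : TD K G), true)]) =
            [some (.inl x)] := by
          show [some (Sum.inl (gval (id : K → K) [(x, true)]))] = _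
          simp [gval]
        rw [grp, List.reverse_cons, List.flatMap_append, hex, List.flatMap_singleton, hs]
        simp
      · rw [grp] at hw
        cases hw
        exact hk
    · have hf : Homog (γ := G) (κ := K) .f [(Sum.inr (Sum.inr a), s)] := ⟨by simp, by simp [tag]⟩
      have hfe : elem (id : K → K) (id : G → G) .f [((Sum.inr (Sum.inr a) : TD K G), s)] ≠ 1 := by
        show gval FreeGroup.of (projF [((Sum.inr (Sum.inr a) : TD K G), s)]) ≠ 1
        simp [projF, gval, FreeGroup.lift_of_eq_id]
        rw [← FreeGroup.toWord_eq_nil_iff, FreeGroup.toWord_mk]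
        simp [FreeGroup.reduce]
      have hsingle : (sig (id : K → K) (id : G → G) [((Sum.inr (Sum.inr a) : TD K G), s)]) =
          ⟨.f, gval FreeGroup.of [(a, s)]⟩ := rfl
      have htw : ∀ l : Raw FL, FreeGroup.IsReduced l →
          FreeGroup.toWord (gval FreeGroup.of l) = l := fun l hl => by
        rw [gval, FreeGroup.lift_of_eq_id, MonoidHom.id_apply, FreeGroup.toWord_mk, hl.reduce_eq]
      cases hg : grp (G := G) st with
      | nil =>
        have he : grp (G := G) (.inr (a, s) :: st) = [[(Sum.inr (Sum.inr a), s)]] := by rw [grp, hg]
        have hst : st = [] := by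
          cases st with
          | nil => rfl
          | cons e' st' =>
            rcases e' with y | ⟨b, t⟩
            · simp [grp] at hg
            · exfalso
              revert hg
              rw [grp]
              split <;> (try split) <;> simp
        subst hst
        refine ⟨⟨fun w hw => ?_, ?_⟩, ?_, ?_, fun _ _ h => by simp at h, fun a' s' _ h w ws hw => ?_⟩
        · rw [he] at hw
          rw [List.mem_singleton.1 hw]
          exact ⟨.f, hf, hfe⟩
        · rw [he]; exact List.isChain_singleton _
        · rw [he]
          cases s <;> simp [value, stVal, gval, gD, eltVal]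
        · rw [he]
          simp [hsingle, explode, htw]
        · rw [he] at hw
          cases hw
          cases h
          exact ⟨hf, by simp [projF], by simp [projF]⟩
      | cons w ws =>
        obtain ⟨i, hi, hie⟩ := hred.homog w (by rw [hg]; exact List.mem_cons_self)
        obtain ⟨p, w', rfl⟩ := List.exists_cons_of_ne_nil hi.1
        have hpi : tag p.1 = i := hi.2 p List.mem_cons_self
        cases st with
        | nil => simp [grp] at hg
        | cons e' st' =>
        by_cases hpf : tag p.1 = .f
        · have he : grp (G := G) (.inr (a, s) :: e' :: st') =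
              ((p :: w') ++ [(Sum.inr (Sum.inr a), s)]) :: ws := by rw [grp, hg]; simp [hpf]
          rcases hhead _ ws hg e' rfl with ⟨y, rfl, hy⟩ | ⟨b, t, rfl, hb⟩
          · have := homog_unique hi hy
            rw [← hpi, hpf] at this
            simp at this
          obtain ⟨-, hredw, hlast⟩ := htopf b t st' rfl _ _ hg
          have hproj : projF ((p :: w') ++ [((Sum.inr (Sum.inr a) : TD K G), s)]) =
              projF (p :: w') ++ [(a, s)] := by
            simp only [projF, List.filterMap_append]; rfl
          have hredn : FreeGroup.IsReduced (projF (p :: w') ++ [(a, s)]) := by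
            refine List.IsChain.append hredw (List.isChain_singleton _) fun x hx y hy => ?_
            rw [hlast] at hx
            simp at hx hy
            subst hx hy
            intro hab
            exact ((List.isChain_cons_cons.1 hc.1).1 hab.symm).symm
          have hnew : Homog .f ((p :: w') ++ [((Sum.inr (Sum.inr a) : TD K G), s)]) := by
            refine ⟨by simp, fun q hq => ?_⟩
            rcases List.mem_append.1 hq with hq | hq
            · exact (hi.2 q hq).trans (hpi.symm.trans hpf)
            · rw [List.mem_singleton.1 hq]; rfl
          have hnewe : elem (id : K → K) (id : G → G) .f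
              ((p :: w') ++ [((Sum.inr (Sum.inr a) : TD K G), s)]) ≠ 1 := by
            intro h1
            have := htw _ hredn
            rw [← hproj] at this
            rw [show gval FreeGroup.of (projF ((p :: w') ++ [((Sum.inr (Sum.inr a) : TD K G), s)])) = 1
              from h1, FreeGroup.toWord_one, hproj] at this
            simp at this
          refine ⟨⟨fun x hx => ?_, ?_⟩, ?_, ?_, fun _ _ h => by simp at h,
            fun a' s' _ h x xs hx => ?_⟩
          · rw [he] at hx
            rcases List.mem_cons.1 hx with rfl | hx
            exacts [⟨.f, hnew, hnewe⟩, hred.homog x (by rw [hg]; exact List.mem_cons_of_mem _ hx)]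
          · rw [he]
            have halt := hred.alt
            rw [hg] at halt
            cases ws with
            | nil => exact List.isChain_singleton _
            | cons r rs =>
              refine List.isChain_cons_cons.2 ⟨fun i' j' hi' hj' => ?_, halt.tail⟩
              rw [homog_unique hi' hnew]
              exact (List.isChain_cons_cons.1 halt).1 .f j' hb hj'
          · rw [he, value_cons, gval_append, ← mul_assoc, ← value_cons, ← hg, hval]
            show _ = stVal G (Sum.inr (b, t) :: st') * eltVal G (Sum.inr (a, s))
            congr 1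
            cases s <;> simp [gval, gD, eltVal]
          · rw [he]
            have hex' := hex
            rw [hg] at hex'
            simp only [List.reverse_cons, List.flatMap_append, List.flatMap_cons, List.flatMap_nil,
              List.append_nil, List.map_append] at hex' ⊢
            rw [← hex', List.append_assoc]
            congr 1
            have e1 : sig (id : K → K) (id : G → G) (p :: w') =
                ⟨.f, gval FreeGroup.of (projF (p :: w'))⟩ := by
              show (⟨tag p.1, _⟩ : Σ i, Fac K G i) = _
              rw [hpf]; rfl
            have e2 : sig (id : K → K) (id : G → G) ((p :: w') ++ [((Sum.inr (Sum.inr a) : TD K G), s)]) =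
                ⟨.f, gval FreeGroup.of (projF (p :: w') ++ [(a, s)])⟩ := by
              show (⟨tag p.1, _⟩ : Σ i, Fac K G i) = _
              rw [hpf, ← hproj]; rfl
            rw [e1, e2, explode, explode, htw _ hredn, htw _ hredw]
            simp
          · rw [he] at hx
            cases hx
            cases h
            exact ⟨hnew, by rw [hproj]; exact hredn, by rw [hproj]; simp⟩
        · have he : grp (G := G) (.inr (a, s) :: e' :: st') =
              [(Sum.inr (Sum.inr a), s)] :: (p :: w') :: ws := by rw [grp, hg]; simp [hpf]
          refine ⟨⟨fun x hx => ?_, ?_⟩, ?_, ?_, fun _ _ h => by simp at h,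
            fun a' s' _ h x xs hx => ?_⟩
          · rw [he] at hx
            rcases List.mem_cons.1 hx with rfl | hx
            exacts [⟨.f, hf, hfe⟩, hred.homog x (by rw [hg]; exact hx)]
          · rw [he]
            have halt := hred.alt
            rw [hg] at halt
            refine List.isChain_cons_cons.2 ⟨fun i' j' hi' hj' => ?_, halt⟩
            rw [homog_unique hi' hf, homog_unique hj' hi, ← hpi]
            exact fun e => hpf e.symm
          · rw [he, value_cons, ← hg, hval]
            show _ = stVal G (e' :: st') * eltVal G (Sum.inr (a, s))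
            congr 1
            cases s <;> simp [gval, gD, eltVal]
          · rw [he]
            have hex' := hex
            rw [hg] at hex'
            rw [List.reverse_cons, List.flatMap_append, hex']
            simp [hsingle, explode, htw]
          · rw [he] at hx
            cases hx
            cases h
            exact ⟨hf, by simp [projF], by simp [projF]⟩

/-- A reduced stack with the value of a canonical one has the same elements. -/
theorem explode_eq_of_value_eq {kg : κ → K} {gg : γ → G} {st : List (Raw (TD κ γ))}
    (h : IsRed kg gg st) {cs : List (Elt K)} (hc : Canon cs)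
    (he : value kg gg st = stVal G cs) :
    st.reverse.flatMap (fun w => explode (sig kg gg w)) = cs.reverse.map some := by
  classical
  obtain ⟨hred, hval, hex, -, -⟩ := grp_spec (G := G) hc
  obtain ⟨W, hW, hp⟩ := exists_word h
  obtain ⟨W', hW', hp'⟩ := exists_word hred
  have hWW : W = W' := CoprodI.Word.equiv.symm.injective (by
    show W.prod = W'.prod
    rw [hp, hp', hval, he])
  have h1 : ∀ {α : Type} (l : List α) (f : α → Σ i, Fac K G i),
      l.flatMap (fun w => explode (f w)) = (l.map f).flatMap explode := fun l f => by
    rw [List.flatMap_map]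
  rw [← hex, h1 _ (sig kg gg), h1 _ (sig id id), ← hW, ← hW', hWW]

/-! ### The graph -/

variable {ι : Type} (ki : ℕ → K) (ei : ι → K)

/-- Vertices. -/
inductive Node
  | b | u | v (j : ℕ)

/-- Representatives of the cosets. -/
def rep : Node → K
  | .v j => (ki j)⁻¹
  | _ => 1

/-- The free edges: `Edge inJ p ℓ q`. -/
inductive Edge (inJ : ℕ → Bool) : Node → FL × Bool → Node → Prop
  | hb (j : ℕ) (s : Bool) : Edge inJ .b (.inr j, s) .b
  | hv (j : ℕ) (h : inJ j = true) : Edge inJ (.v j) (.inr j, true) .u
  | hu (j : ℕ) (h : inJ j = true) : Edge inJ .u (.inr j, false) (.v j)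
  | cu : Edge inJ .u (.inl false, true) .b
  | cb : Edge inJ .b (.inl false, false) .u

theorem Edge.inv {inJ : ℕ → Bool} {p q : Node} {a : FL} {s : Bool} (h : Edge inJ p (a, s) q) :
    Edge inJ q (a, !s) p := by
  cases h <;> constructor <;> assumption

theorem Edge.target_unique {inJ : ℕ → Bool} {p q q' : Node} {l : FL × Bool} (h : Edge inJ p l q)
    (h' : Edge inJ p l q') : q = q' := by
  cases h <;> cases h' <;> rfl

mutual
/-- Reading arrived at a node by a free letter. -/
inductive Arr (inJ : ℕ → Bool) : List (Elt K) → Node → ℕ → Prop
  | nil : Arr inJ [] .b 0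
  | step {st p l q n} : St inJ st p n → Edge inJ p l q →
      (∀ l' st', st = .inr l' :: st' → l'.1 = l.1 → l'.2 = l.2) → Arr inJ (.inr l :: st) q n
/-- The state: at `u`, or at the coset of a node up to a short witness. -/
inductive St (inJ : ℕ → Bool) : List (Elt K) → Node → ℕ → Prop
  | atU {st n} : Arr inJ st .u n → St inJ st .u n
  | pend {st a p n} (x : K) (e : Raw ι) : Arr inJ st a n → a ≠ .u → p ≠ .u → x ≠ 1 →
      rep ki a * x = gval ei e * rep ki p → St inJ (.inl x :: st) p (n + e.length)
  | here {st a p n} (e : Raw ι) : Arr inJ st a n → a ≠ .u → p ≠ .u →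
      rep ki a = gval ei e * rep ki p → St inJ st p (n + e.length)
end

variable {ki ei inJ}

theorem Arr.canon : ∀ {st : List (Elt K)} {q n}, Arr ki ei inJ st q n → Canon st
  | _, _, _, .nil => ⟨List.isChain_nil, by simp⟩
  | _, _, _, .step (st := st) (l := l) h _ hne => by
    have hc : Canon st := St.canon h
    refine ⟨?_, fun x hx => hc.2 x (by simpa using hx)⟩
    cases st with
    | nil => exact List.isChain_singleton _
    | cons e st' =>
      refine List.isChain_cons_cons.2 ⟨?_, hc.1⟩
      rcases e with x | ⟨a, s⟩
      · trivial
      · exact fun h1 => (hne (a, s) st' rfl h1.symm).symm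
where
  St.canon : ∀ {st : List (Elt K)} {q n}, St ki ei inJ st q n → Canon st
  | _, _, _, .atU h => Arr.canon h
  | _, _, _, .pend (st := st) x e h _ _ hx _ => by
    have hc := Arr.canon h
    refine ⟨?_, fun y hy => ?_⟩
    · cases h with
      | nil => exact List.isChain_singleton _
      | step => exact List.isChain_cons_cons.2 ⟨trivial, hc.1⟩
    · rcases List.mem_cons.1 hy with h1 | h1
      · exact (Sum.inl.inj h1).symm ▸ hx
      · exact hc.2 y h1
  | _, _, _, .here _ h _ _ _ => Arr.canon h

/-- Right multiplication by a `K`-edge between cosets. -/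
theorem St.mulK {st : List (Elt K)} {p q : Node} {n : ℕ} (h : St ki ei inJ st p n) (hp : p ≠ .u)
    (hq : q ≠ .u) (y : K) (e' : Raw ι) (hy : rep ki p * y = gval ei e' * rep ki q) :
    ∃ st', St ki ei inJ st' q (n + e'.length) ∧ stVal G st' = stVal G st * inK y := by
  classical
  cases h with
  | atU => exact absurd rfl hp
  | @pend st a p n x e ha hau hpu hx hrel =>
    have hrel' : rep ki a * (x * y) = gval ei (e ++ e') * rep ki q := by
      rw [← mul_assoc, hrel, mul_assoc, hy, gval_append, mul_assoc]
    by_cases hxy : x * y = 1
    · refine ⟨st, ?_, ?_⟩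
      · have := St.here (ki := ki) (ei := ei) (e ++ e') ha hau hq (by rw [← hrel', hxy, mul_one])
        rwa [List.length_append, ← Nat.add_assoc] at this
      · show _ = stVal G st * inK x * inK y
        rw [mul_assoc, ← map_mul, hxy, map_one, mul_one]
    · refine ⟨.inl (x * y) :: st, ?_, ?_⟩
      · have := St.pend (ki := ki) (ei := ei) (x * y) (e ++ e') ha hau hq hxy hrel'
        rwa [List.length_append, ← Nat.add_assoc] at this
      · show stVal G st * inK (x * y) = stVal G st * inK x * inK y
        rw [map_mul, mul_assoc]
  | @here st a p n e ha hau hpu hrel =>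
    have hrel' : rep ki a * y = gval ei (e ++ e') * rep ki q := by
      rw [hrel, mul_assoc, hy, gval_append, mul_assoc]
    by_cases hy1 : y = 1
    · refine ⟨st, ?_, by rw [hy1, map_one, mul_one]⟩
      have := St.here (ki := ki) (ei := ei) (e ++ e') ha hau hq (by rw [← hrel', hy1, mul_one])
      rwa [List.length_append, ← Nat.add_assoc] at this
    · refine ⟨.inl y :: st, ?_, rfl⟩
      have := St.pend (ki := ki) (ei := ei) y (e ++ e') ha hau hq hy1 hrel'
      rwa [List.length_append, ← Nat.add_assoc] at this

/-- The separation used at a backtrack: `k_j` has no witness of length `≤ B`. -/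
def Separated (ki : ℕ → K) (ei : ι → K) (inJ : ℕ → Bool) (j : ℕ) (B : ℕ) : Prop :=
  inJ j = true → ∀ e : Raw ι, e.length ≤ B → ki j ≠ gval ei e

/-- Right multiplication by a free letter along an edge. -/
theorem St.mulLetter {st : List (Elt K)} {p q : Node} {n B : ℕ} {l : FL × Bool}
    (h : St ki ei inJ st p n) (hl : Edge inJ p l q) (hB : n ≤ B)
    (hsep : ∀ j, Separated ki ei inJ j B) :
    ∃ st' m, m ≤ n ∧ St ki ei inJ st' q m ∧ stVal G st' = stVal G st * eltVal G (.inr l) := by
  classical
  -- arriving at `q`
  have arrive : ∀ {st' : List (Elt K)} {m}, Arr ki ei inJ st' q m → St ki ei inJ st' q m := by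
    intro st' m ha
    by_cases hq : q = .u
    · subst hq; exact .atU ha
    · simpa using St.here (ki := ki) (ei := ei) ([] : Raw ι) ha hq hq (by simp [gval])
  have cancel : ∀ {l' : FL × Bool} {r : List (Elt K)}, l'.1 = l.1 → ¬ l'.2 = l.2 →
      stVal G r = stVal G (Sum.inr l' :: r) * eltVal G (.inr l) := by
    intro l' r h1 h2
    obtain ⟨a, s⟩ := l
    obtain ⟨a', s'⟩ := l'
    simp only at h1 h2
    subst h1
    rw [stVal, mul_assoc]
    cases s <;> cases s' <;> simp [eltVal] at h2 ⊢
  cases h with
  | @atU st n ha =>
    by_cases hne : ∀ l' st', st = .inr l' :: st' → l'.1 = l.1 → l'.2 = l.2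
    · exact ⟨_, n, le_rfl, arrive (.step (.atU ha) hl hne), rfl⟩
    · simp only [not_forall] at hne
      obtain ⟨l', r, rfl, h1, h2⟩ := hne
      cases ha with
      | @step r p' _ _ n hs hedge _ =>
        have hq : p' = q := by
          have hinv := hedge.inv
          have : (l'.1, !l'.2) = l := Prod.ext h1 (by revert h2; cases l'.2 <;> cases l.2 <;> simp)
          rw [this] at hinv
          exact hinv.target_unique hl
        exact ⟨r, n, le_rfl, hq ▸ hs, cancel h1 h2⟩
  | @pend st a p n x e ha hau hpu hx hrel =>
    exact ⟨_, _, le_rfl, arrive (.step (.pend x e ha hau hpu hx hrel) hl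
      (by intro l' st' he; simp at he)), rfl⟩
  | @here st a p n e ha hau hpu hrel =>
    by_cases hne : ∀ l' st', st = .inr l' :: st' → l'.1 = l.1 → l'.2 = l.2
    · exact ⟨_, _, le_rfl, arrive (.step (.here e ha hau hpu hrel) hl hne), rfl⟩
    · simp only [not_forall] at hne
      obtain ⟨l', r, rfl, h1, h2⟩ := hne
      cases ha with
      | @step r p' _ _ n hs hedge _ =>
        have hl' : (l'.1, !l'.2) = l :=
          Prod.ext h1 (by revert h2; cases l'.2 <;> cases l.2 <;> simp)
        have hpa : p = a := by
          have hinv := hedge.inv
          rw [hl'] at hinv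
          cases p with
          | u => exact absurd rfl hpu
          | b =>
            cases a with
            | u => exact absurd rfl hau
            | b => rfl
            | v i =>
              exfalso
              have hJi : inJ i = true := by cases hedge; assumption
              refine hsep i hJi (FreeGroup.invRev e) (by simp [FreeGroup.invRev]; omega) ?_
              simp [rep] at hrel
              rw [gval_invRev, ← hrel, inv_inv]
          | v j =>
            cases a with
            | u => exact absurd rfl hau
            | b =>
              exfalso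
              have hJj : inJ j = true := by cases hl; assumption
              refine hsep j hJj e (by omega) ?_
              simp [rep] at hrel
              exact mul_inv_eq_one.1 hrel.symm |>.symm
            | v i =>
              cases hl
              cases hinv
              rfl
        subst hpa
        have hq : p' = q := by
          have hinv := hedge.inv
          rw [hl'] at hinv
          exact hinv.target_unique hl
        exact ⟨r, n, Nat.le_add_right _ _, hq ▸ hs, cancel h1 h2⟩

/-! ### Products of generators -/

variable (ι) in
/-- A generator of `X`: a word in `X₀`, `h_j^±` or `g_j^±`. -/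
abbrev Atom : Type := Raw ι ⊕ ((ℕ × Bool) ⊕ (ℕ × Bool))

variable (G ki ei) in
/-- The value of an atom. -/
def atomVal : Atom ι → D K G
  | .inl e => inK (gval ei e)
  | .inr (.inl (j, s)) => if s then hD j else (hD j)⁻¹
  | .inr (.inr (j, s)) => if s then Vale.Agent.P193.B.gD ki j else (Vale.Agent.P193.B.gD ki j)⁻¹

/-- The `X₀`-length of an atom. -/
def atomLen : Atom ι → ℕ
  | .inl e => e.length
  | .inr _ => 0

/-- The `X₀`-length of a product. -/
def atomsSize (π : List (Atom ι)) : ℕ :=
  (π.map atomLen).sum

theorem exists_st_of_atoms {B : ℕ} (hsep : ∀ j, Separated ki ei inJ j B) :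
    ∀ (π : List (Atom ι)), atomsSize π ≤ B →
      (∀ j s, Sum.inr (Sum.inr (j, s)) ∈ π → inJ j = true) →
      ∃ st n, n ≤ atomsSize π ∧ St ki ei inJ st .b n ∧
        stVal G st = (π.map (atomVal G ki ei)).prod := by
  intro π
  induction π using List.reverseRecOn with
  | nil =>
    intro _ _
    exact ⟨[], 0, le_rfl, by
      simpa using St.here (ki := ki) (ei := ei) (inJ := inJ) (a := Node.b) (p := Node.b)
        ([] : Raw ι) Arr.nil (fun h => by cases h) (fun h => by cases h) (by simp [gval, rep]),
      by simp [stVal]⟩
  | append_singleton π at' ih =>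
    intro hB hJ
    have hsz : atomsSize (π ++ [at']) = atomsSize π + atomLen at' := by
      simp only [atomsSize, List.map_append, List.sum_append, List.map_cons, List.map_nil,
        List.sum_cons, List.sum_nil, Nat.add_zero]
    obtain ⟨st, n, hn, hst, hv⟩ := ih (by omega) fun j s hjs => hJ j s (List.mem_append_left _ hjs)
    have hval : ∀ st', stVal G st' = stVal G st * atomVal G ki ei at' →
        stVal G st' = ((π ++ [at']).map (atomVal G ki ei)).prod := by
      intro st' h
      rw [h, hv, List.map_append, List.prod_append]
      simp
    rcases at' with e | (⟨j, s⟩ | ⟨j, s⟩) <;> simp only [atomLen] at hsz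
    · obtain ⟨st', h1, h2⟩ := St.mulK (G := G) (q := .b) hst (fun h => nomatch h) (fun h => nomatch h)
        (gval ei e) e (by simp [rep])
      exact ⟨st', _, by omega, h1, hval st' h2⟩
    · obtain ⟨st', m, hm, h1, h2⟩ := St.mulLetter (G := G) hst (Edge.hb j s) (by omega) hsep
      refine ⟨st', m, by omega, h1, hval st' ?_⟩
      rw [h2]
      cases s <;> rfl
    · have hj : inJ j = true := hJ j s (by simp)
      cases s
      · obtain ⟨st1, e1, v1⟩ := St.mulK (G := G) (q := .v j) hst (fun h => nomatch h)
          (fun h => nomatch h) (ki j)⁻¹ [] (by simp [rep, gval])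
        obtain ⟨st2, m2, hm2, e2, v2⟩ := St.mulLetter (G := G) e1 (Edge.hv j hj) (by simp; omega) hsep
        obtain ⟨st3, m3, hm3, e3, v3⟩ := St.mulLetter (G := G) e2 Edge.cu (by simp at hm2; omega) hsep
        refine ⟨st3, m3, by simp at hm2; omega, e3, hval st3 ?_⟩
        rw [v3, v2, v1]
        simp [atomVal, Vale.Agent.P193.B.gD, eltVal, hD, cD, mul_inv_rev, mul_assoc]
      · obtain ⟨st1, m1, hm1, e1, v1⟩ := St.mulLetter (G := G) hst Edge.cb (by omega) hsep
        obtain ⟨st2, m2, hm2, e2, v2⟩ := St.mulLetter (G := G) e1 (Edge.hu j hj) (by omega) hsep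
        obtain ⟨st3, e3, v3⟩ := St.mulK (G := G) (q := .b) e2 (fun h => nomatch h)
          (fun h => nomatch h) (ki j) [] (by simp [rep, gval])
        refine ⟨st3, _, by simp; omega, e3, hval st3 ?_⟩
        rw [v3, v2, v1]
        simp [atomVal, Vale.Agent.P193.B.gD, eltVal, hD, cD, mul_assoc]

/-! ### The algorithm follows the graph -/

variable {kg : κ → K} {gg : γ → G}

/-- The element of a symbol. -/
def symVal (kg : κ → K) : Sym κ → Option (Elt K)
  | none => none
  | some (.inl x) => some (.inl (gval kg x))
  | some (.inr l) => some (.inr l)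

theorem symsOf_val (w : Raw (TD κ γ)) (hw : w ≠ []) :
    (symsOf w).map (symVal kg) = explode (sig kg gg w) := by
  obtain ⟨p, w, rfl⟩ := List.exists_cons_of_ne_nil hw
  obtain ⟨a | a | a, s⟩ := p
  · rfl
  · rfl
  · simp only [symsOf, sig, tag, explode, elem, List.map_map, gval, FreeGroup.lift_of_eq_id,
      MonoidHom.id_apply, FreeGroup.toWord_mk]
    rfl

/-- The hypothesis on the test. -/
def Yes (test : Raw κ → Bool) (kg : κ → K) (ei : ι → K) (BK BE : ℕ) : Prop :=
  ∀ x : Raw κ, x.length ≤ BK → ∀ e : Raw ι, e.length ≤ BE → gval kg x = gval ei e → test x = true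

variable {test kw} {BK BE H : ℕ}

/-- The word of a node. -/
def accOf (kw : ℕ → Raw κ) : Node → Pos κ
  | .b => some []
  | .v j => some (FreeGroup.invRev (kw j))
  | .u => none

/-- Total length of the `K`-symbols. -/
def klen (l : List (Sym κ)) : ℕ :=
  (l.map fun s => match s with | some (.inl x) => x.length | _ => 0).sum

section Follow

variable (hYes : Yes test kg ei BK BE) (hki : ∀ j, gval kg (kw j) = ki j)

include hYes hki in
/-- The algorithm follows every edge of a short path. -/
theorem next_edge {a p q : Node} {l : FL × Bool} {acc : Raw κ} (e : Raw ι)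
    (hedge : Edge inJ p l q) (hp : p ≠ .u) (hacc : gval kg acc = gval ei e * rep ki p)
    (he : e.length ≤ BE) (hlen : ∀ j, p = .v j → (acc ++ kw j).length ≤ BK)
    (hlen' : acc.length ≤ BK) :
    accOf kw q ∈ next test inJ kw (some acc) (some (.inr l)) := by
  cases hedge with
  | hb j s =>
    have ht := hYes acc hlen' e he (by simpa [rep] using hacc)
    cases s <;> simp [next, accOf, ht]
  | hv j hj =>
    have ht := hYes (acc ++ kw j) (hlen j rfl) e he (by
      rw [gval_append, hacc, hki]; simp [rep, mul_assoc])
    simp [next, accOf, hj, ht]
  | hu j hj => exact absurd rfl hp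
  | cu => exact absurd rfl hp
  | cb =>
    have ht := hYes acc hlen' e he (by simpa [rep] using hacc)
    simp [next, accOf, ht]

variable (test inJ kw kg BK BE H) in
/-- The statement of `arr_read` at one state. -/
def Reads (st : List (Elt K)) (q : Node) (n : ℕ) : Prop :=
  n ≤ BE → ∀ syms : List (Sym κ), syms.map (symVal kg) = st.reverse.map some →
    (∀ j s, some (Sum.inr ((Sum.inr j : FL), s)) ∈ syms → (kw j).length ≤ H) →
    klen syms + 2 * H ≤ BK → accOf kw q ∈ readSyms test inJ kw syms

include hYes hki in
/-- The algorithm follows any edge out of a state whose arrivals it finds. -/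
theorem read_edge_aux {st : List (Elt K)} {p : Node} {n : ℕ}
    (hA : ∀ {st' : List (Elt K)} {a : Node} {n' : ℕ}, st'.length ≤ st.length →
      Arr ki ei inJ st' a n' → Reads test inJ kw kg BK BE H st' a n')
    (hst : St ki ei inJ st p n) {l : FL × Bool} {q : Node} (hedge : Edge inJ p l q) (hn : n ≤ BE)
    (syms : List (Sym κ)) (hs : syms.map (symVal kg) = (Sum.inr l :: st).reverse.map some)
    (hH : ∀ j s, some (Sum.inr ((Sum.inr j : FL), s)) ∈ syms → (kw j).length ≤ H)
    (hlen : klen syms + 2 * H ≤ BK) : accOf kw q ∈ readSyms test inJ kw syms := by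
  obtain ⟨init, s, rfl⟩ : ∃ init s, syms = init ++ [s] := by
    rcases List.eq_nil_or_concat syms with rfl | ⟨i, s, rfl⟩
    · simp at hs
    · exact ⟨i, s, by simp⟩
  simp only [List.map_append, List.reverse_cons, List.map_cons, List.map_nil] at hs
  obtain ⟨hi, hsl⟩ := List.append_inj' hs rfl
  simp at hsl
  have hs' : s = some (.inr l) := by
    rcases s with _ | (x | l') <;> simp [symVal] at hsl ⊢
    exact hsl
  subst hs'
  have hH' : ∀ j t, some (Sum.inr ((Sum.inr j : FL), t)) ∈ init → (kw j).length ≤ H :=
    fun j t h => hH j t (List.mem_append_left _ h)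
  have hlen' : klen init + 2 * H ≤ BK := by simp [klen] at hlen ⊢; omega
  rw [readSyms, List.foldl_append, List.foldl_cons, List.foldl_nil, ← readSyms, List.mem_flatMap]
  cases hst with
  | atU ha =>
    refine ⟨none, hA (by simp) ha hn init hi hH' hlen', ?_⟩
    cases hedge with
    | hu j hj => simp [next, accOf, hj]
    | cu => simp [next, accOf]
  | @pend st' a p n x e ha hau hpu hx hrel =>
    obtain ⟨init', sx, rfl⟩ : ∃ i s, init = i ++ [s] := by
      rcases List.eq_nil_or_concat init with rfl | ⟨i, s, rfl⟩
      · simp at hi
      · exact ⟨i, s, by simp⟩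
    simp only [List.map_append, List.reverse_cons, List.map_cons, List.map_nil] at hi
    obtain ⟨hi', hxl⟩ := List.append_inj' hi rfl
    simp at hxl
    obtain ⟨xw, rfl, hxw⟩ : ∃ xw, sx = some (.inl xw) ∧ gval kg xw = x := by
      rcases sx with _ | (xw | l') <;> simp [symVal] at hxl
      exact ⟨xw, rfl, hxl⟩
    have hH'' : ∀ j t, some (Sum.inr ((Sum.inr j : FL), t)) ∈ init' → (kw j).length ≤ H :=
      fun j t h => hH' j t (List.mem_append_left _ h)
    have hk : klen init' + xw.length + 2 * H ≤ BK := by simp [klen] at hlen' ⊢; omega
    have hrec := hA (by simp) ha (by omega) init' hi' hH'' (by omega)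
    have hla : ∀ acc, accOf kw a = some acc → gval kg acc = rep ki a ∧ acc.length ≤ H := by
      intro acc hacc
      cases a with
      | u => exact absurd rfl hau
      | b => simp [accOf] at hacc; subst hacc; simp [gval, rep]
      | v i =>
        simp [accOf] at hacc; subst hacc
        refine ⟨by simp [gval_invRev, hki, rep], ?_⟩
        simp [FreeGroup.invRev]
        obtain ⟨r, rfl⟩ : ∃ r, init' = r ++ [some (Sum.inr ((Sum.inr i : FL), false))] := by
          cases ha with
          | step _ hedge' _ =>
            cases hedge'
            rcases List.eq_nil_or_concat init' with rfl | ⟨r, s, rfl⟩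
            · simp at hi'
            · simp [List.map_append] at hi'
              obtain ⟨-, hs2⟩ := hi'
              rcases s with _ | (y | l2) <;> simp [symVal] at hs2
              exact ⟨r, by simp [hs2]⟩
        exact hH'' i false (by simp)
    obtain ⟨acc, hacc⟩ : ∃ acc, accOf kw a = some acc := by
      cases a <;> simp [accOf] at hau ⊢
    refine ⟨some (acc ++ xw), ?_, next_edge hYes hki (a := a) e hedge hpu ?_ (by omega) ?_ ?_⟩
    · rw [readSyms, List.foldl_append, List.foldl_cons, List.foldl_nil, ← readSyms,
        List.mem_flatMap]
      exact ⟨some acc, hacc ▸ hrec, by simp [next]⟩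
    · rw [gval_append, (hla acc hacc).1, hxw, hrel]
    · intro j hj
      subst hj
      have : (kw j).length ≤ H := by
        cases hedge
        exact hH j true (by simp)
      have := (hla acc hacc).2
      simp only [List.length_append]; omega
    · have := (hla acc hacc).2
      simp only [List.length_append]; omega
  | @here st' a p n e ha hau hpu hrel =>
    have hrec := hA (by simp) ha (by omega) init hi hH' hlen'
    obtain ⟨acc, hacc⟩ : ∃ acc, accOf kw a = some acc := by
      cases a <;> simp [accOf] at hau ⊢
    have hla : gval kg acc = rep ki a ∧ acc.length ≤ H := by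
      cases a with
      | u => exact absurd rfl hau
      | b => simp [accOf] at hacc; subst hacc; simp [gval, rep]
      | v i =>
        simp [accOf] at hacc; subst hacc
        refine ⟨by simp [gval_invRev, hki, rep], ?_⟩
        simp [FreeGroup.invRev]
        cases ha with
        | step _ hedge' _ =>
          cases hedge'
          rcases List.eq_nil_or_concat init with rfl | ⟨r, s, rfl⟩
          · simp at hi
          · simp [List.map_append] at hi
            obtain ⟨-, hs2⟩ := hi
            rcases s with _ | (y | l2) <;> simp [symVal] at hs2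
            exact hH' i false (by simp [hs2])
    refine ⟨some acc, hacc ▸ hrec, next_edge hYes hki (a := a) e hedge hpu
      (by rw [hla.1, hrel]) (by omega) ?_ (by omega)⟩
    intro j hj
    subst hj
    have : (kw j).length ≤ H := by
      cases hedge
      exact hH j true (by simp)
    simp only [List.length_append]; omega

include hYes hki in
/-- The algorithm finds every arrival. -/
theorem arr_read : ∀ {N : ℕ} {st : List (Elt K)} {q : Node} {n : ℕ}, st.length ≤ N →
    Arr ki ei inJ st q n → Reads test inJ kw kg BK BE H st q n := by
  intro N
  induction N with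
  | zero =>
    intro st q n hN h _ syms hs _ _
    cases h with
    | nil =>
      have : syms = [] := by simpa using hs
      subst this
      simp [readSyms, accOf]
    | step => simp at hN
  | succ N ih =>
    intro st q n hN h
    cases h with
    | nil =>
      intro _ syms hs _ _
      have : syms = [] := by simpa using hs
      subst this
      simp [readSyms, accOf]
    | step hst hedge _ =>
      intro hn syms hs hH hlen
      exact read_edge_aux hYes hki (fun hle ha => ih (by simp at hN; omega) ha) hst hedge hn syms
        hs hH hlen

include hYes hki in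
/-- The algorithm follows any edge out of a state. -/
theorem read_edge {st : List (Elt K)} {p : Node} {n : ℕ} (hst : St ki ei inJ st p n)
    {l : FL × Bool} {q : Node} (hedge : Edge inJ p l q) (hn : n ≤ BE)
    (syms : List (Sym κ)) (hs : syms.map (symVal kg) = (Sum.inr l :: st).reverse.map some)
    (hH : ∀ j s, some (Sum.inr ((Sum.inr j : FL), s)) ∈ syms → (kw j).length ≤ H)
    (hlen : klen syms + 2 * H ≤ BK) : accOf kw q ∈ readSyms test inJ kw syms :=
  read_edge_aux hYes hki (fun hle ha => arr_read hYes hki hle ha) hst hedge hn syms hs hH hlen

end Follow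

/-- The letters of the reduced syllables come from the word. -/
theorem red_subset {oneK : Raw κ → Bool} {oneG : Raw γ → Bool} (v : Raw (TD κ γ)) :
    ∀ w ∈ red oneK oneG v, w ≠ [] ∧ ∀ p ∈ w, p ∈ v := by
  induction v using List.reverseRecOn with
  | nil => simp [red]
  | append_singleton v p ih =>
    rw [red, List.foldl_append, List.foldl_cons, List.foldl_nil, ← red]
    have hone : [p] ≠ [] ∧ ∀ x ∈ [p], x ∈ v ++ [p] :=
      ⟨by simp, fun x hx => List.mem_append_right _ hx⟩
    have hold : ∀ w ∈ red oneK oneG v, w ≠ [] ∧ ∀ x ∈ w, x ∈ v ++ [p] := fun w hw =>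
      ⟨(ih w hw).1, fun x hx => List.mem_append_left _ ((ih w hw).2 x hx)⟩
    revert hold
    generalize red oneK oneG v = st
    intro hold w hw
    cases st with
    | nil =>
      simp only [step] at hw
      split at hw
      · simp at hw
      · rw [List.mem_singleton.1 hw]; exact hone
    | cons r st =>
      simp only [step] at hw
      have hcat : r ++ [p] ≠ [] ∧ ∀ x ∈ r ++ [p], x ∈ v ++ [p] := by
        refine ⟨by simp, fun x hx => ?_⟩
        rcases List.mem_append.1 hx with hx | hx
        exacts [(hold r List.mem_cons_self).2 x hx, hone.2 x hx]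
      split at hw <;> split at hw
      · exact hold w (List.mem_cons_of_mem _ hw)
      · rcases List.mem_cons.1 hw with rfl | hw
        exacts [hcat, hold w (List.mem_cons_of_mem _ hw)]
      · exact hold w hw
      · rcases List.mem_cons.1 hw with rfl | hw
        exacts [hone, hold w hw]

theorem klen_flatMap_le (L : List (Raw (TD κ γ))) :
    klen (L.flatMap symsOf) ≤ (L.map List.length).sum := by
  induction L with
  | nil => simp [klen]
  | cons w L ih =>
    have hw : klen (symsOf w) ≤ w.length := by
      rcases w with _ | ⟨⟨a | a | a, s⟩, w⟩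
      · simp [symsOf, klen]
      · simp only [symsOf, klen, List.map_cons, List.map_nil, List.sum_cons, List.sum_nil,
          Nat.add_zero, projK]
        exact List.length_filterMap_le _ _
      · simp [symsOf, klen]
      · simp [symsOf, klen, Function.comp_def]
    simp only [List.flatMap_cons, List.map_cons, List.sum_cons]
    have happ : klen (symsOf w ++ L.flatMap symsOf) =
        klen (symsOf w) + klen (L.flatMap symsOf) := by simp [klen]
    omega

theorem free_sym_mem {w : Raw (TD κ γ)} {j : ℕ} {s : Bool}
    (h : some (Sum.inr ((Sum.inr j : FL), s)) ∈ symsOf w) :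
    ((Sum.inr (Sum.inr (Sum.inr j)) : TD κ γ), s) ∈ w := by
  rcases w with _ | ⟨⟨a | a | a, t⟩, w⟩
  · simp [symsOf] at h
  · simp [symsOf] at h
  · simp [symsOf] at h
  · simp only [symsOf, List.mem_map] at h
    obtain ⟨l, hl, he⟩ := h
    have hmem := (FreeGroup.Red.sublist (FreeGroup.reduce.red
      (L := projF (((Sum.inr (Sum.inr a) : TD κ γ), t) :: w)))).subset hl
    have : l = ((Sum.inr j : FL), s) := by simpa using he
    subst this
    simp only [projF, List.mem_filterMap] at hmem
    obtain ⟨⟨q, r⟩, hq, hqe⟩ := hmem
    rcases q with b | b | b <;> simp at hqe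
    obtain ⟨rfl, rfl⟩ := hqe
    exact hq

/-- If the element is a product of generators, then the reading accepts. Nothing is assumed about
the validity of `inJ`; the test must say yes on short words with short witnesses, and the indices
of `inJ` must have no short witness. -/
theorem memD_of_witness {oneK : Raw κ → Bool} {oneG : Raw γ → Bool} {B : ℕ}
    (hB : Right kg gg oneK oneG B) (hYes : Yes test kg ei BK BE)
    (hki : ∀ j, gval kg (kw j) = ki j) (hsep : ∀ j, Separated ki ei inJ j BE)
    (v : Raw (TD κ γ)) (hv : v.length ≤ B)
    (hH : ∀ j s, ((Sum.inr (Sum.inr (Sum.inr j)) : TD κ γ), s) ∈ v → (kw j).length ≤ H)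
    (hlen : v.length + 2 * H ≤ BK) (π : List (Atom ι)) (hπ : atomsSize π ≤ BE)
    (hJ : ∀ j s, Sum.inr (Sum.inr (j, s)) ∈ π → inJ j = true)
    (hval : gval (gD kg gg) v = (π.map (atomVal G ki ei)).prod) :
    memD test inJ kw oneK oneG v = true := by
  classical
  obtain ⟨hred, hvalue, hsum⟩ := red_spec hB hv
  obtain ⟨st, n, hn, hst, hstv⟩ := exists_st_of_atoms (G := G) hsep π hπ hJ
  have hcanon : Canon st := by
    cases hst with
    | pend x e ha hau hpu hx hrel => exact Arr.canon.St.canon (St.pend x e ha hau hpu hx hrel)
    | here e ha hau hpu hrel => exact ha.canon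
  have hexp := explode_eq_of_value_eq hred hcanon (by rw [hvalue, hval, hstv])
  have hsub := red_subset (oneK := oneK) (oneG := oneG) v
  set syms : List (Sym κ) := (red oneK oneG v).reverse.flatMap symsOf with hsyms
  have hs : syms.map (symVal kg) = st.reverse.map some := by
    rw [← hexp, hsyms, List.map_flatMap]
    refine List.flatMap_congr fun w hw => ?_
    exact symsOf_val w (hsub w (List.mem_reverse.1 hw)).1
  have hH' : ∀ j s, some (Sum.inr ((Sum.inr j : FL), s)) ∈ syms → (kw j).length ≤ H := by
    intro j s h
    obtain ⟨w, hw, hws⟩ := List.mem_flatMap.1 h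
    exact hH j s ((hsub w (List.mem_reverse.1 hw)).2 _ (free_sym_mem hws))
  have hk : klen syms ≤ v.length := by
    refine le_trans (klen_flatMap_le _) ?_
    rw [List.map_reverse, List.sum_reverse]
    exact hsum
  have hread := read_edge hYes hki hst (Edge.cb (inJ := inJ)) (le_trans hn hπ)
    (syms ++ [some (.inr (.inl false, false))]) (by simp [hs, symVal])
    (fun j s h => hH' j s (by simpa using h)) (by simp [klen] at hk ⊢; omega)
  rw [readSyms, List.foldl_append, List.foldl_cons, List.foldl_nil, ← readSyms, List.mem_flatMap]
    at hread
  obtain ⟨p, hp, hpn⟩ := hread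
  simp only [memD, List.any_eq_true]
  refine ⟨p, hp, ?_⟩
  cases p with
  | none => simp [next] at hpn
  | some acc =>
    by_cases ht : test acc = true
    · simpa [accepts] using ht
    · simp [next, accOf, ht] at hpn

end Canon

end Vale.Agent.P193.B.DWord
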