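import Vale.Agent.P193.B.Read

/-!
# The reading depends only on the indices of the word (P193, piece B)
-/

namespace Vale.Agent.P193.B.DWord

open Monoid Reduce

variable {κ γ : Type} {test : Raw κ → Bool} {inJ inJ' : ℕ → Bool} {kw : ℕ → Raw κ}

/-- The reading only looks at the indices of the word. -/
theorem memD_congr {oneK : Raw κ → Bool} {oneG : Raw γ → Bool} {v : Raw (TD κ γ)}
    (hJ : ∀ j s, ((Sum.inr (Sum.inr (Sum.inr j)) : TD κ γ), s) ∈ v → inJ j = inJ' j) :
    memD test inJ kw oneK oneG v = memD test inJ' kw oneK oneG v := by
  have hsub := red_subset (oneK := oneK) (oneG := oneG) v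
  have key : ∀ l : List (Sym κ),
      (∀ j s, some (Sum.inr ((Sum.inr j : FL), s)) ∈ l → inJ j = inJ' j) →
      readSyms test inJ kw l = readSyms test inJ' kw l := by
    intro l
    induction l using List.reverseRecOn with
    | nil => intro _; rfl
    | append_singleton l s ih =>
      intro h
      simp only [readSyms, List.foldl_append, List.foldl_cons, List.foldl_nil]
      rw [← readSyms, ← readSyms, ih fun j t hj => h j t (List.mem_append_left _ hj)]
      refine List.flatMap_congr fun p _ => ?_
      rcases s with _ | (x | ⟨a | j, t⟩)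
      · rfl
      · cases p <;> rfl
      · cases a <;> cases t <;> cases p <;> rfl
      · have hj := h j t (by simp)
        cases t <;> cases p <;> simp [next, hj]
  unfold memD
  rw [key _ fun j s hs => ?_]
  obtain ⟨w, hw, hws⟩ := List.mem_flatMap.1 hs
  exact hJ j s ((hsub w (List.mem_reverse.1 hw)).2 _ (free_sym_mem hws))

end Vale.Agent.P193.B.DWord
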