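import Vale.Agent.P193.B.Member

/-!
# Word problem of `L` and membership in `E`, with linear query bound (P193, piece B)

On an input of length `n` in the twelve generators the oracles for `D` (word problem, membership in
`X`) are only asked about `D`-words `v` with `M * dw v ≤ 2 C n`, for any weight `dw` of the letters
with `dw (de i) ≤ C (i + 1)`.
-/

namespace Vale.Agent.P193.B.WordL

open Reduce FreeGroup

variable {TD : Type} {D : Type} [Group D]

/-- Letters of the inner group `Ext D d²`. -/
abbrev TI (TD : Type) : Type := TD ⊕ (Bool × Letter)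

/-- The inner syllable of one letter. -/
def itemI (p : TI TD × Bool) : Syl TD :=
  match p.1 with
  | .inl t => (false, [(t, p.2)], [])
  | .inr (b, l) => (b, [], [(l, p.2)])

/-- The generators of `L`: `(pair, prime, letter)`; `pair = false` is the first pair. -/
abbrev Gen : Type := Bool × Bool × Letter

/-- The outer syllable of one generator. -/
def itemL (p : Gen × Bool) : Syl (TI TD) :=
  if p.1.1 then (false, [(.inr p.1.2, p.2)], []) else (p.1.2.1, [], [(p.1.2.2, p.2)])

variable (M : ℕ) (de₁ de₂ : ℕ → Raw TD) (oneD memD : Raw TD → Bool)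

/-- The inner stack. -/
def runI (v : Raw (TI TD)) : List (Syl TD) :=
  run (decode M) oneD (expand de₂) (v.map itemI)

/-- The inner word problem. -/
def oneI (v : Raw (TI TD)) : Bool := isOne oneD (runI M de₂ oneD v)

/-- Inner membership in `X`. -/
def memI (v : Raw (TI TD)) : Bool :=
  match runI M de₂ oneD v with
  | [] => true
  | [s] => (FreeGroup.reduce s.2.2).isEmpty && (s.1 || memD s.2.1)
  | _ => false

/-- The first family of `D`-words, as inner words. -/
def deI (i : ℕ) : Raw (TI TD) := (de₁ i).map (Prod.map Sum.inl id)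

/-- The outer stack. -/
def runL (w : Raw Gen) : List (Syl (TI TD)) :=
  run (decode M) (oneI M de₂ oneD) (expand (deI de₁)) (w.map itemL)

/-- The word problem of `L`. -/
def oneL (w : Raw Gen) : Bool := isOne (oneI M de₂ oneD) (runL M de₁ de₂ oneD w)

/-- Membership in `E`. -/
def inE (w : Raw Gen) : Bool :=
  (runL M de₁ de₂ oneD w).all fun s => s.1 || memI M de₂ oneD memD s.2.1

section Spec

variable {M de₁ de₂ oneD memD} {gD : TD → D} {X : Subgroup D} {d₁ : ℕ → X} {d₂ : ℕ → D}

variable (M d₂ gD) in
/-- Values of the inner letters. -/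
def gI : TI TD → Ext M d₂
  | .inl t => Ext.base M d₂ (gD t)
  | .inr (b, l) => if b then Ext.f' M d₂ (of l) else Ext.f M d₂ (of l)

variable (X M d₁ d₂) in
/-- Values of the generators of `L`. -/
def gL : Gen → L X M d₁ d₂
  | (true, b, l) => if b then L.f₂' X M d₁ d₂ (of l) else L.f₂ X M d₁ d₂ (of l)
  | (false, b, l) => if b then L.f₁' X M d₁ d₂ (of l) else L.f₁ X M d₁ d₂ (of l)

theorem gval_cons {T Γ : Type} [Group Γ] (g : T → Γ) (p : T × Bool) (v : Raw T) :
    gval g (p :: v) = gval g [p] * gval g v := gval_append g [p] v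

theorem gval_letter {T Γ : Type} [Group Γ] (g : T → Γ) (x : T) (s : Bool) :
    gval g [(x, s)] = if s then g x else (g x)⁻¹ := by
  cases s <;> simp [gval]

theorem mk_single {α : Type} (x : α) (s : Bool) :
    (mk [(x, s)] : FreeGroup α) = if s then of x else (of x)⁻¹ := by
  cases s
  · rw [if_neg Bool.false_ne_true, of, inv_mk]; rfl
  · rfl

theorem sval_fletter {T Γ : Type} [Group Γ] (d : ℕ → Γ) (g : T → Γ) (b : Bool) (l : Letter)
    (s : Bool) : sval M d g ((b, [], [(l, s)]) : Syl T) =
      if s then (if b then Ext.f' M d (of l) else Ext.f M d (of l))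
      else (if b then Ext.f' M d (of l) else Ext.f M d (of l))⁻¹ := by
  have h1 : gval g ([] : Raw T) = 1 := (FreeGroup.lift g).map_one
  cases b
  · simp only [sval, Bool.false_eq_true, if_false, mk_single, h1]
    cases s
    · simp only [Bool.false_eq_true, if_false]
      rw [← _root_.map_inv (Ext.f M d)]; rfl
    · rfl
  · simp only [sval, if_true, mk_single]
    cases s
    · simp only [Bool.false_eq_true, if_false]
      rw [← _root_.map_inv (Ext.f' M d)]
    · rfl

theorem sval_gletter {T Γ : Type} [Group Γ] (d : ℕ → Γ) (g : T → Γ) (t : T) (s : Bool) :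
    sval M d g (false, [(t, s)], []) =
      if s then Ext.base M d (g t) else (Ext.base M d (g t))⁻¹ := by
  simp only [sval, Bool.false_eq_true, if_false, gval_letter]
  cases s
  · simp only [Bool.false_eq_true, if_false]
    rw [← _root_.map_inv (Ext.base M d)]; rfl
  · rfl

theorem prod_itemI (v : Raw (TI TD)) :
    ((v.map itemI).map (sval M d₂ gD)).prod = gval (gI M gD d₂) v := by
  induction v with
  | nil => rfl
  | cons p v ih =>
    rw [List.map_cons, List.map_cons, List.prod_cons, ih, gval_cons (gI M gD d₂) p v]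
    congr 1
    obtain ⟨t | ⟨b, l⟩, s⟩ := p
    · exact (sval_gletter d₂ gD t s).trans (gval_letter (gI M gD d₂) (Sum.inl t) s).symm
    · exact (sval_fletter d₂ gD b l s).trans (gval_letter (gI M gD d₂) (Sum.inr (b, l)) s).symm

theorem prod_itemL (w : Raw Gen) :
    ((w.map (itemL (TD := TD))).map
      (sval M (fun i => Ext.base M d₂ (d₁ i)) (gI M gD d₂))).prod = gval (gL M X d₁ d₂) w := by
  induction w with
  | nil => rfl
  | cons p w ih =>
    rw [List.map_cons, List.map_cons, List.prod_cons, ih, gval_cons (gL M X d₁ d₂) p w]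
    congr 1
    obtain ⟨⟨pr, b, l⟩, s⟩ := p
    cases pr
    · refine (sval_fletter _ (gI M gD d₂) b l s).trans ?_
      rw [gval_letter]
      cases b <;> rfl
    · refine (sval_gletter _ (gI M gD d₂) (Sum.inr (b, l)) s).trans ?_
      rw [gval_letter]
      cases b <;> rfl

variable {dw : TD → ℕ}

/-- The weight of a `D`-word. -/
def dlen (dw : TD → ℕ) (v : Raw TD) : ℕ := (v.map fun p => dw p.1).sum

/-- `D`-weight and `F`-weight of inner letters. -/
def wtI (dw : TD → ℕ) : Bool → TI TD → ℕ
  | false, .inl t => dw t
  | true, .inr _ => 1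
  | _, _ => 0

/-- Allowances. -/
def allow (C : ℕ) : Bool → ℕ
  | false => C
  | true => 0

theorem load_itemI {C : ℕ} (v : Raw (TI TD)) :
    load M (fun (_ : Unit) => dw) (fun _ => C) () (v.map itemI) = M * weight (wtI dw) false v ∧
      flen (v.map itemI) = weight (wtI dw) true v := by
  induction v with
  | nil => simp [load, flen, weight]
  | cons p v ih =>
    obtain ⟨t | ⟨b, l⟩, s⟩ := p <;>
      simp [load, flen, weight, excess, itemI, wtI, Nat.mul_add] at ih ⊢ <;> omega

theorem load_itemL {C : ℕ} (w : Raw Gen) :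
    load M (wtI dw) (allow C) false (w.map (itemL (TD := TD))) = 0 ∧
      flen (w.map (itemL (TD := TD))) ≤ w.length ∧
      load M (wtI dw) (allow C) true (w.map (itemL (TD := TD))) +
        M * flen (w.map (itemL (TD := TD))) = M * w.length := by
  induction w with
  | nil => simp [load, flen]
  | cons p w ih =>
    obtain ⟨⟨pr, b, l⟩, s⟩ := p
    cases pr <;> simp [load, flen, excess, weight, itemL, wtI, allow, Nat.mul_add] at ih ⊢ <;> omega

/-- The standing hypotheses on the `D`-data. -/
structure Setup (dw : TD → ℕ) (X : Subgroup D) (gD : TD → D) (d₁ : ℕ → X) (d₂ : ℕ → D)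
    (de₁ de₂ : ℕ → Raw TD) (C M n : ℕ) : Prop where
  val₁ : ∀ i, M * (i + 1) ≤ n → gval gD (de₁ i) = d₁ i
  val₂ : ∀ i, gval gD (de₂ i) = d₂ i
  len₁ : ∀ i, dlen dw (de₁ i) ≤ C * (i + 1)
  len₂ : ∀ i, dlen dw (de₂ i) ≤ C * (i + 1)

variable {C n : ℕ}

/-- A `D`-word short enough to be asked about. -/
def Askable (dw : TD → ℕ) (M C n : ℕ) (v : Raw TD) : Prop := M * dlen dw v ≤ 2 * (C * n)

theorem length_eq_weight (v : Raw TD) : dlen dw v = weight (fun (_ : Unit) => dw) () v := rfl

section

variable (h : Setup dw X gD d₁ d₂ de₁ de₂ C M n)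
  (hone : ∀ v, Askable dw M C n v → (oneD v = true ↔ gval gD v = 1))

/-- An inner word within budget. -/
def Budget (dw : TD → ℕ) (M C n : ℕ) (v : Raw (TI TD)) : Prop :=
  M * weight (wtI dw) false v + 2 * (C * weight (wtI dw) true v) ≤ 2 * (C * n)

include h hone in
theorem hypI {v : Raw (TI TD)} (hv : Budget dw M C n v) :
    Hyp (M := M) (d := d₂) (decode M) oneD (expand de₂) gD (fun (_ : Unit) => dw)
      (fun _ => C) (fun k => load M (fun _ => dw) (fun _ => C) k (v.map itemI))
      (flen (v.map itemI)) := by
  refine hyp_decode (fun i _ => h.val₂ i) (fun _ i => by rw [← length_eq_weight]; exact h.len₂ i) fun u hu => ?_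
  refine hone u ?_
  have := hu ()
  rw [← length_eq_weight, (load_itemI (M := M) (C := C) v).1, (load_itemI (M := M) (C := C) v).2] at this
  exact le_trans this hv

include h hone in
theorem oneI_iff {v : Raw (TI TD)} (hv : Budget dw M C n v) :
    oneI M de₂ oneD v = true ↔ gval (gI M gD d₂) v = 1 := by
  rw [oneI, runI, run_isOne (hypI h hone hv), prod_itemI]

include h hone in
theorem memI_iff (hmem : ∀ u, Askable dw M C n u → (memD u = true ↔ gval gD u ∈ X))
    {v : Raw (TI TD)} (hv : Budget dw M C n v) :
    memI M de₂ oneD memD v = true ↔ gval (gI M gD d₂) v ∈ X.map (Ext.base M d₂) := by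
  obtain ⟨hval, hsh, hsm⟩ := foldl_spec (hypI h hone hv) (v.map itemI) []
    ⟨List.isChain_nil, fun hl => by simp at hl⟩
    ⟨by rw [List.append_nil], fun k => by rw [List.append_nil]⟩
  rw [value, one_mul, prod_itemI] at hval
  rw [← hval]
  unfold memI runI run
  revert hsh hsm
  generalize (v.map itemI).foldl (push (decode M) oneD (expand de₂)) [] = st
  intro hsh hsm
  match st, hsh, hsm with
  | [], _, _ => simp [value, one_mem]
  | [(b, γ, u)], _, hsm =>
    obtain ⟨hx, hu⟩ := hsm.head
    have hask : Askable dw M C n γ := by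
      have h1 : M * dlen dw γ - C * u.length ≤
          load M (fun (_ : Unit) => dw) (fun _ => C) () (v.map itemI) := by
        have := hx ()
        simp only [excess] at this
        rwa [← length_eq_weight] at this
      rw [(load_itemI (M := M) (C := C) v).1] at h1
      rw [(load_itemI (M := M) (C := C) v).2] at hu
      have h2 : C * u.length ≤ C * weight (wtI dw) true v := Nat.mul_le_mul_left C hu
      unfold Budget at hv
      unfold Askable
      omega
    simp only [Bool.and_eq_true, reduce_isEmpty_iff, Bool.or_eq_true, value, one_mul]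
    cases b
    · simp only [Bool.false_eq_true, false_or, hmem γ hask, sval, if_false]
      constructor
      · rintro ⟨hu1, hγ⟩
        exact ⟨gval gD γ, hγ, by rw [hu1]; rfl⟩
      · rintro ⟨y, hy, he⟩
        have he' := Ext.left_injective M d₂
          (show Ext.left M d₂ (y, 1) = Ext.left M d₂ (gval gD γ, mk u) from he)
        exact ⟨(congrArg Prod.snd he').symm,
          (show y = gval gD γ from congrArg Prod.fst he') ▸ hy⟩
    · simp only [true_or, and_true, sval, if_true]
      constructor
      · intro hu1
        exact ⟨1, one_mem X, by rw [hu1, _root_.map_one, _root_.map_one]⟩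
      · rintro ⟨y, -, he⟩
        obtain ⟨q, hq⟩ := Amal.mem_range_of_eq (pairHom_injective M d₂) (wHom_injective M)
          (show inA (pairHom M d₂) (wHom M) (y, 1) = inB (pairHom M d₂) (wHom M) (mk u) from he)
        have hq1 : q = 1 :=
          wHom_injective M ((congrArg Prod.snd hq).trans (_root_.map_one (wHom M)).symm)
        have hy1 : (1 : D) = y := by
          have h1 := congrArg Prod.fst hq
          rw [hq1, _root_.map_one] at h1
          exact h1
        refine (Ext.f'_injective M d₂) ?_
        rw [_root_.map_one, ← he, ← hy1, _root_.map_one]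
  | a :: b :: st, hsh, _ =>
    simp only [Bool.false_eq_true, false_iff]
    rintro ⟨y, -, he⟩
    exact value_ne_base hsh (by simp) y he.symm

include h hone in
theorem hypL (hM : 0 < M) {w : Raw Gen} (hw : w.length ≤ n) :
    Hyp (M := M) (d := fun i => Ext.base M d₂ (d₁ i : D)) (decode M) (oneI M de₂ oneD)
      (expand (deI de₁)) (gI M gD d₂) (wtI dw) (allow C)
      (fun k => load M (wtI dw) (allow C) k (w.map (itemL (TD := TD))))
      (flen (w.map (itemL (TD := TD)))) := by
  refine hyp_decode (fun i hi => ?_) (fun k i => ?_) fun v hv => oneI_iff h hone ?_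
  · rw [← h.val₁ i (le_trans hi ((load_itemL (M := M) (C := C) (dw := dw) w).2.1.trans hw))]
    unfold deI
    induction de₁ i with
    | nil => simp [gval]
    | cons p u ih =>
      rw [List.map_cons, gval_cons, ih, gval_cons gD p u, _root_.map_mul]
      congr 1
      obtain ⟨t, s⟩ := p
      cases s <;> simp [gval_letter, gI, Prod.map]
  · have hlen : weight (wtI dw) k (deI de₁ i) = if k then 0 else dlen dw (de₁ i) := by
      unfold deI
      induction de₁ i with
      | nil => simp [weight, dlen]
      | cons p u ih => cases k <;> simp [weight, wtI, dlen, Prod.map] at ih ⊢ <;> omega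
    rw [hlen]
    cases k
    · exact h.len₁ i
    · simp
  · exact budget_of hM hw (hv false) (hv true)
where
  budget_of {v : Raw (TI TD)} (hM : 0 < M) (hw : w.length ≤ n)
      (h0 : M * weight (wtI dw) false v ≤ load M (wtI dw) (allow C) false (w.map (itemL (TD := TD))) +
        2 * (allow C false * flen (w.map (itemL (TD := TD)))))
      (h1 : M * weight (wtI dw) true v ≤ load M (wtI dw) (allow C) true (w.map (itemL (TD := TD))) +
        2 * (allow C true * flen (w.map (itemL (TD := TD))))) : Budget dw M C n v := by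
    obtain ⟨e1, e2, e3⟩ := load_itemL (M := M) (C := C) (TD := TD) w
    simp only [allow, Nat.zero_mul, Nat.mul_zero, Nat.add_zero] at h0 h1
    rw [e1, Nat.zero_add] at h0
    have h3 : M * (weight (wtI dw) true v + flen (w.map (itemL (TD := TD)))) ≤ M * w.length := by
      rw [Nat.mul_add]; omega
    have h4 := Nat.le_of_mul_le_mul_left h3 hM
    have h5 := Nat.mul_le_mul_left C (h4.trans hw)
    rw [Nat.mul_add] at h5
    unfold Budget
    omega

include h hone in
/-- **The word problem of `L`.** -/
theorem oneL_iff (hM : 0 < M) {w : Raw Gen} (hw : w.length ≤ n) :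
    oneL M de₁ de₂ oneD w = true ↔ gval (gL M X d₁ d₂) w = 1 := by
  rw [oneL, runL, run_isOne (hypL h hone hM hw), prod_itemL]

include h hone in
/-- **Membership in `E`.** -/
theorem inE_iff (hM : 0 < M) (hmem : ∀ u, Askable dw M C n u → (memD u = true ↔ gval gD u ∈ X))
    (hX : Subgroup.closure (Set.range fun i => (d₁ i : D)) = X) {w : Raw Gen}
    (hw : w.length ≤ n) :
    inE M de₁ de₂ oneD memD w = true ↔ gval (gL M X d₁ d₂) w ∈ L.E X M d₁ d₂ := by
  obtain ⟨hval, hsh, hsm⟩ := foldl_spec (hypL h hone hM hw) (w.map (itemL (TD := TD))) []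
    ⟨List.isChain_nil, fun hl => by simp at hl⟩
    ⟨by rw [List.append_nil], fun k => by rw [List.append_nil]⟩
  rw [value, one_mul, prod_itemL] at hval
  have hE := value_mem_E_iff hsh
  rw [show L.E X M d₁ d₂ = Ext.E M (fun i => Ext.base M d₂ (d₁ i : D)) from rfl, ← hval, hE]
  have hcl : Subgroup.closure (Set.range fun i => Ext.base M d₂ (d₁ i : D)) =
      X.map (Ext.base M d₂) := by
    conv_rhs => rw [← hX, MonoidHom.map_closure, ← Set.range_comp]
    rfl
  rw [hcl, inE, runL, run, List.all_eq_true]
  refine forall₂_congr fun s hs => ?_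
  obtain ⟨b, γ, u⟩ := s
  cases b
  · simp only [Bool.false_or, true_implies]
    refine memI_iff h hone hmem (hypL.budget_of hM hw ?_ ?_)
    · have hx := (List.single_le_sum (fun x _ => Nat.zero_le x) _
        (List.mem_map.2 ⟨_, hs, rfl⟩)).trans (hsm.2 false)
      have hu : u.length ≤ flen (w.map (itemL (TD := TD))) := le_trans
        (List.single_le_sum (fun x _ => Nat.zero_le x) _ (List.mem_map.2 ⟨_, hs, rfl⟩)) hsm.1
      simp only [excess] at hx
      have hu' := Nat.mul_le_mul_left (allow C false) hu
      simp only [allow] at hx hu' ⊢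
      omega
    · have hx := (List.single_le_sum (fun x _ => Nat.zero_le x) _
        (List.mem_map.2 ⟨_, hs, rfl⟩)).trans (hsm.2 true)
      have hu : u.length ≤ flen (w.map (itemL (TD := TD))) := le_trans
        (List.single_le_sum (fun x _ => Nat.zero_le x) _ (List.mem_map.2 ⟨_, hs, rfl⟩)) hsm.1
      simp only [excess] at hx
      have hu' := Nat.mul_le_mul_left (allow C true) hu
      simp only [allow] at hx hu' ⊢
      omega
  · simp

end

end Spec

end Vale.Agent.P193.B.WordL
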