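import Vale.Agent.P193.B.Read
import Vale.Agent.P193.B.WordL

/-!
# Soundness and monotonicity of the reading (P193, piece B)

If the test says yes only inside `X₀`, the reading says yes only inside a subgroup containing `X₀`,
every `h_j`, and `c⁻¹ h_j⁻¹ k_j` for the indices in `J`. More yes answers give more yes answers.
-/

namespace Vale.Agent.P193.B.DWord

open Monoid Reduce

variable {κ γ : Type} {test test' : Raw κ → Bool} {inJ inJ' : ℕ → Bool} {kw : ℕ → Raw κ}

/-! ### Monotonicity -/

theorem next_mono (ht : ∀ x, test x = true → test' x = true)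
    (hJ : ∀ j, inJ j = true → inJ' j = true) (p : Pos κ) (s : Sym κ) :
    next test inJ kw p s ⊆ next test' inJ' kw p s := by
  intro q hq
  unfold next at hq ⊢
  split at hq
  · exact hq
  · exact hq
  · split_ifs at hq with h
    · rw [if_pos (ht _ h)]; exact hq
    · simp at hq
  · simp only [List.mem_append] at hq ⊢
    refine hq.imp (fun h => ?_) fun h => ?_
    · split_ifs at h with h1
      · rw [if_pos (ht _ h1)]; exact h
      · simp at h
    · split_ifs at h with h1
      · rw [Bool.and_eq_true] at h1
        rw [if_pos (by simp [hJ _ h1.1, ht _ h1.2])]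
        exact h
      · simp at h
  · split_ifs at hq with h
    · rw [if_pos (ht _ h)]; exact hq
    · simp at hq
  · split_ifs at hq with h
    · rw [if_pos (hJ _ h)]; exact hq
    · simp at hq
  · simp at hq

theorem readSyms_mono (ht : ∀ x, test x = true → test' x = true)
    (hJ : ∀ j, inJ j = true → inJ' j = true) (l : List (Sym κ)) :
    readSyms test inJ kw l ⊆ readSyms test' inJ' kw l := by
  induction l using List.reverseRecOn with
  | nil => exact fun _ h => h
  | append_singleton l s ih =>
    intro q hq
    rw [readSyms, List.foldl_append, List.foldl_cons, List.foldl_nil, ← readSyms,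
      List.mem_flatMap] at hq ⊢
    obtain ⟨p, hp, hpq⟩ := hq
    exact ⟨p, ih hp, next_mono ht hJ p s hpq⟩

/-- More yes answers of the test and more indices give more yes answers of the reading. -/
theorem memD_mono (ht : ∀ x, test x = true → test' x = true)
    (hJ : ∀ j, inJ j = true → inJ' j = true) {oneK : Raw κ → Bool} {oneG : Raw γ → Bool}
    {v : Raw (TD κ γ)} (h : memD test inJ kw oneK oneG v = true) :
    memD test' inJ' kw oneK oneG v = true := by
  simp only [memD, List.any_eq_true] at h ⊢
  obtain ⟨p, hp, ha⟩ := h
  refine ⟨p, readSyms_mono ht hJ _ hp, ?_⟩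
  cases p with
  | none => exact ha
  | some acc => exact ht _ ha

/-! ### Soundness -/

section Sound

variable {K G : Type} [Group K] [Group G] {kg : κ → K} {gg : γ → G}

variable (G kg) in
/-- The value of a symbol in `D`; a `G` symbol is not needed. -/
def symD : Sym κ → D K G
  | none => 1
  | some (.inl x) => inK (gval kg x)
  | some (.inr (a, s)) => if s then Coprod.inr (FreeGroup.of a) else (Coprod.inr (FreeGroup.of a))⁻¹

theorem prod_symsOf {i : Tag} {w : Raw (TD κ γ)} (hw : Homog i w) (hg : none ∉ symsOf w) :
    ((symsOf w).map (symD G kg)).prod = gval (gD kg gg) w := by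
  obtain ⟨hne, hall⟩ := hw
  obtain ⟨p, w', hpw⟩ := List.exists_cons_of_ne_nil hne
  have hp : tag p.1 = i := hall p (by simp [hpw])
  cases i with
  | g =>
    obtain ⟨a | a | a, s⟩ := p <;> simp [tag] at hp
    subst hpw
    simp [symsOf] at hg
  | k =>
    obtain ⟨a | a | a, s⟩ := p <;> simp [tag] at hp
    have hs : symsOf w = [some (.inl (projK w))] := by subst hpw; rfl
    rw [hs, List.map_singleton, List.prod_singleton, symD]
    clear hs hg hpw hne
    induction w with
    | nil => simp [gval, projK, ← FreeGroup.one_eq_mk]
    | cons q w ih =>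
      obtain ⟨b, t⟩ := q
      have hb := hall _ List.mem_cons_self
      rcases b with b | b | b <;> simp [tag] at hb
      rw [show projK ((Sum.inl b, t) :: w : Raw (TD κ γ)) = [(b, t)] ++ projK w from rfl,
        show ((Sum.inl b, t) :: w : Raw (TD κ γ)) = [(Sum.inl b, t)] ++ w from rfl, gval_append,
        gval_append, map_mul, ih fun q hq => hall q (List.mem_cons_of_mem _ hq)]
      congr 1
      cases t <;> simp [gval, gD]
  | f =>
    obtain ⟨a | a | a, s⟩ := p <;> simp [tag] at hp
    have hs : symsOf w = (FreeGroup.reduce (projF w)).map fun l => some (.inr l) := by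
      subst hpw; rfl
    have e : ∀ l : Raw FL, ((l.map fun x => (some (.inr x) : Sym κ)).map (symD G kg)).prod =
        Coprod.inr (FreeGroup.mk l) := by
      intro l
      induction l with
      | nil => simp [← FreeGroup.one_eq_mk]
      | cons x l ih =>
        rw [List.map_cons, List.map_cons, List.prod_cons, ih,
          show x :: l = [x] ++ l from rfl, ← FreeGroup.mul_mk, map_mul]
        congr 1
        obtain ⟨b, _ | _⟩ := x
        · simp only [symD, Bool.false_eq_true, if_false]
          rw [← map_inv]
          rfl
        · rfl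
    rw [hs, e, FreeGroup.reduce.self]
    clear hs hg hpw hne
    induction w with
    | nil => simp [gval, projF, ← FreeGroup.one_eq_mk]
    | cons q w ih =>
      obtain ⟨b, t⟩ := q
      have hb := hall _ List.mem_cons_self
      rcases b with b | b | b <;> simp [tag] at hb
      rw [show projF ((Sum.inr (Sum.inr b), t) :: w : Raw (TD κ γ)) = [(b, t)] ++ projF w from rfl,
        show ((Sum.inr (Sum.inr b), t) :: w : Raw (TD κ γ)) = [(Sum.inr (Sum.inr b), t)] ++ w
          from rfl,
        gval_append, ← FreeGroup.mul_mk, map_mul, ih fun q hq => hall q (List.mem_cons_of_mem _ hq)]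
      congr 1
      cases t
      · rw [show (FreeGroup.mk [(b, false)]) = (FreeGroup.of b)⁻¹ from rfl]
        simp [gval, gD]
      · simp [gval, gD]
        rfl

/-- What a position says about the prefix `x` read so far. -/
def PosIn (kg : κ → K) (Xs : Subgroup (D K G)) (p : Pos κ) (x : D K G) : Prop :=
  match p with
  | some acc => x * (inK (gval kg acc))⁻¹ ∈ Xs
  | none => x * cD ∈ Xs

variable {X₀ : Subgroup K} {Xs : Subgroup (D K G)} {BK H : ℕ}
  (hT : ∀ x : Raw κ, x.length ≤ BK → test x = true → gval kg x ∈ X₀)
  (hX₀ : ∀ x ∈ X₀, (inK x : D K G) ∈ Xs) (hh : ∀ j, (hD j : D K G) ∈ Xs)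
  (hg : ∀ j, inJ j = true → (B.gD (fun j => gval kg (kw j)) j : D K G) ∈ Xs)

include hT hX₀ hh hg in
theorem readSyms_sound : ∀ l : List (Sym κ),
    (∀ j s, some (Sum.inr ((Sum.inr j : FL), s)) ∈ l → (kw j).length ≤ H) →
    klen l + 2 * H ≤ BK → ∀ p ∈ readSyms test inJ kw l,
      none ∉ l ∧ PosIn kg Xs p (l.map (symD G kg)).prod ∧
        ∀ acc, p = some acc → acc.length ≤ klen l + H := by
  intro l
  induction l using List.reverseRecOn with
  | nil =>
    intro _ _ p hp
    obtain rfl : p = some [] := by simpa [readSyms] using hp
    refine ⟨by simp, ?_, fun acc h => by cases h; simp⟩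
    simp [PosIn, gval, ← FreeGroup.one_eq_mk, one_mem]
  | append_singleton l s ih =>
    intro hH hlen q hq
    have hk : klen (l ++ [s]) = klen l + klen [s] := by simp [klen]
    rw [readSyms, List.foldl_append, List.foldl_cons, List.foldl_nil, ← readSyms,
      List.mem_flatMap] at hq
    obtain ⟨p, hp, hpq⟩ := hq
    obtain ⟨hl, hpos, hacc⟩ :=
      ih (fun j s h => hH j s (List.mem_append_left _ h)) (by omega) p hp
    simp only [List.map_append, List.map_singleton, List.prod_append, List.prod_singleton]
    generalize (l.map (symD G kg)).prod = x at hpos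
    have hsn : s ≠ none → none ∉ l ++ [s] := fun h hm => by
      rcases List.mem_append.1 hm with hm | hm
      exacts [hl hm, h (List.mem_singleton.1 hm).symm]
    have hin : ∀ acc, p = some acc → test acc = true → x ∈ Xs := fun acc hacc' ht => by
      subst hacc'
      have h0 := hX₀ _ (hT acc (by have := hacc acc rfl; omega) ht)
      simpa [PosIn] using Xs.mul_mem hpos h0
    have hone : ∀ y : D K G, y ∈ Xs → PosIn kg Xs (some ([] : Raw κ)) y := fun y hy => by
      simpa [PosIn, gval, ← FreeGroup.one_eq_mk] using hy
    unfold next at hpq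
    split at hpq
    · rename_i y acc
      rw [List.mem_singleton] at hpq
      subst hpq
      have := hacc acc rfl
      refine ⟨hsn (by simp), ?_, fun a h => ?_⟩
      · simpa [PosIn, symD, gval_append, mul_assoc] using hpos
      · cases h
        have hy : klen [(some (.inl y) : Sym κ)] = y.length := by simp [klen]
        simp only [List.length_append]
        omega
    · rw [List.mem_singleton] at hpq
      subst hpq
      exact ⟨hsn (by simp), hone _ (by simpa [symD, PosIn, cD] using hpos),
        fun a h => by cases h; simp⟩
    · rename_i acc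
      split_ifs at hpq with ht
      · rw [List.mem_singleton] at hpq
        subst hpq
        refine ⟨hsn (by simp), ?_, fun a h => by cases h⟩
        simpa [symD, PosIn, cD] using hin acc rfl ht
      · simp at hpq
    · rename_i j acc
      rw [List.mem_append] at hpq
      rcases hpq with hpq | hpq
      · split_ifs at hpq with ht
        · rw [List.mem_singleton] at hpq
          subst hpq
          refine ⟨hsn (by simp), hone _ ?_, fun a h => by cases h; simp⟩
          exact Xs.mul_mem (hin acc rfl ht) (hh j)
        · simp at hpq
      · split_ifs at hpq with ht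
        · rw [List.mem_singleton] at hpq
          subst hpq
          refine ⟨hsn (by simp), ?_, fun a h => by cases h⟩
          rw [Bool.and_eq_true] at ht
          have hj := hH j true (by simp)
          have hlen' : (acc ++ kw j).length ≤ BK := by
            have := hacc acc rfl
            simp; omega
          have h1 := Xs.mul_mem (Xs.mul_mem hpos (hX₀ _ (hT _ hlen' ht.2))) (Xs.inv_mem (hg j ht.1))
          simpa [PosIn, symD, B.gD, hD, gval_append, mul_assoc] using h1
        · simp at hpq
    · rename_i j acc
      split_ifs at hpq with ht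
      · rw [List.mem_singleton] at hpq
        subst hpq
        refine ⟨hsn (by simp), hone _ ?_, fun a h => by cases h; simp⟩
        simpa [symD, hD] using Xs.mul_mem (hin acc rfl ht) (Xs.inv_mem (hh j))
      · simp at hpq
    · rename_i j
      split_ifs at hpq with ht
      · rw [List.mem_singleton] at hpq
        subst hpq
        refine ⟨hsn (by simp), ?_, fun a h => ?_⟩
        · simpa [PosIn, symD, B.gD, hD, gval_invRev, mul_assoc] using Xs.mul_mem hpos (hg j ht)
        · cases h
          have := hH j false (by simp)
          simp [FreeGroup.invRev_length]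
          omega
      · simp at hpq
    · simp at hpq

include hT hX₀ hh hg in
/-- **Soundness of the reading.** -/
theorem memD_sound {oneK : Raw κ → Bool} {oneG : Raw γ → Bool} {B : ℕ}
    (hB : Right kg gg oneK oneG B) {v : Raw (TD κ γ)} (hv : v.length ≤ B)
    (hH : ∀ j s, ((Sum.inr (Sum.inr (Sum.inr j)) : TD κ γ), s) ∈ v → (kw j).length ≤ H)
    (hlen : v.length + 2 * H ≤ BK) (h : memD test inJ kw oneK oneG v = true) :
    gval (gD kg gg) v ∈ Xs := by
  obtain ⟨hred, hval, hsum⟩ := red_spec hB hv
  have hsub := red_subset (oneK := oneK) (oneG := oneG) v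
  rw [← hval, value]
  set st := red oneK oneG v with hst
  have hk : klen (st.reverse.flatMap symsOf) ≤ v.length := by
    refine le_trans (klen_flatMap_le _) ?_
    rw [List.map_reverse, List.sum_reverse]
    exact hsum
  have hH' : ∀ j s, some (Sum.inr ((Sum.inr j : FL), s)) ∈ st.reverse.flatMap symsOf →
      (kw j).length ≤ H := by
    intro j s hj
    obtain ⟨w, hw, hws⟩ := List.mem_flatMap.1 hj
    exact hH j s ((hsub w (List.mem_reverse.1 hw)).2 _ (free_sym_mem hws))
  simp only [memD, ← hst, List.any_eq_true] at h
  obtain ⟨p, hp, ha⟩ := h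
  obtain ⟨hnone, hpos, hacc⟩ :=
    readSyms_sound hT hX₀ hh hg (st.reverse.flatMap symsOf) hH' (by omega) p hp
  cases p with
  | none => simp [accepts] at ha
  | some acc =>
    have ht : test acc = true := ha
    have h1 := Xs.mul_mem hpos (hX₀ _ (hT acc (by have := hacc acc rfl; omega) ht))
    rw [inv_mul_cancel_right] at h1
    have e : ∀ L : List (Raw (TD κ γ)), (∀ w ∈ L, ∃ i, Homog i w) → none ∉ L.flatMap symsOf →
        ((L.flatMap symsOf).map (symD G kg)).prod = gval (gD kg gg) L.flatten := by
      intro L
      induction L with
      | nil => simp [gval, ← FreeGroup.one_eq_mk]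
      | cons w L ih =>
        intro hL hn
        obtain ⟨i, hi⟩ := hL w List.mem_cons_self
        simp only [List.flatMap_cons, List.mem_append, not_or] at hn
        rw [List.flatMap_cons, List.map_append, List.prod_append, List.flatten_cons, gval_append,
          prod_symsOf hi hn.1, ih (fun x hx => hL x (List.mem_cons_of_mem _ hx)) hn.2]
    rwa [e _ (fun w hw => ?_) hnone] at h1
    obtain ⟨i, hi, -⟩ := hred.homog w (List.mem_reverse.1 hw)
    exact ⟨i, hi⟩

end Sound

end Vale.Agent.P193.B.DWord

namespace Vale.Agent.P193.B.WordL

open Reduce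

variable {TD : Type} {M : ℕ} {de₁ de₂ : ℕ → Raw TD} {oneD memD memD' : Raw TD → Bool}

theorem memI_mono (h : ∀ u, memD u = true → memD' u = true) {v : Raw (TI TD)}
    (hv : memI M de₂ oneD memD v = true) : memI M de₂ oneD memD' v = true := by
  unfold memI at hv ⊢
  generalize runI M de₂ oneD v = st at hv ⊢
  match st with
  | [] => rfl
  | [s] =>
    simp only [Bool.and_eq_true, Bool.or_eq_true] at hv ⊢
    exact ⟨hv.1, hv.2.imp_right (h _)⟩
  | _ :: _ :: _ => exact hv

theorem inE_mono (h : ∀ u, memD u = true → memD' u = true) {w : Raw Gen}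
    (hw : inE M de₁ de₂ oneD memD w = true) : inE M de₁ de₂ oneD memD' w = true := by
  simp only [inE, List.all_eq_true, Bool.or_eq_true] at hw ⊢
  exact fun s hs => (hw s hs).imp_right (memI_mono h)

end Vale.Agent.P193.B.WordL
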