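import Vale.Agent.P193.B.Amalgam
import Mathlib.Algebra.Order.BigOperators.Group.List

/-!
# Reduction in `Ext Γ d` with a linear query bound (P193, piece B)

A stack of syllables `(side, Γ-word, F-word)`. A conversion keeps the `F`-word, so `F`-lengths never
grow, the `Γ`-word produced by one conversion costs at most `C₀ |u| / M`, and the oracle for
`Γ` is only asked about words of weight at most `G + 2 C₀ |F| / M`.
-/

namespace Vale.Agent.P193.B

open Monoid

namespace Reduce

/-- Raw words. -/
abbrev Raw (α : Type) : Type := List (α × Bool)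

/-- A syllable; `true` is the right side. -/
abbrev Syl (T : Type) : Type := Bool × Raw T × Raw Letter

variable {T : Type} (dec : Raw Letter → Option (Raw ℕ)) (one : Raw T → Bool)
  (exp : Raw ℕ → Raw T)

/-- Move a syllable to the other side, if it lies in the amalgamated subgroup. -/
def conv (s : Syl T) : Option (Syl T) :=
  (dec s.2.2).bind fun q =>
    if s.1 then some (false, exp q, s.2.2)
    else if one (s.2.1 ++ FreeGroup.invRev (exp q)) then some (true, [], s.2.2) else none

/-- Join two syllables of one side. -/
def merge (t s : Syl T) : Syl T := (t.1, t.2.1 ++ s.2.1, t.2.2 ++ s.2.2)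

/-- Restore reducedness at the top of a stack. -/
def settle : Syl T → List (Syl T) → List (Syl T)
  | s, [] => [s]
  | s, t :: st =>
    match conv dec one exp s with
    | none => s :: t :: st
    | some s' => settle (merge t s') st

/-- Push one syllable. -/
def push : List (Syl T) → Syl T → List (Syl T)
  | [], s => [s]
  | t :: st, s =>
    if t.1 = s.1 then settle dec one exp (merge t s) st
    else match st, conv dec one exp t with
      | [], some t' => [merge t' s]
      | _, _ => settle dec one exp s (t :: st)

/-- Reduce a sequence of syllables. -/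
def run (w : List (Syl T)) : List (Syl T) := w.foldl (push dec one exp) []

/-- Is a reduced stack trivial? -/
def isOne : List (Syl T) → Bool
  | [] => true
  | [s] => (s.1 || one s.2.1) && (FreeGroup.reduce s.2.2).isEmpty
  | _ => false

section Semantics

variable {Γ : Type} [Group Γ] {M : ℕ} {d : ℕ → Γ} (g : T → Γ)

/-- The value of a raw `Γ`-word. -/
def gval (w : Raw T) : Γ := FreeGroup.lift g (FreeGroup.mk w)

variable (M d) in
/-- The value of a syllable. -/
def sval (s : Syl T) : Ext M d :=
  if s.1 then Ext.f' M d (FreeGroup.mk s.2.2)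
  else Ext.left M d (gval g s.2.1, FreeGroup.mk s.2.2)

variable (M d) in
/-- The value of a stack, bottom first. -/
def value : List (Syl T) → Ext M d
  | [] => 1
  | s :: st => value st * sval M d g s

variable (M d) in
/-- The syllable lies outside the amalgamated subgroup. -/
def Out (s : Syl T) : Prop :=
  if s.1 then FreeGroup.mk s.2.2 ∉ (wHom M).range
  else (gval g s.2.1, FreeGroup.mk s.2.2) ∉ (pairHom M d).range

theorem gval_append (v w : Raw T) : gval g (v ++ w) = gval g v * gval g w := by
  rw [gval, ← FreeGroup.mul_mk, map_mul]; rfl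

theorem gval_invRev (w : Raw T) : gval g (FreeGroup.invRev w) = (gval g w)⁻¹ := by
  rw [gval, ← FreeGroup.inv_mk, map_inv]; rfl

theorem sval_merge {t s : Syl T} (h : t.1 = s.1) :
    sval M d g (merge t s) = sval M d g t * sval M d g s := by
  obtain ⟨b, v, u⟩ := t
  obtain ⟨b', v', u'⟩ := s
  cases h
  cases b
  · simp only [sval, merge, Bool.false_eq_true, if_false]
    rw [← map_mul, gval_append, ← FreeGroup.mul_mk]
    rfl
  · simp only [sval, merge, if_true]
    rw [← map_mul, ← FreeGroup.mul_mk]

/-- Alternation of sides. -/
def Alt (st : List (Syl T)) : Prop := st.IsChain fun a b => a.1 ≠ b.1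

variable (M d) in
/-- The invariant: alternating, and outside the amalgamated subgroup unless alone. -/
def Shape (st : List (Syl T)) : Prop :=
  Alt st ∧ (2 ≤ st.length → ∀ s ∈ st, Out M d g s)

variable {κ : Type} (wt : κ → T → ℕ) (C₀ : κ → ℕ)

/-- The weight of a raw word. -/
def weight (k : κ) (w : Raw T) : ℕ := (w.map fun p => wt k p.1).sum

variable (M) in
/-- What a syllable has beyond the allowance of its `F`-word. -/
def excess (k : κ) (s : Syl T) : ℕ := M * weight wt k s.2.1 - C₀ k * s.2.2.length

/-- The total `F`-length. -/
def flen (st : List (Syl T)) : ℕ := (st.map fun s => s.2.2.length).sum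

variable (M) in
/-- The total excess. -/
def load (k : κ) (st : List (Syl T)) : ℕ := (st.map (excess M wt C₀ k)).sum

theorem weight_append (k : κ) (v w : Raw T) :
    weight wt k (v ++ w) = weight wt k v + weight wt k w := by simp [weight]

theorem weight_invRev (k : κ) (w : Raw T) :
    weight wt k (FreeGroup.invRev w) = weight wt k w := by
  simp [weight, FreeGroup.invRev, List.sum_reverse, Function.comp_def]

theorem excess_merge (k : κ) (t s : Syl T) :
    excess M wt C₀ k (merge t s) ≤ excess M wt C₀ k t + excess M wt C₀ k s := by
  simp only [excess, merge, weight_append, List.length_append, Nat.mul_add]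
  omega

/-- The standing hypotheses, with the budget `(G, Fl)`. -/
structure Hyp (G : κ → ℕ) (Fl : ℕ) : Prop where
  dec_some : ∀ u q, dec u = some q → wHom M (FreeGroup.mk q) = FreeGroup.mk u
  dec_none : ∀ u, dec u = none → FreeGroup.mk u ∉ (wHom M).range
  exp_val : ∀ u q, dec u = some q → u.length ≤ Fl →
    gval g (exp q) = FreeGroup.lift d (FreeGroup.mk q)
  exp_weight : ∀ u q, dec u = some q → ∀ k, M * weight wt k (exp q) ≤ C₀ k * u.length
  one_iff : ∀ w, (∀ k, M * weight wt k w ≤ G k + 2 * (C₀ k * Fl)) → (one w = true ↔ gval g w = 1)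

variable (M) in
/-- A stack within budget. -/
def Small (G : κ → ℕ) (Fl : ℕ) (st : List (Syl T)) : Prop :=
  flen st ≤ Fl ∧ ∀ k, load M wt C₀ k st ≤ G k

variable {dec one exp g wt C₀} {G : κ → ℕ} {Fl : ℕ}
variable (hp : Hyp (M := M) (d := d) dec one exp g wt C₀ G Fl)

include hp in
theorem one_correct {s : Syl T} (hs : ∀ k, excess M wt C₀ k s ≤ G k) (hu : s.2.2.length ≤ Fl)
    {e : Raw T} (he : ∀ k, M * weight wt k e ≤ C₀ k * s.2.2.length) :
    one (s.2.1 ++ e) = true ↔ gval g (s.2.1 ++ e) = 1 := by
  refine hp.one_iff _ fun k => ?_
  have h1 := hs k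
  have h2 := he k
  have h3 := Nat.mul_le_mul_left (C₀ k) hu
  simp only [excess] at h1
  rw [weight_append, Nat.mul_add]
  omega

include hp in
theorem conv_none {s : Syl T} (hs : ∀ k, excess M wt C₀ k s ≤ G k) (hu : s.2.2.length ≤ Fl)
    (h : conv dec one exp s = none) : Out M d g s := by
  obtain ⟨b, v, u⟩ := s
  cases hdec : dec u with
  | none =>
    have hn := hp.dec_none u hdec
    cases b
    · rintro ⟨q, hq⟩
      exact hn ⟨q, congrArg Prod.snd hq⟩
    · exact hn
  | some q =>
    simp only [conv, hdec, Option.bind_some] at h
    cases b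
    · simp only [Bool.false_eq_true, if_false, ite_eq_right_iff, reduceCtorEq, imp_false] at h
      rintro ⟨q', hq'⟩
      have hqq : q' = FreeGroup.mk q := wHom_injective M
        ((congrArg Prod.snd hq').trans (hp.dec_some u q hdec).symm)
      refine h ((one_correct hp hs hu fun k => ?_).2 ?_)
      · rw [weight_invRev]; exact hp.exp_weight u q hdec k
      · have hv : FreeGroup.lift d q' = gval g v := congrArg Prod.fst hq'
        rw [gval_append, gval_invRev, hp.exp_val u q hdec hu, ← hqq, hv, mul_inv_cancel]
    · simp at h

include hp in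
theorem conv_some {s s' : Syl T} (hs : ∀ k, excess M wt C₀ k s ≤ G k) (hu : s.2.2.length ≤ Fl)
    (h : conv dec one exp s = some s') :
    sval M d g s' = sval M d g s ∧ s'.1 ≠ s.1 ∧ s'.2.2.length = s.2.2.length ∧
      ∀ k, excess M wt C₀ k s' = 0 := by
  obtain ⟨b, v, u⟩ := s
  cases hdec : dec u with
  | none => simp [conv, hdec] at h
  | some q =>
    simp only [conv, hdec, Option.bind_some] at h
    have hpair : pairHom M d (FreeGroup.mk q) = (gval g (exp q), FreeGroup.mk u) :=
      Prod.ext (hp.exp_val u q hdec hu).symm (hp.dec_some u q hdec)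
    have hconv : Ext.left M d (gval g (exp q), FreeGroup.mk u) = Ext.f' M d (FreeGroup.mk u) := by
      rw [← hpair, Ext.left_pairHom, hp.dec_some u q hdec]
    cases b
    · simp only [Bool.false_eq_true, if_false, Option.ite_none_right_eq_some, Option.some.injEq] at h
      obtain ⟨hone, rfl⟩ := h
      have hw : ∀ k, M * weight wt k (FreeGroup.invRev (exp q)) ≤ C₀ k * u.length := fun k => by
        rw [weight_invRev]; exact hp.exp_weight u q hdec k
      have hv := (one_correct hp (s := (false, v, u)) hs hu hw).1 hone
      rw [gval_append, gval_invRev, mul_inv_eq_one] at hv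
      refine ⟨?_, by simp, rfl, fun k => by simp [excess, weight]⟩
      simp only [sval, if_true, Bool.false_eq_true, if_false]
      rw [hv, hconv]
    · simp only [if_true, Option.some.injEq] at h
      subst h
      refine ⟨?_, by simp, rfl, fun k => Nat.sub_eq_zero_of_le (hp.exp_weight u q hdec k)⟩
      simp only [sval, if_true, Bool.false_eq_true, if_false]
      exact hconv

theorem Small.head {s : Syl T} {st : List (Syl T)} (h : Small M wt C₀ G Fl (s :: st)) :
    (∀ k, excess M wt C₀ k s ≤ G k) ∧ s.2.2.length ≤ Fl := by
  obtain ⟨h1, h2⟩ := h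
  refine ⟨fun k => ?_, ?_⟩
  · have := h2 k
    simp [load] at this
    omega
  · simp [flen] at h1
    omega

include hp in
theorem settle_spec : ∀ (st : List (Syl T)) (s : Syl T), Alt (s :: st) →
    (∀ x ∈ st, Out M d g x) → Small M wt C₀ G Fl (s :: st) →
    value M d g (settle dec one exp s st) = value M d g (s :: st) ∧
      Shape M d g (settle dec one exp s st) ∧
      flen (settle dec one exp s st) = flen (s :: st) ∧
      ∀ k, load M wt C₀ k (settle dec one exp s st) ≤ load M wt C₀ k (s :: st)
  | [], s, hA, _, _ => ⟨rfl, ⟨hA, fun h => by simp [settle] at h⟩, rfl, fun _ => le_rfl⟩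
  | t :: st, s, hA, hO, hS => by
    obtain ⟨hsx, hsu⟩ := hS.head
    simp only [settle]
    cases hc : conv dec one exp s with
    | none =>
      refine ⟨rfl, ⟨hA, fun _ x hx => ?_⟩, rfl, fun _ => le_rfl⟩
      rcases List.mem_cons.1 hx with rfl | hx
      exacts [conv_none hp hsx hsu hc, hO x hx]
    | some s' =>
      obtain ⟨hv, hne, hlen, hex⟩ := conv_some hp hsx hsu hc
      have hts : t.1 = s'.1 := by
        have h1 : s.1 ≠ t.1 := (List.isChain_cons_cons.1 hA).1
        revert hne h1
        cases t.1 <;> cases s.1 <;> cases s'.1 <;> decide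
      have hfl : flen (merge t s' :: st) = flen (s :: t :: st) := by
        simp [flen, merge, hlen]; omega
      have hld : ∀ k, load M wt C₀ k (merge t s' :: st) ≤ load M wt C₀ k (s :: t :: st) := fun k => by
        have := excess_merge (M := M) wt C₀ k t s'
        simp [load, hex k] at this ⊢
        omega
      have hA' : Alt (merge t s' :: st) := by
        have hAt : Alt (t :: st) := (List.isChain_cons_cons.1 hA).2
        cases st with
        | nil => exact List.isChain_singleton _
        | cons r st => exact List.isChain_cons_cons.2 (List.isChain_cons_cons.1 hAt)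
      obtain ⟨e1, e2, e3, e4⟩ := settle_spec st (merge t s') hA'
        (fun x hx => hO x (List.mem_cons_of_mem _ hx))
        ⟨hfl.le.trans hS.1, fun k => (hld k).trans (hS.2 k)⟩
      refine ⟨?_, e2, e3.trans hfl, fun k => (e4 k).trans (hld k)⟩
      rw [e1]
      simp only [value, sval_merge g hts, hv, mul_assoc]

include hp in
theorem push_spec {st : List (Syl T)} {s : Syl T} (hst : Shape M d g st)
    (hS : Small M wt C₀ G Fl (s :: st)) :
    value M d g (push dec one exp st s) = value M d g (s :: st) ∧
      Shape M d g (push dec one exp st s) ∧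
      flen (push dec one exp st s) = flen (s :: st) ∧
      ∀ k, load M wt C₀ k (push dec one exp st s) ≤ load M wt C₀ k (s :: st) := by
  cases st with
  | nil => exact ⟨rfl, ⟨List.isChain_singleton _, fun h => by simp [push] at h⟩, rfl, fun _ => le_rfl⟩
  | cons t st =>
    obtain ⟨hA, hO⟩ := hst
    have hO' : st ≠ [] → ∀ x ∈ t :: st, Out M d g x := fun hne =>
      hO (by cases st with | nil => exact absurd rfl hne | cons => simp)
    have hSt : Small M wt C₀ G Fl (t :: st) := by
      refine ⟨le_trans ?_ hS.1, fun k => le_trans ?_ (hS.2 k)⟩ <;> simp [flen, load]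
    obtain ⟨htx, htu⟩ := hSt.head
    by_cases hside : t.1 = s.1
    · simp only [push, hside, if_true]
      have hfl : flen (merge t s :: st) = flen (s :: t :: st) := by simp [flen, merge]; omega
      have hld : ∀ k, load M wt C₀ k (merge t s :: st) ≤ load M wt C₀ k (s :: t :: st) := fun k => by
        have := excess_merge (M := M) wt C₀ k t s
        simp [load] at this ⊢
        omega
      have hA' : Alt (merge t s :: st) := by
        cases st with
        | nil => exact List.isChain_singleton _
        | cons r st => exact List.isChain_cons_cons.2 (List.isChain_cons_cons.1 hA)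
      obtain ⟨e1, e2, e3, e4⟩ := settle_spec hp st (merge t s) hA'
        (fun x hx => hO' (List.ne_nil_of_mem hx) x (List.mem_cons_of_mem _ hx))
        ⟨hfl.le.trans hS.1, fun k => (hld k).trans (hS.2 k)⟩
      refine ⟨?_, e2, e3.trans hfl, fun k => (e4 k).trans (hld k)⟩
      rw [e1]
      simp only [value, sval_merge g hside, mul_assoc]
    · have hA' : Alt (s :: t :: st) := List.isChain_cons_cons.2 ⟨fun h => hside h.symm, hA⟩
      simp only [push, hside, if_false]
      cases st with
      | cons r st => exact settle_spec hp (t :: r :: st) s hA' (hO' (List.cons_ne_nil _ _)) hS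
      | nil =>
        cases hc : conv dec one exp t with
        | none =>
          refine settle_spec hp [t] s hA' (fun x hx => ?_) hS
          rw [List.mem_singleton.1 hx]
          exact conv_none hp htx htu hc
        | some t' =>
          obtain ⟨hv, hne, hlen, hex⟩ := conv_some hp htx htu hc
          have hts : t'.1 = s.1 := by
            revert hne hside
            cases t.1 <;> cases s.1 <;> cases t'.1 <;> decide
          refine ⟨?_, ⟨List.isChain_singleton _, fun h => by simp at h⟩, ?_, fun k => ?_⟩
          · simp only [value, sval_merge g hts, hv, one_mul]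
          · simp [flen, merge, hlen]; omega
          · have := excess_merge (M := M) wt C₀ k t' s
            simp [load, hex k] at this ⊢
            omega

include hp in
theorem foldl_spec : ∀ (w st : List (Syl T)), Shape M d g st → Small M wt C₀ G Fl (w ++ st) →
    value M d g (w.foldl (push dec one exp) st) = value M d g st * (w.map (sval M d g)).prod ∧
      Shape M d g (w.foldl (push dec one exp) st) ∧
      Small M wt C₀ G Fl (w.foldl (push dec one exp) st)
  | [], st, hst, hS => ⟨by simp, hst, hS⟩
  | s :: w, st, hst, hS => by
    have hS1 : Small M wt C₀ G Fl (s :: st) := by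
      refine ⟨le_trans ?_ hS.1, fun k => le_trans ?_ (hS.2 k)⟩ <;> simp [flen, load] <;> omega
    obtain ⟨e1, e2, e3, e4⟩ := push_spec hp hst hS1
    have hS2 : Small M wt C₀ G Fl (w ++ push dec one exp st s) := by
      refine ⟨le_trans ?_ hS.1, fun k => le_trans ?_ (hS.2 k)⟩
      · simp [flen] at e3 ⊢; omega
      · have := e4 k
        simp [load] at this ⊢; omega
    obtain ⟨f1, f2, f3⟩ := foldl_spec w _ e2 hS2
    refine ⟨?_, f2, f3⟩
    rw [List.foldl_cons, f1, e1, List.map_cons, List.prod_cons, value, mul_assoc]

variable (M d g) in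
/-- The element of the two-factor family. -/
def sig (s : Syl T) : Σ b, Fam (Γ × F) F b :=
  if s.1 then ⟨true, FreeGroup.mk s.2.2⟩ else ⟨false, (gval g s.2.1, FreeGroup.mk s.2.2)⟩

/-- A reduced stack as a reduced word of the amalgam. -/
theorem exists_word {st : List (Syl T)} (hA : Alt st) (hout : ∀ s ∈ st, Out M d g s) :
    ∃ W : CoprodI.Word (Fam (Γ × F) F), PushoutI.Reduced (famMap (pairHom M d) (wHom M)) W ∧
      PushoutI.ofCoprodI W.prod = value M d g st ∧ W.toList.length = st.length := by
  have hout' : ∀ s ∈ st, (sig g s).2 ∉
      (famMap (pairHom M d) (wHom M) (sig g s).1).range := by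
    intro s hs
    have h := hout s hs
    obtain ⟨b, v, u⟩ := s
    cases b <;> exact h
  refine ⟨{ toList := st.reverse.map (sig g)
            ne_one := fun l hl h => by
              obtain ⟨s, hs, rfl⟩ := List.mem_map.1 hl
              exact hout' s (List.mem_reverse.1 hs) (h ▸ one_mem _)
            chain_ne := by
              rw [List.isChain_map, List.isChain_reverse]
              refine hA.imp fun a b hab => ?_
              obtain ⟨a, _, _⟩ := a
              obtain ⟨b, _, _⟩ := b
              cases a <;> cases b <;> simp [sig] at hab ⊢ }, ?_, ?_, by simp⟩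
  · intro l hl
    obtain ⟨s, hs, rfl⟩ := List.mem_map.1 hl
    exact hout' s (List.mem_reverse.1 hs)
  · rw [CoprodI.Word.prod, map_list_prod]
    simp only [List.map_map]
    clear hA hout hout'
    induction st with
    | nil => rfl
    | cons s st ih =>
      rw [List.reverse_cons, List.map_append, List.prod_append, ih, value]
      obtain ⟨b, v, u⟩ := s
      cases b <;>
        simp [sig, sval, Ext.left, Ext.f', inA, inB] <;> exact PushoutI.ofCoprodI_of _ _

/-- A reduced stack of length at least two is nontrivial. -/
theorem value_ne_one {st : List (Syl T)} (hst : Shape M d g st) (hlen : 2 ≤ st.length) :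
    value M d g st ≠ 1 := by
  obtain ⟨W, hr, hW, hl⟩ := exists_word hst.1 (hst.2 hlen)
  intro h1
  have he := hr.eq_empty_of_mem_range
    (Amal.famMap_injective (pairHom_injective M d) (wHom_injective M))
    (by rw [hW, h1]; exact one_mem _)
  simp [he, CoprodI.Word.empty] at hl
  omega

theorem reduce_isEmpty_iff (u : Raw Letter) :
    (FreeGroup.reduce u).isEmpty = true ↔ (FreeGroup.mk u : F) = 1 := by
  rw [List.isEmpty_iff, ← FreeGroup.toWord_mk, FreeGroup.toWord_eq_nil_iff]

include hp in
theorem isOne_spec {st : List (Syl T)} (hst : Shape M d g st) (hS : Small M wt C₀ G Fl st) :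
    isOne one st = true ↔ value M d g st = 1 := by
  match st, hst, hS with
  | [], _, _ => simp [isOne, value]
  | [(b, v, u)], _, hS =>
    obtain ⟨hx, hu⟩ := hS.head
    have h1 := one_correct hp hx hu (e := []) fun k => by simp [weight]
    simp only [List.append_nil] at h1
    cases b
    · simp only [isOne, value, sval, Bool.false_eq_true, if_false, Bool.false_or, Bool.and_eq_true,
        reduce_isEmpty_iff, one_mul, h1]
      rw [← (Ext.left M d).map_one, (Ext.left_injective M d).eq_iff, Prod.mk_eq_one]
    · simp only [isOne, value, sval, if_true, Bool.true_or, Bool.true_and, reduce_isEmpty_iff,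
        one_mul]
      rw [← (Ext.f' M d).map_one, (Ext.f'_injective M d).eq_iff]
  | a :: b :: st, hst, _ =>
    simp only [isOne, Bool.false_eq_true, false_iff]
    exact value_ne_one hst (by simp)

/-- **The word problem of `Ext` with its query bound.** -/
theorem run_isOne {w : List (Syl T)}
    (hp : Hyp (M := M) (d := d) dec one exp g wt C₀ (fun k => load M wt C₀ k w) (flen w)) :
    isOne one (run dec one exp w) = true ↔ (w.map (sval M d g)).prod = 1 := by
  obtain ⟨e1, e2, e3⟩ := foldl_spec hp w [] ⟨List.isChain_nil, fun h => by simp at h⟩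
    ⟨by rw [List.append_nil], fun k => by rw [List.append_nil]⟩
  rw [run, isOne_spec hp e2 e3, e1, value, one_mul]

end Semantics

end Reduce

end Vale.Agent.P193.B
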