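import Vale.Agent.P193.B.WordL

/-!
# Relators of `L` in its twelve generators (P193, piece B)

Given a presentation of `D` in letters `TD`, words `de₁, de₂` for the families `d¹, d²`, and for
every letter of `D` a word `sw` in the twelve generators, the kernel of `F(Gen) → L` is the normal
closure of one family `rel : ℕ → Raw Gen`:
* the relators of `D` with `sw` substituted;
* the slot definitions `slot i = de i` with `sw` substituted;
* the commutations of the two direct products.
-/

namespace Vale.Agent.P193.B.RelL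

open Reduce WordL Monoid

/-- A letter from a number. -/
def letterOf : ℕ → Letter
  | 0 => .a
  | 1 => .b
  | _ => .e

theorem letterOf_surjective : Function.Surjective letterOf
  | .a => ⟨0, rfl⟩
  | .b => ⟨1, rfl⟩
  | .e => ⟨2, rfl⟩

/-- The raw long word. -/
def wRaw (M i : ℕ) : Raw Letter :=
  List.replicate i (.a, true) ++ ((.e, true) :: List.replicate (M * (i + 1)) (.b, true)) ++
    List.replicate i (.a, false)

/-- A word in `F` placed in one of the four copies. -/
def inGen (pr b : Bool) (u : Raw Letter) : Raw Gen := u.map fun x => ((pr, b, x.1), x.2)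

/-- The word of a slot, `W_i' W_i⁻¹`. -/
def slot (M : ℕ) (pr : Bool) (i : ℕ) : Raw Gen :=
  inGen pr true (wRaw M i) ++ FreeGroup.invRev (inGen pr false (wRaw M i))

/-- Substitute words for letters. -/
def subst {α β : Type} (s : α → Raw β) (r : Raw α) : Raw β :=
  r.flatMap fun p => if p.2 then s p.1 else FreeGroup.invRev (s p.1)

/-- The commutator of two words. -/
def comm {β : Type} (u v : Raw β) : Raw β :=
  u ++ v ++ FreeGroup.invRev u ++ FreeGroup.invRev v

section Family

variable {TD : Type} (M : ℕ) (tOf : ℕ → TD) (rD : ℕ → Raw TD) (de₁ de₂ : ℕ → Raw TD)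
  (sw : TD → Raw Gen)

/-- The relators, by kind and number. -/
def relAt : ℕ → ℕ → Raw Gen
  | 0, j => subst sw (rD j)
  | 1, i => slot M false i ++ FreeGroup.invRev (subst sw (de₁ i))
  | 2, i => slot M true i ++ FreeGroup.invRev (subst sw (de₂ i))
  | 3, m => comm (sw (tOf (m / 3))) [((true, false, letterOf (m % 3)), true)]
  | 4, m => comm (sw (tOf (m / 3))) [((false, false, letterOf (m % 3)), true)]
  | 5, m => comm [((true, decide (m / 9 = 1), letterOf (m / 3 % 3)), true)]
      [((false, false, letterOf (m % 3)), true)]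
  | _, _ => []

/-- All the relators in one family. -/
def rel (n : ℕ) : Raw Gen := relAt M tOf rD de₁ de₂ sw (n % 6) (n / 6)

theorem relAt_mem {k : ℕ} (hk : k < 6) (m : ℕ) :
    relAt M tOf rD de₁ de₂ sw k m = rel M tOf rD de₁ de₂ sw (6 * m + k) := by
  rw [rel, show (6 * m + k) % 6 = k by omega, show (6 * m + k) / 6 = m by omega]

end Family

section Values

variable {α β Q : Type} [Group Q]

theorem gval_nil (g : α → Q) : gval g ([] : Raw α) = 1 := (FreeGroup.lift g).map_one

theorem gval_subst (g : β → Q) (s : α → Raw β) (r : Raw α) :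
    gval g (subst s r) = gval (fun a => gval g (s a)) r := by
  induction r with
  | nil => simp [subst, gval_nil]
  | cons p r ih =>
    have e : subst s (p :: r) =
        (if p.2 then s p.1 else FreeGroup.invRev (s p.1)) ++ subst s r := by simp [subst]
    rw [e, gval_append, ih, gval_cons (fun a => gval g (s a)) p r]
    congr 1
    obtain ⟨a, s'⟩ := p
    cases s' <;> simp [gval_letter, gval_invRev]

theorem gval_comm (g : β → Q) (u v : Raw β) :
    gval g (comm u v) = 1 ↔ Commute (gval g u) (gval g v) := by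
  simp only [comm, gval_append, gval_invRev]
  rw [mul_inv_eq_one, mul_inv_eq_iff_eq_mul]
  exact Iff.rfl

theorem gval_inGen (g : Gen → Q) (pr b : Bool) (u : Raw Letter) :
    gval g (inGen pr b u) = FreeGroup.lift (fun l => g (pr, b, l)) (FreeGroup.mk u) := by
  induction u with
  | nil => simp [inGen, gval_nil]
  | cons x u ih =>
    rw [show inGen pr b (x :: u) = ((pr, b, x.1), x.2) :: inGen pr b u from rfl, gval_cons, ih,
      gval_letter]
    obtain ⟨l, s⟩ := x
    rw [show ((l, s) :: u) = [(l, s)] ++ u from rfl, ← FreeGroup.mul_mk, _root_.map_mul, mk_single]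
    congr 1
    cases s <;> simp

theorem mk_replicate (l : Letter) : ∀ n : ℕ,
    (FreeGroup.mk (List.replicate n (l, true)) : F) = FreeGroup.of l ^ n
  | 0 => rfl
  | n + 1 => by
    rw [List.replicate_succ, pow_succ', ← mk_replicate l n]
    rfl

theorem mk_wRaw (M i : ℕ) : (FreeGroup.mk (wRaw M i) : F) = W M i := by
  have hinv : (FreeGroup.mk (List.replicate i (Letter.a, false)) : F) =
      (FreeGroup.of Letter.a ^ i)⁻¹ := by
    rw [← mk_replicate, FreeGroup.inv_mk]
    congr 1
    simp [FreeGroup.invRev]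
  rw [wRaw, ← FreeGroup.mul_mk, ← FreeGroup.mul_mk, mk_replicate, hinv,
    show (FreeGroup.mk ((Letter.e, true) :: List.replicate (M * (i + 1)) (Letter.b, true)) : F) =
      FreeGroup.of Letter.e * FreeGroup.mk (List.replicate (M * (i + 1)) (Letter.b, true)) from rfl,
    mk_replicate]
  rfl

theorem gval_slot (g : Gen → Q) (M : ℕ) (pr : Bool) (i : ℕ) :
    gval g (slot M pr i) = FreeGroup.lift (fun l => g (pr, true, l)) (W M i) *
      (FreeGroup.lift (fun l => g (pr, false, l)) (W M i))⁻¹ := by
  rw [slot, gval_append, gval_invRev, gval_inGen, gval_inGen, mk_wRaw]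

theorem commute_lift {ι : Type} {x : Q} {g : ι → Q} (h : ∀ i, Commute x (g i))
    (u : FreeGroup ι) : Commute x (FreeGroup.lift g u) := by
  induction u using FreeGroup.induction_on with
  | C1 => rw [_root_.map_one]; exact Commute.one_right x
  | of i => simpa using h i
  | inv_of i _ => rw [_root_.map_inv]; exact Commute.inv_right (by simpa using h i)
  | mul a b ha hb => rw [_root_.map_mul]; exact ha.mul_right hb

end Values

section Main

variable {TD D : Type} [Group D] {X : Subgroup D} {M : ℕ} {d₁ : ℕ → X} {d₂ : ℕ → D}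
  {gD : TD → D} {rD : ℕ → Raw TD} {de₁ de₂ : ℕ → Raw TD} {sw : TD → Raw Gen}
  {tOf : ℕ → TD}

theorem lift_gL (pr b : Bool) : FreeGroup.lift (fun l => gL M X d₁ d₂ (pr, b, l)) =
    (match pr, b with
      | true, true => L.f₂' X M d₁ d₂
      | true, false => L.f₂ X M d₁ d₂
      | false, true => L.f₁' X M d₁ d₂
      | false, false => L.f₁ X M d₁ d₂) := by
  cases pr <;> cases b <;> exact FreeGroup.ext_hom _ _ fun l => by simp [gL]

/-- The value of a slot. -/
theorem gval_slot_gL (pr : Bool) (i : ℕ) :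
    gval (gL M X d₁ d₂) (slot M pr i) =
      L.inD X M d₁ d₂ (if pr then d₂ i else (d₁ i : D)) := by
  rw [gval_slot, lift_gL, lift_gL]
  cases pr
  · rw [mul_inv_eq_iff_eq_mul]
    exact (L.rel₁ X M d₁ d₂ i).symm
  · rw [mul_inv_eq_iff_eq_mul]
    exact (L.rel₂ X M d₁ d₂ i).symm

/-- The presentation data: letters, relators, words for the slots, words for the letters. -/
structure Data (X : Subgroup D) (M : ℕ) (d₁ : ℕ → X) (d₂ : ℕ → D) (gD : TD → D)
    (rD : ℕ → Raw TD) (de₁ de₂ : ℕ → Raw TD) (sw : TD → Raw Gen) (tOf : ℕ → TD) : Prop where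
  surj : Function.Surjective (FreeGroup.lift gD)
  ker : (FreeGroup.lift gD).ker =
    Subgroup.normalClosure (Set.range fun j => FreeGroup.mk (rD j))
  val₁ : ∀ i, gval gD (de₁ i) = d₁ i
  val₂ : ∀ i, gval gD (de₂ i) = d₂ i
  sw_val : ∀ t, gval (gL M X d₁ d₂) (sw t) = L.inD X M d₁ d₂ (gD t)
  tOf_surj : Function.Surjective tOf

variable (P : Data X M d₁ d₂ gD rD de₁ de₂ sw tOf)

/-- The normal closure of the relators. -/
abbrev relN (M : ℕ) (tOf : ℕ → TD) (rD de₁ de₂ : ℕ → Raw TD) (sw : TD → Raw Gen) :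
    Subgroup (FreeGroup Gen) :=
  Subgroup.normalClosure (Set.range fun n => FreeGroup.mk (rel M tOf rD de₁ de₂ sw n))

include P in
theorem gval_subst_sw (r : Raw TD) :
    gval (gL M X d₁ d₂) (subst sw r) = L.inD X M d₁ d₂ (gval gD r) := by
  rw [gval_subst, show (fun a => gval (gL M X d₁ d₂) (sw a)) =
    fun a => L.inD X M d₁ d₂ (gD a) from funext P.sw_val]
  refine DFunLike.congr_fun (f := FreeGroup.lift fun a => L.inD X M d₁ d₂ (gD a))
    (g := (L.inD X M d₁ d₂).comp (FreeGroup.lift gD)) ?_ (FreeGroup.mk r)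
  exact FreeGroup.ext_hom _ _ fun a => by simp

include P in
theorem rel_eq_one (n : ℕ) : gval (gL M X d₁ d₂) (rel M tOf rD de₁ de₂ sw n) = 1 := by
  rw [rel]
  generalize n / 6 = m
  have hk : n % 6 < 6 := Nat.mod_lt _ (by omega)
  generalize n % 6 = k at hk ⊢
  match k, hk with
  | 0, _ =>
    simp only [relAt, gval_subst_sw P]
    have h : gval gD (rD m) = 1 := MonoidHom.mem_ker.1
      (show FreeGroup.mk (rD m) ∈ (FreeGroup.lift gD).ker by
        rw [P.ker]; exact Subgroup.subset_normalClosure ⟨m, rfl⟩)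
    rw [h, _root_.map_one]
  | 1, _ =>
    simp only [relAt, gval_append, gval_invRev, gval_subst_sw P, P.val₁, gval_slot_gL,
      Bool.false_eq_true, if_false, mul_inv_cancel]
  | 2, _ =>
    simp only [relAt, gval_append, gval_invRev, gval_subst_sw P, P.val₂, gval_slot_gL, if_true,
      mul_inv_cancel]
  | 3, _ =>
    simp only [relAt]
    rw [gval_comm, P.sw_val, gval_letter]
    show Ext.base _ _ (Ext.base M d₂ (gD _)) * Ext.base _ _ (Ext.f M d₂ (FreeGroup.of _)) =
      Ext.base _ _ (Ext.f M d₂ (FreeGroup.of _)) * Ext.base _ _ (Ext.base M d₂ (gD _))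
    rw [← _root_.map_mul, ← _root_.map_mul, Ext.base_comm_f]
  | 4, _ =>
    simp only [relAt]
    rw [gval_comm, P.sw_val, gval_letter]
    exact Ext.base_comm_f M (fun i => Ext.base M d₂ (d₁ i : D)) _ _
  | 5, _ =>
    simp only [relAt]
    rw [gval_comm, gval_letter, gval_letter]
    simp only [if_true]
    cases decide (m / 9 = 1) <;> exact Ext.base_comm_f M (fun i => Ext.base M d₂ (d₁ i : D)) _ _

include P in
/-- The inverse map on the presented group. -/
theorem exists_inverse : ∃ j : L X M d₁ d₂ →* FreeGroup Gen ⧸ relN M tOf rD de₁ de₂ sw,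
    ∀ g, j (gL M X d₁ d₂ g) = QuotientGroup.mk (FreeGroup.of g) := by
  let q : Gen → FreeGroup Gen ⧸ relN M tOf rD de₁ de₂ sw :=
    fun g => QuotientGroup.mk (FreeGroup.of g)
  have hmk : ∀ w, gval q w = QuotientGroup.mk (FreeGroup.mk w) := fun w =>
    DFunLike.congr_fun (f := FreeGroup.lift q) (g := QuotientGroup.mk' _)
      (FreeGroup.ext_hom _ _ fun g => by simp [q]) (FreeGroup.mk w)
  have hrel : ∀ k, k < 6 → ∀ m, gval q (relAt M tOf rD de₁ de₂ sw k m) = 1 := by
    intro k hk m
    rw [relAt_mem M tOf rD de₁ de₂ sw hk, hmk]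
    exact (QuotientGroup.eq_one_iff _).2 (Subgroup.subset_normalClosure ⟨_, rfl⟩)
  let qs : TD → FreeGroup Gen ⧸ relN M tOf rD de₁ de₂ sw := fun t => gval q (sw t)
  have hψker : (FreeGroup.lift gD).ker ≤ (FreeGroup.lift qs).ker := by
    rw [P.ker]
    refine Subgroup.normalClosure_le_normal ?_
    rintro _ ⟨j, rfl⟩
    have := hrel 0 (by omega) j
    rw [relAt, gval_subst] at this
    exact this
  let ψ := (FreeGroup.lift gD).liftOfSurjective P.surj ⟨FreeGroup.lift qs, hψker⟩
  have hψ : ∀ r, ψ (gval gD r) = gval qs r := fun r =>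
    MonoidHom.liftOfRightInverse_comp_apply _ _ _ _ (FreeGroup.mk r)
  have hψt : ∀ t, ψ (gD t) = qs t := fun t => by
    have := hψ [(t, true)]
    simpa [gval_letter] using this
  let p : Bool → Bool → F →* FreeGroup Gen ⧸ relN M tOf rD de₁ de₂ sw :=
    fun pr b => FreeGroup.lift fun l => q (pr, b, l)
  have hcomm : ∀ (a : FreeGroup Gen ⧸ relN M tOf rD de₁ de₂ sw) pr b,
      (∀ l, Commute a (q (pr, b, l))) → ∀ u, a * p pr b u = p pr b u * a :=
    fun a pr b h u => commute_lift h u
  have hD : ∀ pr, (∀ t l, Commute (qs t) (q (pr, false, l))) →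
      ∀ x u, ψ x * p pr false u = p pr false u * ψ x := by
    intro pr h x u
    obtain ⟨r, rfl⟩ := P.surj x
    obtain ⟨r, rfl⟩ : ∃ r', FreeGroup.mk r' = r := Quot.exists_rep r
    show Commute (ψ (gval gD r)) _
    rw [hψ]
    exact (commute_lift (fun t => (commute_lift (h t) u).symm) (FreeGroup.mk r)).symm
  have h3 : ∀ t l, Commute (qs t) (q (true, false, l)) := fun t l => by
    obtain ⟨a, rfl⟩ := P.tOf_surj t
    obtain ⟨b, hb, rfl⟩ : ∃ b, b < 3 ∧ letterOf b = l := by
      cases l
      exacts [⟨0, by omega, rfl⟩, ⟨1, by omega, rfl⟩, ⟨2, by omega, rfl⟩]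
    have := hrel 3 (by omega) (3 * a + b)
    rw [relAt, gval_comm, show (3 * a + b) / 3 = a by omega, show (3 * a + b) % 3 = b by omega,
      gval_letter] at this
    exact this
  have h4 : ∀ t l, Commute (qs t) (q (false, false, l)) := fun t l => by
    obtain ⟨a, rfl⟩ := P.tOf_surj t
    obtain ⟨b, hb, rfl⟩ : ∃ b, b < 3 ∧ letterOf b = l := by
      cases l
      exacts [⟨0, by omega, rfl⟩, ⟨1, by omega, rfl⟩, ⟨2, by omega, rfl⟩]
    have := hrel 4 (by omega) (3 * a + b)
    rw [relAt, gval_comm, show (3 * a + b) / 3 = a by omega, show (3 * a + b) % 3 = b by omega,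
      gval_letter] at this
    exact this
  have h5 : ∀ b' l' l, Commute (q (true, b', l')) (q (false, false, l)) := fun b' l' l => by
    obtain ⟨a, ha, rfl⟩ : ∃ a, a < 3 ∧ letterOf a = l' := by
      cases l'
      exacts [⟨0, by omega, rfl⟩, ⟨1, by omega, rfl⟩, ⟨2, by omega, rfl⟩]
    obtain ⟨b, hb, rfl⟩ : ∃ b, b < 3 ∧ letterOf b = l := by
      cases l
      exacts [⟨0, by omega, rfl⟩, ⟨1, by omega, rfl⟩, ⟨2, by omega, rfl⟩]
    obtain ⟨c, hc, hc'⟩ : ∃ c, c < 2 ∧ decide (c = 1) = b' := by
      cases b'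
      exacts [⟨0, by omega, rfl⟩, ⟨1, by omega, rfl⟩]
    have := hrel 5 (by omega) (9 * c + 3 * a + b)
    rw [relAt, gval_comm, show (9 * c + 3 * a + b) / 9 = c by omega,
      show (9 * c + 3 * a + b) / 3 % 3 = a by omega, show (9 * c + 3 * a + b) % 3 = b by omega,
      gval_letter, gval_letter, hc'] at this
    exact this
  have hslot : ∀ pr i (x : D), gval qs ((if pr then de₂ else de₁) i) = ψ x →
      ψ x * p pr false (W M i) = p pr true (W M i) := by
    intro pr i x hx
    rw [← hx]
    cases pr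
    · have := hrel 1 (by omega) i
      rw [relAt, gval_append, gval_invRev, gval_subst, gval_slot, mul_inv_eq_one] at this
      exact (mul_inv_eq_iff_eq_mul.1 this).symm
    · have := hrel 2 (by omega) i
      rw [relAt, gval_append, gval_invRev, gval_subst, gval_slot, mul_inv_eq_one] at this
      exact (mul_inv_eq_iff_eq_mul.1 this).symm
  let jI : Ext M d₂ →* FreeGroup Gen ⧸ relN M tOf rD de₁ de₂ sw :=
    Ext.lift ψ (p true false) (p true true) (hD true h3)
      fun i => hslot true i (d₂ i) ((hψ _).symm.trans (congrArg ψ (P.val₂ i)))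
  have hjI : ∀ x u, jI x * p false false u = p false false u * jI x := by
    intro x u
    have : (Subgroup.centralizer {p false false u}).comap jI = ⊤ := by
      refine Ext.eq_top_of_mem M d₂ (fun g => ?_) (fun v => ?_) fun v => ?_
      · simp only [Subgroup.mem_comap, Subgroup.mem_centralizer_singleton_iff, jI, Ext.lift_base]
        exact hD false h4 g u
      · simp only [Subgroup.mem_comap, Subgroup.mem_centralizer_singleton_iff, jI, Ext.lift_f]
        exact (commute_lift (fun l' => (commute_lift (h5 false l') u).symm) v).symm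
      · simp only [Subgroup.mem_comap, Subgroup.mem_centralizer_singleton_iff, jI, Ext.lift_f']
        exact (commute_lift (fun l' => (commute_lift (h5 true l') u).symm) v).symm
    exact Subgroup.mem_centralizer_singleton_iff.1 (this.ge (Subgroup.mem_top x))
  let j : L X M d₁ d₂ →* FreeGroup Gen ⧸ relN M tOf rD de₁ de₂ sw :=
    Ext.lift jI (p false false) (p false true) hjI fun i => by
      rw [Ext.lift_base]
      exact hslot false i (d₁ i) ((hψ _).symm.trans (congrArg ψ (P.val₁ i)))
  refine ⟨j, fun g => ?_⟩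
  obtain ⟨pr, b, l⟩ := g
  cases pr <;> cases b <;> simp [gL, j, jI, p, q, L.f₁, L.f₁', L.f₂, L.f₂']

include P in
/-- **The relators of `L`.** -/
theorem ker_lift_gL :
    (FreeGroup.lift (gL M X d₁ d₂)).ker = relN M tOf rD de₁ de₂ sw := by
  refine le_antisymm (fun w hw => ?_) (Subgroup.normalClosure_le_normal ?_)
  · obtain ⟨j, hj⟩ := exists_inverse P
    have : j.comp (FreeGroup.lift (gL M X d₁ d₂)) = QuotientGroup.mk' _ :=
      FreeGroup.ext_hom _ _ fun g => by simp [hj]
    have h1 := DFunLike.congr_fun this w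
    rw [MonoidHom.comp_apply, MonoidHom.mem_ker.1 hw, _root_.map_one] at h1
    exact (QuotientGroup.eq_one_iff w).1 h1.symm
  · rintro _ ⟨n, rfl⟩
    exact rel_eq_one P n

include P in
/-- The word problem of `L` in relators. -/
theorem gval_gL_eq_one_iff (w : Raw Gen) :
    gval (gL M X d₁ d₂) w = 1 ↔ FreeGroup.mk w ∈ relN M tOf rD de₁ de₂ sw := by
  rw [← ker_lift_gL P]; rfl

/-- The twelve generators generate. -/
theorem lift_gL_surjective (hD : Subgroup.closure (Set.range (fun i => (d₁ i : D)) ∪
    Set.range d₂) = ⊤) : Function.Surjective (FreeGroup.lift (gL M X d₁ d₂)) := by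
  rw [← MonoidHom.range_eq_top]
  refine L.gens_generate X M d₁ d₂ hD ?_ ?_ ?_ ?_ <;> intro l
  exacts [⟨.of (false, false, l), by simp [gL]⟩, ⟨.of (false, true, l), by simp [gL]⟩,
    ⟨.of (true, false, l), by simp [gL]⟩, ⟨.of (true, true, l), by simp [gL]⟩]

end Main

end Vale.Agent.P193.B.RelL
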