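import Vale.Agent.P193.B.Assemble
import Vale.Agent.P193.B.Read
import Vale.Agent.P193.B.WordL
import Vale.Agent.P193.B.RelL

/-!
# The slots: `d¹`, `d²` and the presentation of `D` (P193, piece B)

The letters of `D = K * G * F(c, z, h_j)` are `DWord.TD ℕ ℕ`. Pair two has one slot for every letter.
Pair one has the twelve generators of `X₀` in the slots `0..11`, `h_j` in the slot `12 + 2 j` and, in
the slot `13 + 2 (pair j s)`, the element `g_j = c⁻¹ h_j⁻¹ k_j` if `J j s`, else `1`.
Everything holds for every `J`; `XJ_eq` needs `J` to be valid.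
-/

namespace Vale.Agent.P193.B.Slots

open Reduce WordL Monoid

/-- The letters of `D`. -/
abbrev T : Type := DWord.TD ℕ ℕ

/-- The letter with a number. -/
def tOf (n : ℕ) : T :=
  if n % 4 = 0 then .inl (n / 4)
  else if n % 4 = 1 then .inr (.inl (n / 4))
  else if n % 4 = 2 then .inr (.inr (.inl (decide (n / 4 = 1))))
  else .inr (.inr (.inr (n / 4)))

/-- The number of a letter. -/
def idx : T → ℕ
  | .inl a => 4 * a
  | .inr (.inl a) => 4 * a + 1
  | .inr (.inr (.inl b)) => 4 * cond b 1 0 + 2
  | .inr (.inr (.inr j)) => 4 * j + 3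

theorem tOf_idx : ∀ t, tOf (idx t) = t
  | .inl a => by simp [tOf, idx]
  | .inr (.inl a) => by
    show tOf (4 * a + 1) = _
    unfold tOf
    rw [if_neg (by omega), if_pos (by omega), show (4 * a + 1) / 4 = a by omega]
  | .inr (.inr (.inl b)) => by cases b <;> simp [tOf, idx]
  | .inr (.inr (.inr j)) => by
    show tOf (4 * j + 3) = _
    unfold tOf
    rw [if_neg (by omega), if_neg (by omega), if_neg (by omega),
      show (4 * j + 3) / 4 = j by omega]

theorem tOf_surjective : Function.Surjective tOf := fun t => ⟨idx t, tOf_idx t⟩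

/-- The weight of a letter. -/
def dw : T → ℕ
  | .inr (.inr (.inr j)) => j + 1
  | _ => 1

theorem dw_tOf_le (i : ℕ) : dw (tOf i) ≤ i + 1 := by
  unfold tOf
  split_ifs <;> simp only [dw] <;> omega

/-- A word of `K` as a word of `D`. -/
def ofK (w : Raw ℕ) : Raw T := w.map fun p => (Sum.inl p.1, p.2)

/-- A word of `G` as a word of `D`. -/
def ofG (w : Raw ℕ) : Raw T := w.map fun p => (Sum.inr (Sum.inl p.1), p.2)

theorem dlen_ofK (w : Raw ℕ) : dlen dw (ofK w) = w.length := by
  induction w with
  | nil => rfl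
  | cons p w ih => simp [dlen, ofK, dw] at ih ⊢; omega

variable (J : ℕ → ℕ → Bool) (kw : ℕ → Raw ℕ)

/-- The word `c⁻¹ h_j⁻¹ k_j`. -/
def gWord (j : ℕ) : Raw T :=
  (.inr (.inr (.inl false)), false) :: (.inr (.inr (.inr j)), false) :: ofK (kw j)

/-- The slots of pair one. -/
def de₁ (i : ℕ) : Raw T :=
  if i < 12 then [(.inl i, true)]
  else if (i - 12) % 2 = 0 then [(.inr (.inr (.inr ((i - 12) / 2))), true)]
  else if J ((i - 12) / 2).unpair.1 ((i - 12) / 2).unpair.2 then gWord kw ((i - 12) / 2).unpair.1
  else []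

/-- The slots of pair two: every letter. -/
def de₂ (i : ℕ) : Raw T := [(tOf i, true)]

/-- The word of a letter in the generators of `L`. -/
def sw (M : ℕ) (t : T) : Raw Gen := RelL.slot M true (idx t)

/-- The relators of `D`. -/
def rD (rK rG : ℕ → Raw ℕ) (n : ℕ) : Raw T :=
  if n % 2 = 0 then ofK (rK (n / 2)) else ofG (rG (n / 2))

section Values

variable {K G : Type} [Group K] [Group G] (kg : ℕ → K) (gg : ℕ → G)

/-- The value in `D` of a word in its letters. -/
abbrev dval (w : Raw T) : D K G := gval (DWord.gD kg gg) w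

theorem dval_ofK (w : Raw ℕ) : dval kg gg (ofK w) = inK (gval kg w) := by
  induction w with
  | nil => exact (RelL.gval_nil _).trans (by rw [RelL.gval_nil, _root_.map_one])
  | cons p w ih =>
    obtain ⟨a, s⟩ := p
    show gval (DWord.gD kg gg) ((Sum.inl a, s) :: ofK w) = _
    rw [gval_cons, gval_cons kg (a, s) w, _root_.map_mul, ← ih]
    congr 1
    cases s <;> simp [gval_letter, DWord.gD]

theorem dval_ofG (w : Raw ℕ) : dval kg gg (ofG w) = inG (gval gg w) := by
  induction w with
  | nil => exact (RelL.gval_nil _).trans (by rw [RelL.gval_nil, _root_.map_one])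
  | cons p w ih =>
    obtain ⟨a, s⟩ := p
    show gval (DWord.gD kg gg) ((Sum.inr (Sum.inl a), s) :: ofG w) = _
    rw [gval_cons, gval_cons gg (a, s) w, _root_.map_mul, ← ih]
    congr 1
    cases s <;> simp [gval_letter, DWord.gD]

/-- The element `g_j`. -/
theorem dval_gWord (j : ℕ) :
    dval kg gg (gWord kw j) = B.gD (fun j => gval kg (kw j)) j := by
  show gval (DWord.gD kg gg) (_ :: _ :: ofK (kw j)) = _
  rw [gval_cons, gval_cons (DWord.gD kg gg) _ (ofK (kw j)), gval_letter, gval_letter]
  rw [show gval (DWord.gD kg gg) (ofK (kw j)) = inK (gval kg (kw j)) from dval_ofK kg gg (kw j)]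
  simp [DWord.gD, B.gD, cD, hD, mul_assoc]

/-- The subgroup generated by the slots of pair one. -/
def XJ : Subgroup (D K G) := Subgroup.closure (Set.range fun i => dval kg gg (de₁ J kw i))

/-- The family `d¹`. -/
def d₁ (i : ℕ) : XJ J kw kg gg := ⟨dval kg gg (de₁ J kw i), Subgroup.subset_closure ⟨i, rfl⟩⟩

/-- The family `d²`. -/
def d₂ (i : ℕ) : D K G := dval kg gg (de₂ i)

theorem d₂_idx (t : T) : d₂ kg gg (idx t) = DWord.gD kg gg t := by
  show gval (DWord.gD kg gg) [(tOf (idx t), true)] = _
  rw [tOf_idx, gval_letter, if_pos rfl]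

theorem closure_d₁ :
    Subgroup.closure (Set.range fun i => ((d₁ J kw kg gg i : D K G))) = XJ J kw kg gg := rfl

variable {J kw}

/-- The hypotheses of `WordL` on the slots, for words `de₁ J'` of slots that agree with those of
`J` on the indices `i` with `M (i + 1) ≤ n`. -/
theorem setup {J' : ℕ → ℕ → Bool} {M n : ℕ} (hkw : ∀ j, (kw j).length ≤ j + 1)
    (hJ : ∀ j s, M * (Nat.pair j s + 1) ≤ n → J' j s = J j s) :
    Setup dw (XJ J kw kg gg) (DWord.gD kg gg) (d₁ J kw kg gg) (d₂ kg gg) (de₁ J' kw) de₂ 3 M n where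
  val₁ i hi := by
    show dval kg gg (de₁ J' kw i) = dval kg gg (de₁ J kw i)
    unfold de₁
    by_cases h1 : i < 12
    · rw [if_pos h1, if_pos h1]
    by_cases h2 : (i - 12) % 2 = 0
    · rw [if_neg h1, if_neg h1, if_pos h2, if_pos h2]
    rw [hJ _ _ (le_trans (Nat.mul_le_mul_left M ?_) hi)]
    rw [Nat.pair_unpair]
    omega
  val₂ _ := rfl
  len₁ i := by
    unfold de₁
    split_ifs with h1 h2 h3
    · simp [dlen, dw]; omega
    · simp [dlen, dw]; omega
    · have hk := hkw ((i - 12) / 2).unpair.1
      have hp := Nat.unpair_left_le ((i - 12) / 2)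
      have he := dlen_ofK (kw ((i - 12) / 2).unpair.1)
      simp only [dlen, gWord, List.map_cons, List.sum_cons, dw] at he ⊢
      omega
    · simp [dlen]
  len₂ i := by
    have := dw_tOf_le i
    simp [dlen, de₂]
    omega

theorem closure_gD (hkg : Function.Surjective (FreeGroup.lift kg))
    (hgg : Function.Surjective (FreeGroup.lift gg)) :
    Subgroup.closure (Set.range (DWord.gD kg gg)) = ⊤ := by
  refine closure_gens_D (fun x => ?_) (fun x => ?_) (Subgroup.subset_closure ⟨Sum.inr (Sum.inr (Sum.inl false)), rfl⟩)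
    (Subgroup.subset_closure ⟨Sum.inr (Sum.inr (Sum.inl true)), rfl⟩) fun j => Subgroup.subset_closure ⟨Sum.inr (Sum.inr (Sum.inr j)), rfl⟩
  · have hle : (FreeGroup.lift kg).range ≤
        (Subgroup.closure (Set.range (DWord.gD kg gg))).comap inK := by
      rw [FreeGroup.range_lift_eq_closure, Subgroup.closure_le]
      rintro _ ⟨a, rfl⟩
      exact Subgroup.subset_closure ⟨Sum.inl a, rfl⟩
    exact hle (hkg x)
  · have hle : (FreeGroup.lift gg).range ≤
        (Subgroup.closure (Set.range (DWord.gD kg gg))).comap inG := by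
      rw [FreeGroup.range_lift_eq_closure, Subgroup.closure_le]
      rintro _ ⟨a, rfl⟩
      exact Subgroup.subset_closure ⟨Sum.inr (Sum.inl a), rfl⟩
    exact hle (hgg x)

/-- Both families together generate `D`. -/
theorem closure_d (hkg : Function.Surjective (FreeGroup.lift kg))
    (hgg : Function.Surjective (FreeGroup.lift gg)) :
    Subgroup.closure (Set.range (fun i => (d₁ J kw kg gg i : D K G)) ∪ Set.range (d₂ kg gg)) =
      ⊤ := by
  refine top_unique (le_of_eq_of_le (closure_gD kg gg hkg hgg).symm ?_)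
  refine Subgroup.closure_mono ?_
  rintro _ ⟨t, rfl⟩
  exact Or.inr ⟨idx t, d₂_idx kg gg t⟩

/-- With valid `J` the slots generate `X`. -/
theorem XJ_eq (X₀ : Subgroup K) (hX₀ : X₀ = Subgroup.closure (kg '' {n | n < 12}))
    (hJ : ∀ j, (∃ s, J j s = true) ↔ gval kg (kw j) ∉ X₀) :
    XJ J kw kg gg = B.X (G := G) X₀ fun j => gval kg (kw j) := by
  apply le_antisymm
  · rw [XJ, Subgroup.closure_le]
    rintro _ ⟨i, rfl⟩
    show dval kg gg (de₁ J kw i) ∈ B.X X₀ _
    unfold de₁
    split_ifs with h1 h2 h3
    · refine Subgroup.subset_closure (.inl (.inl ⟨kg i, ?_, ?_⟩))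
      · rw [hX₀]; exact Subgroup.subset_closure ⟨i, h1, rfl⟩
      · simp [gval_letter, DWord.gD]
    · refine Subgroup.subset_closure (.inl (.inr ⟨(i - 12) / 2, ?_⟩))
      simp [gval_letter, DWord.gD, hD]
    · refine Subgroup.subset_closure (.inr ⟨_, (hJ _).1 ⟨_, h3⟩, ?_⟩)
      exact (dval_gWord kw kg gg _).symm
    · show gval (DWord.gD kg gg) [] ∈ _
      rw [RelL.gval_nil]
      exact one_mem _
  · have hmem : ∀ i, dval kg gg (de₁ J kw i) ∈ XJ J kw kg gg := fun i =>
      Subgroup.subset_closure ⟨i, rfl⟩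
    rw [B.X, Subgroup.closure_le]
    rintro _ ((⟨x, hx, rfl⟩ | ⟨j, rfl⟩) | ⟨j, hj, rfl⟩)
    · have hle : X₀ ≤ (XJ J kw kg gg).comap inK := by
        rw [hX₀, Subgroup.closure_le]
        rintro _ ⟨i, hi, rfl⟩
        have hi : i < 12 := hi
        have := hmem i
        rw [de₁, if_pos hi] at this
        simpa [gval_letter, DWord.gD] using this
      exact hle hx
    · have := hmem (12 + 2 * j)
      rw [de₁, if_neg (by omega), show 12 + 2 * j - 12 = 2 * j by omega, if_pos (by omega),
        show 2 * j / 2 = j by omega] at this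
      simpa [gval_letter, DWord.gD, hD] using this
    · obtain ⟨s, hs⟩ := (hJ j).2 hj
      have := hmem (13 + 2 * Nat.pair j s)
      rw [de₁, if_neg (by omega), show 13 + 2 * Nat.pair j s - 12 = 2 * Nat.pair j s + 1 by omega,
        if_neg (by omega), show (2 * Nat.pair j s + 1) / 2 = Nat.pair j s by omega,
        Nat.unpair_pair, if_pos hs] at this
      rwa [← dval_gWord kw kg gg j]

/-- The presentation of `D` and the words for `L`. -/
theorem relData (M : ℕ) {rK rG : ℕ → Raw ℕ}
    (hkg : Function.Surjective (FreeGroup.lift kg))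
    (hgg : Function.Surjective (FreeGroup.lift gg))
    (hK : (FreeGroup.lift kg).ker =
      Subgroup.normalClosure (Set.range fun j => FreeGroup.mk (rK j)))
    (hG : (FreeGroup.lift gg).ker =
      Subgroup.normalClosure (Set.range fun j => FreeGroup.mk (rG j))) :
    RelL.Data (XJ J kw kg gg) M (d₁ J kw kg gg) (d₂ kg gg) (DWord.gD kg gg) (rD rK rG)
      (de₁ J kw) de₂ (sw M) tOf where
  surj := by
    rw [← MonoidHom.range_eq_top, FreeGroup.range_lift_eq_closure]
    exact closure_gD kg gg hkg hgg
  ker := by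
    set N := Subgroup.normalClosure (Set.range fun j => FreeGroup.mk (rD rK rG j)) with hN
    refine le_antisymm (fun w hw => ?_) (Subgroup.normalClosure_le_normal ?_)
    · let q : T → FreeGroup T ⧸ N := fun t => QuotientGroup.mk (FreeGroup.of t)
      have hmk : ∀ v, gval q v = QuotientGroup.mk (FreeGroup.mk v) := fun v =>
        DFunLike.congr_fun (f := FreeGroup.lift q) (g := QuotientGroup.mk' N)
          (FreeGroup.ext_hom _ _ fun g => by simp [q]) (FreeGroup.mk v)
      have hpart : ∀ (f : ℕ → T) (r : ℕ → Raw ℕ),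
          (∀ j, FreeGroup.mk ((r j).map fun p => (f p.1, p.2)) ∈ N) →
          Subgroup.normalClosure (Set.range fun j => FreeGroup.mk (r j)) ≤
            (FreeGroup.lift fun a => q (f a)).ker := by
        intro f r h
        refine Subgroup.normalClosure_le_normal ?_
        rintro _ ⟨j, rfl⟩
        show gval (fun a => q (f a)) (r j) = 1
        have e : gval (fun a => q (f a)) (r j) = gval q ((r j).map fun p => (f p.1, p.2)) := by
          induction r j with
          | nil => simp [RelL.gval_nil]
          | cons p v ih =>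
            rw [List.map_cons, gval_cons, gval_cons q (f p.1, p.2), ih, gval_letter,
              gval_letter q (f p.1) p.2]
        rw [e, hmk]
        exact (QuotientGroup.eq_one_iff _).2 (h j)
      have hk' : (FreeGroup.lift kg).ker ≤ (FreeGroup.lift fun a => q (Sum.inl a)).ker :=
        hK ▸ hpart _ rK fun j => Subgroup.subset_normalClosure ⟨2 * j, by
          show FreeGroup.mk (rD rK rG (2 * j)) = _
          rw [rD, if_pos (by omega), show 2 * j / 2 = j by omega]; rfl⟩
      have hg' : (FreeGroup.lift gg).ker ≤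
          (FreeGroup.lift fun a => q (Sum.inr (Sum.inl a))).ker :=
        hG ▸ hpart _ rG fun j => Subgroup.subset_normalClosure ⟨2 * j + 1, by
          show FreeGroup.mk (rD rK rG (2 * j + 1)) = _
          rw [rD, if_neg (by omega), show (2 * j + 1) / 2 = j by omega]; rfl⟩
      let ψ : D K G →* FreeGroup T ⧸ N := Coprod.lift
        (Coprod.lift ((FreeGroup.lift kg).liftOfSurjective hkg ⟨_, hk'⟩)
          ((FreeGroup.lift gg).liftOfSurjective hgg ⟨_, hg'⟩))
        (FreeGroup.lift fun x => q (Sum.inr (Sum.inr x)))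
      have hψ : ψ.comp (FreeGroup.lift (DWord.gD kg gg)) = QuotientGroup.mk' N := by
        refine FreeGroup.ext_hom _ _ fun t => ?_
        rcases t with a | a | x
        · have h1 := MonoidHom.liftOfRightInverse_comp_apply (FreeGroup.lift kg)
            (Function.surjInv hkg) (Function.rightInverse_surjInv hkg)
            ⟨FreeGroup.lift fun a => q (Sum.inl a), hk'⟩ (FreeGroup.of a)
          simp only [FreeGroup.lift_apply_of] at h1
          simp [ψ, DWord.gD, inK, q] at h1 ⊢
          exact h1
        · have h1 := MonoidHom.liftOfRightInverse_comp_apply (FreeGroup.lift gg)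
            (Function.surjInv hgg) (Function.rightInverse_surjInv hgg)
            ⟨FreeGroup.lift fun a => q (Sum.inr (Sum.inl a)), hg'⟩ (FreeGroup.of a)
          simp only [FreeGroup.lift_apply_of] at h1
          simp [ψ, DWord.gD, inG, q] at h1 ⊢
          exact h1
        · simp [ψ, DWord.gD, q]
      have h1 := DFunLike.congr_fun hψ w
      rw [MonoidHom.comp_apply, MonoidHom.mem_ker.1 hw, _root_.map_one] at h1
      exact (QuotientGroup.eq_one_iff w).1 h1.symm
    · rintro _ ⟨n, rfl⟩
      show gval (DWord.gD kg gg) (rD rK rG n) = 1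
      have hk : ∀ j, gval kg (rK j) = 1 := fun j => MonoidHom.mem_ker.1
        (show FreeGroup.mk (rK j) ∈ (FreeGroup.lift kg).ker by
          rw [hK]; exact Subgroup.subset_normalClosure ⟨j, rfl⟩)
      have hg : ∀ j, gval gg (rG j) = 1 := fun j => MonoidHom.mem_ker.1
        (show FreeGroup.mk (rG j) ∈ (FreeGroup.lift gg).ker by
          rw [hG]; exact Subgroup.subset_normalClosure ⟨j, rfl⟩)
      unfold rD
      split_ifs
      · exact (dval_ofK kg gg _).trans (by rw [hk, _root_.map_one])
      · exact (dval_ofG kg gg _).trans (by rw [hg, _root_.map_one])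
  val₁ _ := rfl
  val₂ _ := rfl
  sw_val t := by
    rw [sw, RelL.gval_slot_gL, if_pos rfl, d₂_idx]
  tOf_surj := tOf_surjective

end Values

end Vale.Agent.P193.B.Slots
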