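import Vale.Agent.P193.B.Bound
import Vale.Agent.P193.B.ReadSound
import Vale.Agent.P193.B.Slots

/-!
# Membership in `E`: soundness and completeness with witnesses (P193, piece B)

`inE` is sound if the test of `X` is, and it accepts every word equal in `L` to a word `wit` of `E`
if the test accepts the askable words of `D` that are products of slots of weight
`≤ 3 (n + |wit|) / M`. Such a product is read by `memD`.
-/

namespace Vale.Agent.P193.B.WordL

open Reduce FreeGroup

variable {TD : Type} {D : Type} [Group D] {M C n : ℕ} {de₁ de₂ : ℕ → Raw TD}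
  {oneD memD : Raw TD → Bool} {gD : TD → D} {X : Subgroup D} {d₁ : ℕ → X} {d₂ : ℕ → D}
  {dw : TD → ℕ}

variable (h : Setup dw X gD d₁ d₂ de₁ de₂ C M n)
  (hone : ∀ v, Askable dw M C n v → (oneD v = true ↔ gval gD v = 1))

/-- An inner word coming from the outer stack is within budget. -/
theorem budget_of_mem (hM : 0 < M) {w : Raw Gen} (hw : w.length ≤ n) {st : List (Syl (TI TD))}
    {fd : ℕ} (hfd : fd ≤ flen (w.map (itemL (TD := TD))))
    (hst : flen st ≤ fd ∧ ∀ k, load M (wtI dw) (allow C) k st ≤
      load M (wtI dw) (allow C) k (w.map (itemL (TD := TD))))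
    {s : Syl (TI TD)} (hs : s ∈ st) : Budget dw M C n s.2.1 := by
  have hu : s.2.2.length ≤ flen (w.map (itemL (TD := TD))) := le_trans (le_trans
    (List.single_le_sum (fun x _ => Nat.zero_le x) _ (List.mem_map.2 ⟨s, hs, rfl⟩)) hst.1) hfd
  have hx : ∀ k, excess M (wtI dw) (allow C) k s ≤
      load M (wtI dw) (allow C) k (w.map (itemL (TD := TD))) := fun k =>
    (List.single_le_sum (fun x _ => Nat.zero_le x) _ (List.mem_map.2 ⟨s, hs, rfl⟩)).trans (hst.2 k)
  refine hypL.budget_of hM hw ?_ ?_
  · have h1 := hx false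
    have h2 := Nat.mul_le_mul_left (allow C false) hu
    simp only [excess, allow] at h1 h2 ⊢
    omega
  · have h1 := hx true
    have h2 := Nat.mul_le_mul_left (allow C true) hu
    simp only [excess, allow] at h1 h2 ⊢
    omega

include h hone in
/-- **Soundness of `inE`.** -/
theorem inE_sound (hM : 0 < M)
    (hmem : ∀ u, Askable dw M C n u → memD u = true → gval gD u ∈ X)
    (hX : Subgroup.closure (Set.range fun i => (d₁ i : D)) = X) {w : Raw Gen} (hw : w.length ≤ n)
    (hin : inE M de₁ de₂ oneD memD w = true) :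
    gval (gL M X d₁ d₂) w ∈ L.E X M d₁ d₂ := by
  classical
  refine (inE_iff (memD := fun u => decide (gval gD u ∈ X)) h hone hM
    (fun u _ => by simp) hX hw).1 ?_
  obtain ⟨-, -, hsm⟩ := foldl_spec (hypL h hone hM hw) (w.map (itemL (TD := TD))) []
    ⟨List.isChain_nil, fun hl => by simp at hl⟩
    ⟨by rw [List.append_nil], fun k => by rw [List.append_nil]⟩
  simp only [inE, runL, run, List.all_eq_true] at hin ⊢
  intro s hs
  have hb := budget_of_mem (dw := dw) (C := C) hM hw (le_refl _) hsm hs
  have := hin s hs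
  rcases Bool.or_eq_true_iff.1 this with hs1 | hs1
  · rw [hs1, Bool.true_or]
  refine Bool.or_eq_true_iff.2 (Or.inr ?_)
  obtain ⟨-, -, hsmI⟩ := foldl_spec (hypI h hone hb) (s.2.1.map itemI) []
    ⟨List.isChain_nil, fun hl => by simp at hl⟩
    ⟨by rw [List.append_nil], fun k => by rw [List.append_nil]⟩
  unfold memI runI run at hs1 ⊢
  revert hs1 hsmI
  generalize (s.2.1.map itemI).foldl (push (decode M) oneD (expand de₂)) [] = st
  intro hs1 hsmI
  match st, hsmI, hs1 with
  | [], _, _ => rfl
  | [(b, γ, u)], hsmI, hs1 =>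
    obtain ⟨hx, hu⟩ := hsmI.head
    have hask : Askable dw M C n γ := by
      have h1 : M * dlen dw γ - C * u.length ≤
          load M (fun (_ : Unit) => dw) (fun _ => C) () (s.2.1.map itemI) := by
        have := hx ()
        simp only [excess] at this
        rwa [← length_eq_weight] at this
      rw [(load_itemI (M := M) (C := C) s.2.1).1] at h1
      rw [(load_itemI (M := M) (C := C) s.2.1).2] at hu
      have h2 : C * u.length ≤ C * weight (wtI dw) true s.2.1 := Nat.mul_le_mul_left C hu
      unfold Budget at hb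
      unfold Askable
      omega
    simp only [Bool.and_eq_true, Bool.or_eq_true, decide_eq_true_eq] at hs1 ⊢
    exact ⟨hs1.1, hs1.2.imp id (hmem γ hask)⟩
  | a :: b :: st, _, hs1 => simp at hs1

include h hone in
/-- **Completeness of `inE` on words with a witness.** -/
theorem inE_of_witness (hM : 0 < M) {w : Raw Gen} (hw : w.length ≤ n)
    (wit : Raw (Bool × Letter))
    (hwit : gval (gL M X d₁ d₂) w =
      gval (gE (M := M) (d := fun i => Ext.base M d₂ (d₁ i : D))) wit)
    (hmem : ∀ v, Askable dw M C n v → (∃ q : Raw ℕ,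
      gval gD v = FreeGroup.lift (fun i => (d₁ i : D)) (mk q) ∧
        M * (q.map fun p => p.1 + 1).sum ≤ 3 * (n + wit.length)) → memD v = true) :
    inE M de₁ de₂ oneD memD w = true := by
  obtain ⟨hval, hsh, hsm⟩ := foldl_spec (hypL h hone hM hw) (w.map (itemL (TD := TD))) []
    ⟨List.isChain_nil, fun hl => by simp at hl⟩
    ⟨by rw [List.append_nil], fun k => by rw [List.append_nil]⟩
  rw [Reduce.value, one_mul, prod_itemL] at hval
  simp only [inE, runL, run, List.all_eq_true]
  intro s hs
  cases hs1 : s.1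
  swap
  · rfl
  rw [Bool.false_or]
  have hb := budget_of_mem (dw := dw) (C := C) hM hw (le_refl _) hsm hs
  obtain ⟨q, hq, hqlen⟩ := exists_short_left_parts hsh wit (hval.trans hwit) hs hs1
  have hy : gval (gI M gD d₂) s.2.1 =
      Ext.base M d₂ (FreeGroup.lift (fun i => (d₁ i : D)) (mk q)) := by
    rw [hq]
    exact DFunLike.congr_fun (f := FreeGroup.lift fun i => Ext.base M d₂ (d₁ i : D))
      (g := (Ext.base M d₂).comp (FreeGroup.lift fun i => (d₁ i : D)))
      (FreeGroup.ext_hom _ _ fun i => by simp) (mk q)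
  have hflen : flen ((w.map (itemL (TD := TD))).foldl
      (push (decode M) (oneI M de₂ oneD) (expand (deI de₁))) []) ≤ n :=
    le_trans hsm.1 (le_trans (load_itemL (M := M) (C := C) (dw := dw) w).2.1 hw)
  have hqlen' : M * (q.map fun p => p.1 + 1).sum ≤ 3 * (n + wit.length) := by omega
  obtain ⟨hvalI, hshI, hsmI⟩ := foldl_spec (hypI h hone hb) (s.2.1.map itemI) []
    ⟨List.isChain_nil, fun hl => by simp at hl⟩
    ⟨by rw [List.append_nil], fun k => by rw [List.append_nil]⟩
  rw [Reduce.value, one_mul, prod_itemI, hy] at hvalI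
  unfold memI runI run
  revert hvalI hshI hsmI
  generalize (s.2.1.map itemI).foldl (push (decode M) oneD (expand de₂)) [] = st
  intro hvalI hshI hsmI
  match st, hvalI, hshI, hsmI with
  | [], _, _, _ => rfl
  | [(b, γ, u)], hvalI, _, hsmI =>
    obtain ⟨hx, hu⟩ := hsmI.head
    have hask : Askable dw M C n γ := by
      have h1 : M * dlen dw γ - C * u.length ≤
          load M (fun (_ : Unit) => dw) (fun _ => C) () (s.2.1.map itemI) := by
        have := hx ()
        simp only [excess] at this
        rwa [← length_eq_weight] at this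
      rw [(load_itemI (M := M) (C := C) s.2.1).1] at h1
      rw [(load_itemI (M := M) (C := C) s.2.1).2] at hu
      have h2 : C * u.length ≤ C * weight (wtI dw) true s.2.1 := Nat.mul_le_mul_left C hu
      unfold Budget at hb
      unfold Askable
      omega
    rw [Reduce.value, Reduce.value, one_mul] at hvalI
    cases b
    · simp only [sval, Bool.false_eq_true, if_false] at hvalI
      have he := Ext.left_injective M d₂
        (show Ext.left M d₂ (gval gD γ, mk u) = Ext.left M d₂ (_, 1) from hvalI)
      simp only [Bool.false_or, Bool.and_eq_true, reduce_isEmpty_iff]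
      exact ⟨congrArg Prod.snd he, hmem γ hask ⟨q, congrArg Prod.fst he, hqlen'⟩⟩
    · simp only [sval, if_true] at hvalI
      obtain ⟨p, hp⟩ := Amal.mem_range_of_eq (pairHom_injective M d₂) (wHom_injective M)
        (show inA (pairHom M d₂) (wHom M) (FreeGroup.lift (fun i => (d₁ i : D)) (mk q), 1) =
          inB (pairHom M d₂) (wHom M) (mk u) from hvalI.symm)
      have hp1 : p = 1 :=
        wHom_injective M ((congrArg Prod.snd hp).trans (_root_.map_one (wHom M)).symm)
      have hy1 := congrArg Prod.fst hp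
      rw [hp1, _root_.map_one] at hy1
      simp only [Bool.true_or, Bool.and_true, reduce_isEmpty_iff]
      refine Ext.f'_injective M d₂ ?_
      rw [hvalI, _root_.map_one]
      exact (congrArg _ hy1.symm).trans (_root_.map_one _)
  | a :: b :: st, hvalI, hshI, _ => exact absurd hvalI (value_ne_base hshI (by simp) _)

end Vale.Agent.P193.B.WordL

namespace Vale.Agent.P193.B.Slots

open Reduce

variable {K G : Type} [Group K] [Group G] (kg : ℕ → K) (gg : ℕ → G) {J : ℕ → ℕ → Bool}
  {kw : ℕ → Raw ℕ}

/-- The generators of `X₀`. -/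
def ei (i : Fin 12) : K := kg i

/-- A product of slots is a product of atoms. -/
theorem exists_atoms (q : Raw ℕ) :
    ∃ π : List (DWord.Atom (Fin 12)),
      FreeGroup.lift (fun i => ((d₁ J kw kg gg i : D K G))) (FreeGroup.mk q) =
        (π.map (DWord.atomVal G (fun j => gval kg (kw j)) (ei kg))).prod ∧
      DWord.atomsSize π ≤ (q.map fun p => p.1 + 1).sum ∧
      ∀ j b, Sum.inr (Sum.inr (j, b)) ∈ π →
        (∃ s, J j s = true) ∧ j + 1 ≤ (q.map fun p => p.1 + 1).sum := by
  induction q with
  | nil => exact ⟨[], by simp [← FreeGroup.one_eq_mk], by simp [DWord.atomsSize], by simp⟩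
  | cons p q ih =>
    obtain ⟨π, hπ, hsz, hJ⟩ := ih
    obtain ⟨i, t⟩ := p
    obtain ⟨α, hα, hαs, hαJ⟩ : ∃ α : List (DWord.Atom (Fin 12)),
        FreeGroup.lift (fun i => ((d₁ J kw kg gg i : D K G))) (FreeGroup.mk [(i, t)]) =
          (α.map (DWord.atomVal G (fun j => gval kg (kw j)) (ei kg))).prod ∧
        DWord.atomsSize α ≤ i + 1 ∧
        ∀ j b, Sum.inr (Sum.inr (j, b)) ∈ α → (∃ s, J j s = true) ∧ j + 1 ≤ i + 1 := by
      have hl : FreeGroup.lift (fun i => ((d₁ J kw kg gg i : D K G))) (FreeGroup.mk [(i, t)]) =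
          if t then dval kg gg (de₁ J kw i) else (dval kg gg (de₁ J kw i))⁻¹ := by
        rw [WordL.mk_single]
        cases t <;> simp [d₁]
      rw [hl]
      unfold de₁
      split_ifs with ht h1 h2 h3 h1 h2 h3
      · exact ⟨[.inl [(⟨i, h1⟩, true)]], by
          simp [DWord.atomVal, ei, WordL.gval_letter, DWord.gD],
          by simp [DWord.atomsSize, DWord.atomLen], by simp⟩
      · exact ⟨[.inr (.inl ((i - 12) / 2, true))], by
          simp [DWord.atomVal, WordL.gval_letter, DWord.gD, hD],
          by simp [DWord.atomsSize, DWord.atomLen], by simp⟩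
      · refine ⟨[.inr (.inr (((i - 12) / 2).unpair.1, true))], ?_,
          by simp [DWord.atomsSize, DWord.atomLen], fun j b hj => ?_⟩
        · rw [dval_gWord]; simp [DWord.atomVal]
        · have := Nat.unpair_left_le ((i - 12) / 2)
          simp at hj
          obtain ⟨rfl, -⟩ := hj
          exact ⟨⟨_, h3⟩, by omega⟩
      · exact ⟨[], by simp [RelL.gval_nil], by simp [DWord.atomsSize], by simp⟩
      · exact ⟨[.inl [(⟨i, h1⟩, false)]], by
          simp [DWord.atomVal, ei, WordL.gval_letter, DWord.gD],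
          by simp [DWord.atomsSize, DWord.atomLen], by simp⟩
      · exact ⟨[.inr (.inl ((i - 12) / 2, false))], by
          simp [DWord.atomVal, WordL.gval_letter, DWord.gD, hD],
          by simp [DWord.atomsSize, DWord.atomLen], by simp⟩
      · refine ⟨[.inr (.inr (((i - 12) / 2).unpair.1, false))], ?_,
          by simp [DWord.atomsSize, DWord.atomLen], fun j b hj => ?_⟩
        · rw [dval_gWord]; simp [DWord.atomVal]
        · have := Nat.unpair_left_le ((i - 12) / 2)
          simp at hj
          obtain ⟨rfl, -⟩ := hj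
          exact ⟨⟨_, h3⟩, by omega⟩
      · exact ⟨[], by simp [RelL.gval_nil], by simp [DWord.atomsSize], by simp⟩
    refine ⟨α ++ π, ?_, ?_, fun j b hj => ?_⟩
    · rw [List.map_append, List.prod_append, ← hα, ← hπ, ← _root_.map_mul, FreeGroup.mul_mk]
      rfl
    · have : DWord.atomsSize (α ++ π) = DWord.atomsSize α + DWord.atomsSize π := by
        simp [DWord.atomsSize]
      rw [List.map_cons, List.sum_cons]
      omega
    · rw [List.map_cons, List.sum_cons]
      rcases List.mem_append.1 hj with hj | hj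
      · exact ⟨(hαJ j b hj).1, by have := (hαJ j b hj).2; omega⟩
      · exact ⟨(hJ j b hj).1, by have := (hJ j b hj).2; omega⟩

/-- `memD` reads every short product of slots. -/
theorem memD_of_slots {oneK oneG test : Raw ℕ → Bool} {inJ : ℕ → Bool} {B BK BE H : ℕ}
    (hB : DWord.Right kg gg oneK oneG B) (hYes : DWord.Yes test kg (ei kg) BK BE)
    (hJ : ∀ j s, J j s = true → inJ j = true) {v : Raw T} (hv : v.length ≤ B)
    (hH : ∀ j s, ((Sum.inr (Sum.inr (Sum.inr j)) : T), s) ∈ v → (kw j).length ≤ H)
    (hlen : v.length + 2 * H ≤ BK) (q : Raw ℕ) (hq : (q.map fun p => p.1 + 1).sum ≤ BE)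
    (hsep : ∀ j, j < (q.map fun p => p.1 + 1).sum → inJ j = true →
      ∀ e : Raw (Fin 12), e.length ≤ BE → gval kg (kw j) ≠ gval (ei kg) e)
    (hval : dval kg gg v =
      FreeGroup.lift (fun i => ((d₁ J kw kg gg i : D K G))) (FreeGroup.mk q)) :
    DWord.memD test inJ kw oneK oneG v = true := by
  obtain ⟨π, hπ, hsz, hπJ⟩ := exists_atoms kg gg (J := J) (kw := kw) q
  refine DWord.memD_mono (test := test)
    (inJ := fun j => inJ j && decide (j < (q.map fun p => p.1 + 1).sum))
    (fun _ h => h) (fun j hj => (Bool.and_eq_true_iff.1 hj).1) ?_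
  refine DWord.memD_of_witness hB hYes (fun j => rfl) (fun j hj e he => ?_) v hv hH hlen π
    (le_trans hsz hq) (fun j b hjb => ?_) (hval.trans hπ)
  · simp only [Bool.and_eq_true, decide_eq_true_eq] at hj
    exact hsep j hj.2 hj.1 e he
  · obtain ⟨⟨s, hs⟩, hle⟩ := hπJ j b hjb
    simp only [Bool.and_eq_true, decide_eq_true_eq]
    exact ⟨hJ j s hs, by omega⟩

/-- The length of a word is at most its weight. -/
theorem length_le_dlen (v : Raw T) : v.length ≤ WordL.dlen dw v := by
  induction v with
  | nil => simp [WordL.dlen]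
  | cons p v ih =>
    obtain ⟨a | a | ⟨a⟩ | a, s⟩ := p <;> simp [WordL.dlen, dw] at ih ⊢ <;> omega

/-- An index of `h` in a word is below its weight. -/
theorem succ_le_dlen {v : Raw T} {j : ℕ} {s : Bool}
    (h : ((Sum.inr (Sum.inr (Sum.inr j)) : T), s) ∈ v) : j + 1 ≤ WordL.dlen dw v :=
  List.single_le_sum (fun x _ => Nat.zero_le x) _
    (List.mem_map.2 ⟨((Sum.inr (Sum.inr (Sum.inr j)) : T), s), h, rfl⟩)

end Vale.Agent.P193.B.Slots
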